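import Mathlib
import Crest.Agent.R124.Halving

/-!
# Row 121: ultrafilter weak-operator limits of bounded families of operators
-/

set_option autoImplicit false
set_option linter.unusedSectionVars false

namespace Crest.Agent.R121

open scoped InnerProductSpace Topology
open ContinuousLinearMap Filter

noncomputable section

variable {H : Type*} [NormedAddCommGroup H] [InnerProductSpace ℂ H] [CompleteSpace H]
variable {ι : Type*} (𝒰 : Ultrafilter ι)

lemma exists_lim_of_bdd {f : ι → ℂ} {K : ℝ} (h : ∀ i, ‖f i‖ ≤ K) :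
    ∃ c : ℂ, Tendsto f 𝒰 (𝓝 c) ∧ ‖c‖ ≤ K := by
  have hc : IsCompact (Metric.closedBall (0 : ℂ) K) := isCompact_closedBall _ _
  have h1 : ((𝒰.map f : Ultrafilter ℂ) : Filter ℂ) ≤ 𝓟 (Metric.closedBall (0 : ℂ) K) := by
    rw [Ultrafilter.coe_map, le_principal_iff, mem_map]
    exact univ_mem' fun i => by simpa using h i
  obtain ⟨c, hcK, hc'⟩ := hc.ultrafilter_le_nhds _ h1
  exact ⟨c, hc', by simpa using hcK⟩

/-- weak operator convergence along an ultrafilter -/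
def WTends (F : ι → H →L[ℂ] H) (L : H →L[ℂ] H) : Prop :=
  ∀ ξ η : H, Tendsto (fun i => ⟪F i ξ, η⟫_ℂ) 𝒰 (𝓝 ⟪L ξ, η⟫_ℂ)

variable {𝒰}

lemma WTends.unique {F : ι → H →L[ℂ] H} {L L' : H →L[ℂ] H} (h : WTends 𝒰 F L)
    (h' : WTends 𝒰 F L') : L = L' := by
  ext ξ
  refine ext_inner_right ℂ fun η => ?_
  exact tendsto_nhds_unique (h ξ η) (h' ξ η)

variable (𝒰)

theorem exists_wtends {F : ι → H →L[ℂ] H} {K : ℝ} (hF : ∀ i, ‖F i‖ ≤ K) :
    ∃ L : H →L[ℂ] H, ‖L‖ ≤ K ∧ WTends 𝒰 F L := by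
  have hK : 0 ≤ K := by
    obtain ⟨i⟩ : Nonempty ι := 𝒰.neBot.nonempty
    exact (norm_nonneg _).trans (hF i)
  have hb : ∀ ξ η : H, ∀ i, ‖⟪F i ξ, η⟫_ℂ‖ ≤ K * ‖ξ‖ * ‖η‖ := by
    intro ξ η i
    refine (norm_inner_le_norm _ _).trans ?_
    gcongr
    exact (F i).le_of_opNorm_le (hF i) ξ
  choose c hc hcK using fun ξ η : H => exists_lim_of_bdd 𝒰 (hb ξ η)
  have hadd : ∀ ξ η η', c ξ (η + η') = c ξ η + c ξ η' := by
    intro ξ η η'
    refine tendsto_nhds_unique (hc ξ (η + η')) ?_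
    simpa only [inner_add_right] using (hc ξ η).add (hc ξ η')
  have hsmul : ∀ ξ (a : ℂ) η, c ξ (a • η) = a * c ξ η := by
    intro ξ a η
    refine tendsto_nhds_unique (hc ξ (a • η)) ?_
    simpa only [inner_smul_right] using (hc ξ η).const_mul a
  have hadd' : ∀ ξ ξ' η, c (ξ + ξ') η = c ξ η + c ξ' η := by
    intro ξ ξ' η
    refine tendsto_nhds_unique (hc (ξ + ξ') η) ?_
    simpa only [map_add, inner_add_left] using (hc ξ η).add (hc ξ' η)
  have hsmul' : ∀ (a : ℂ) ξ η, c (a • ξ) η = (starRingEnd ℂ) a * c ξ η := by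
    intro a ξ η
    refine tendsto_nhds_unique (hc (a • ξ) η) ?_
    simpa only [map_smul, inner_smul_left] using (hc ξ η).const_mul ((starRingEnd ℂ) a)
  let φ : H → StrongDual ℂ H := fun ξ =>
    LinearMap.mkContinuous
      { toFun := c ξ
        map_add' := hadd ξ
        map_smul' := hsmul ξ } (K * ‖ξ‖) (fun η => hcK ξ η)
  let L0 : H → H := fun ξ => (InnerProductSpace.toDual ℂ H).symm (φ ξ)
  have hL0 : ∀ ξ η, ⟪L0 ξ, η⟫_ℂ = c ξ η := by
    intro ξ η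
    simp only [L0, InnerProductSpace.toDual_symm_apply]
    rfl
  have hn : ∀ ξ, ‖L0 ξ‖ ≤ K * ‖ξ‖ := by
    intro ξ
    simp only [L0, LinearIsometryEquiv.norm_map]
    exact LinearMap.mkContinuous_norm_le _ (by positivity) _
  let L : H →L[ℂ] H := LinearMap.mkContinuous
    { toFun := L0
      map_add' := fun ξ ξ' => ext_inner_right ℂ fun η => by
        rw [hL0, inner_add_left, hL0, hL0, hadd']
      map_smul' := fun a ξ => ext_inner_right ℂ fun η => by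
        rw [hL0, RingHom.id_apply, inner_smul_left, hL0, hsmul'] } K hn
  refine ⟨L, LinearMap.mkContinuous_norm_le _ hK _, fun ξ η => ?_⟩
  have : ⟪L ξ, η⟫_ℂ = c ξ η := hL0 ξ η
  rw [this]
  exact hc ξ η

variable {𝒰}

lemma WTends.const (L : H →L[ℂ] H) : WTends 𝒰 (fun _ => L) L := fun _ _ => tendsto_const_nhds

lemma WTends.add {F F' : ι → H →L[ℂ] H} {L L' : H →L[ℂ] H} (h : WTends 𝒰 F L)
    (h' : WTends 𝒰 F' L') : WTends 𝒰 (fun i => F i + F' i) (L + L') := by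
  intro ξ η
  simpa only [add_apply, inner_add_left] using (h ξ η).add (h' ξ η)

lemma WTends.smul {F : ι → H →L[ℂ] H} {L : H →L[ℂ] H} (h : WTends 𝒰 F L) (a : ℂ) :
    WTends 𝒰 (fun i => a • F i) (a • L) := by
  intro ξ η
  simpa only [smul_apply, inner_smul_left] using (h ξ η).const_mul ((starRingEnd ℂ) a)

lemma WTends.mul_left {F : ι → H →L[ℂ] H} {L : H →L[ℂ] H} (h : WTends 𝒰 F L) (b : H →L[ℂ] H) :
    WTends 𝒰 (fun i => b * F i) (b * L) := by
  intro ξ η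
  have := h ξ (adjoint b η)
  simpa only [adjoint_inner_right] using! this

lemma WTends.mul_right {F : ι → H →L[ℂ] H} {L : H →L[ℂ] H} (h : WTends 𝒰 F L) (b : H →L[ℂ] H) :
    WTends 𝒰 (fun i => F i * b) (L * b) := fun ξ η => h (b ξ) η

lemma WTends.sub {F F' : ι → H →L[ℂ] H} {L L' : H →L[ℂ] H} (h : WTends 𝒰 F L)
    (h' : WTends 𝒰 F' L') : WTends 𝒰 (fun i => F i - F' i) (L - L') := by
  intro ξ η
  simpa only [sub_apply, inner_sub_left] using (h ξ η).sub (h' ξ η)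

lemma WTends.star {F : ι → H →L[ℂ] H} {L : H →L[ℂ] H} (h : WTends 𝒰 F L) :
    WTends 𝒰 (fun i => star (F i)) (star L) := by
  intro ξ η
  have h1 : Tendsto (fun i => (starRingEnd ℂ) ⟪F i η, ξ⟫_ℂ) 𝒰 (𝓝 ((starRingEnd ℂ) ⟪L η, ξ⟫_ℂ)) :=
    (Complex.continuous_conj.tendsto _).comp (h η ξ)
  simpa only [inner_conj_symm, star_eq_adjoint, adjoint_inner_left] using h1

lemma WTends.zero_of_norm {F : ι → H →L[ℂ] H} (h : Tendsto (fun i => ‖F i‖) 𝒰 (𝓝 0)) :
    WTends 𝒰 F 0 := by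
  intro ξ η
  rw [zero_apply, inner_zero_left]
  rw [tendsto_zero_iff_norm_tendsto_zero]
  refine squeeze_zero (fun _ => norm_nonneg _) (fun i => ?_)
    (by simpa using (h.mul_const ‖ξ‖).mul_const ‖η‖)
  refine (norm_inner_le_norm _ _).trans ?_
  gcongr
  exact (F i).le_opNorm ξ

lemma WTends.congr' {F F' : ι → H →L[ℂ] H} {L : H →L[ℂ] H} (h : WTends 𝒰 F L)
    (hF : Tendsto (fun i => ‖F' i - F i‖) 𝒰 (𝓝 0)) : WTends 𝒰 F' L := by
  have := (WTends.zero_of_norm hF).add h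
  simpa using this

lemma WTends.norm_le {F : ι → H →L[ℂ] H} {L : H →L[ℂ] H} (h : WTends 𝒰 F L) {K : ℝ}
    (hK : ∀ i, ‖F i‖ ≤ K) : ‖L‖ ≤ K := by
  obtain ⟨L', h1, h2⟩ := exists_wtends 𝒰 hK
  rwa [h.unique h2]

lemma WTends.mem {F : ι → H →L[ℂ] H} {L : H →L[ℂ] H} (h : WTends 𝒰 F L)
    {M : VonNeumannAlgebra H} (hF : ∀ i, F i ∈ M) : L ∈ M := by
  apply R124.mem_of_commutant
  intro T hT
  refine (h.mul_left T).unique ?_
  have := h.mul_right T
  refine (funext fun i => ?_ : (fun i => T * F i) = fun i => F i * T) ▸ this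
  exact R124.commutant_comm M (hF i) hT

/-- weak ultrafilter limit (junk value `0` for unbounded families) -/
def wlim (𝒰 : Ultrafilter ι) (F : ι → H →L[ℂ] H) : H →L[ℂ] H :=
  open Classical in if h : ∃ L, WTends 𝒰 F L then h.choose else 0

lemma WTends.wlim {F : ι → H →L[ℂ] H} {L : H →L[ℂ] H} (h : WTends 𝒰 F L) : wlim 𝒰 F = L := by
  have h' : ∃ L, WTends 𝒰 F L := ⟨L, h⟩
  unfold R121.wlim
  rw [dif_pos h']
  exact h'.choose_spec.unique h

lemma wtends_wlim {F : ι → H →L[ℂ] H} {K : ℝ} (hF : ∀ i, ‖F i‖ ≤ K) : WTends 𝒰 F (wlim 𝒰 F) := by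
  obtain ⟨L, _, hL⟩ := exists_wtends 𝒰 hF
  rwa [hL.wlim]

end

end Crest.Agent.R121
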