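import Crest.Agent.R124.VNSplit

/-!
# Row 121, module DICH, part 1: range projections and the layer-cake comparison lemma
-/

set_option autoImplicit false
set_option linter.unusedSectionVars false

namespace Crest.Agent.R121

open Crest.Agent.R124
open scoped InnerProductSpace

universe u

variable {K : Type u} [NormedAddCommGroup K] [InnerProductSpace ℂ K] [CompleteSpace K]

/-- range projection -/
noncomputable def rp (b : K →L[ℂ] K) : K →L[ℂ] K :=
  have : CompleteSpace (LinearMap.range (b : K →ₗ[ℂ] K)).topologicalClosure :=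
    (Submodule.isClosed_topologicalClosure _).completeSpace_coe
  (LinearMap.range (b : K →ₗ[ℂ] K)).topologicalClosure.starProjection

lemma rp_proj (b : K →L[ℂ] K) : IsStarProjection (rp b) := by
  have : CompleteSpace (LinearMap.range (b : K →ₗ[ℂ] K)).topologicalClosure :=
    (Submodule.isClosed_topologicalClosure _).completeSpace_coe
  exact isStarProjection_starProjection

lemma rp_mul_self (b : K →L[ℂ] K) : rp b * b = b := by
  have : CompleteSpace (LinearMap.range (b : K →ₗ[ℂ] K)).topologicalClosure :=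
    (Submodule.isClosed_topologicalClosure _).completeSpace_coe
  ext t
  exact Submodule.starProjection_eq_self_iff.2
    (Submodule.le_topologicalClosure _ (LinearMap.mem_range_self (b : K →ₗ[ℂ] K) t))

lemma rp_apply_mem (b : K →L[ℂ] K) (t : K) : rp b t ∈ closure (Set.range b) := by
  have : CompleteSpace (LinearMap.range (b : K →ₗ[ℂ] K)).topologicalClosure :=
    (Submodule.isClosed_topologicalClosure _).completeSpace_coe
  have h := Submodule.starProjection_apply_mem
    (LinearMap.range (b : K →ₗ[ℂ] K)).topologicalClosure t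
  have h2 : rp b t ∈ ((LinearMap.range (b : K →ₗ[ℂ] K)).topologicalClosure : Set K) := h
  rw [Submodule.topologicalClosure_coe] at h2
  exact h2

lemma mul_rp_eq_zero {B b : K →L[ℂ] K} (h : B * b = 0) : B * rp b = 0 := by
  ext t
  change B (rp b t) = 0
  have hcl : IsClosed {z : K | B z = 0} := isClosed_eq (by fun_prop) continuous_const
  refine closure_minimal ?_ hcl (rp_apply_mem b t)
  rintro _ ⟨s, rfl⟩
  exact congrArg (fun R : K →L[ℂ] K => R s) h

lemma mul_rp_of {B b : K →L[ℂ] K} {c : ℂ} (h : B * b = c • b) : B * rp b = c • rp b := by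
  have h1 : (B - c • 1) * b = 0 := by
    rw [sub_mul, h, smul_mul_assoc, one_mul, sub_self]
  have h2 := mul_rp_eq_zero h1
  rw [sub_mul, smul_mul_assoc, one_mul, sub_eq_zero] at h2
  exact h2

lemma rp_mul_of {B b : K →L[ℂ] K} (h : B * b = b) : B * rp b = rp b := by
  have := mul_rp_of (B := B) (b := b) (c := 1) (by rw [one_smul, h])
  rwa [one_smul] at this

lemma rp_mem (M : VonNeumannAlgebra K) {b : K →L[ℂ] K} (hb : b ∈ M) : rp b ∈ M := by
  apply mem_of_commutant
  have hs : star (rp b) = rp b := (rp_proj b).isSelfAdjoint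
  have key : ∀ T ∈ M.commutant, (1 - rp b) * T * rp b = 0 := by
    intro T hT
    apply mul_rp_eq_zero
    rw [mul_assoc, commutant_comm M hb hT, ← mul_assoc, sub_mul, one_mul, rp_mul_self, sub_self,
      zero_mul]
  intro T hT
  have h1 := key T hT
  have h2 := congrArg star (key (star T) (star_mem hT))
  rw [star_mul, star_mul, star_star, star_sub, star_one, hs, star_zero] at h2
  rw [sub_mul, one_mul, sub_mul, sub_eq_zero] at h1
  rw [mul_sub, mul_one, mul_sub, sub_eq_zero, ← mul_assoc] at h2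
  exact h1.trans h2.symm

/-- order facts in terms of quadratic forms -/
lemma re_inner_nonneg {a : K →L[ℂ] K} (ha : 0 ≤ a) (η : K) : 0 ≤ (⟪a η, η⟫_ℂ).re := by
  have := (ContinuousLinearMap.nonneg_iff_isPositive a).1 ha
  exact this.re_inner_nonneg_left η

lemma re_inner_proj {q : K →L[ℂ] K} (hq : IsStarProjection q) (η : K) :
    (⟪q η, η⟫_ℂ).re = ‖q η‖ ^ 2 := by
  have h1 : q * q = q := hq.isIdempotentElem
  have h2 : ContinuousLinearMap.adjoint q = q := hq.isSelfAdjoint
  have h3 : ⟪q η, η⟫_ℂ = ⟪q η, q η⟫_ℂ := by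
    rw [← ContinuousLinearMap.adjoint_inner_left, h2]
    exact congrArg (fun R : K →L[ℂ] K => ⟪R η, η⟫_ℂ) h1.symm
  rw [h3]
  exact inner_self_eq_norm_sq (𝕜 := ℂ) _

lemma norm_proj_le {q : K →L[ℂ] K} (hq : IsStarProjection q) (η : K) : ‖q η‖ ^ 2 ≤ ‖η‖ ^ 2 := by
  have h := re_inner_proj hq η
  have h1 : (⟪q η, η⟫_ℂ).re ≤ ‖q η‖ * ‖η‖ := (Complex.re_le_norm _).trans (norm_inner_le_norm _ _)
  rw [h] at h1
  nlinarith [norm_nonneg (q η), norm_nonneg η, sq_nonneg (‖q η‖ - ‖η‖)]

/-- the truncation `(s - t)_+` -/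
noncomputable def tr (a : K →L[ℂ] K) (t : ℝ) : K →L[ℂ] K := cfc (fun s : ℝ => max (s - t) 0) a

section
variable {a : K →L[ℂ] K} (ha : 0 ≤ a)
include ha

lemma tr_zero : tr a 0 = a := by
  have hsa : IsSelfAdjoint a := ha.isSelfAdjoint
  unfold tr
  conv_rhs => rw [← cfc_id' ℝ a]
  apply cfc_congr
  intro s hs
  have : 0 ≤ s := spectrum_nonneg_of_nonneg ha hs
  simp [this]

lemma tr_eq_zero {t : ℝ} (ht : ‖a‖ ≤ t) : tr a t = 0 := by
  have hsa : IsSelfAdjoint a := ha.isSelfAdjoint
  unfold tr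
  rw [← cfc_const_zero ℝ a]
  apply cfc_congr
  intro s hs
  have : s ≤ ‖a‖ := (le_abs_self s).trans (by
    rcases subsingleton_or_nontrivial (K →L[ℂ] K) with h | h
    · have : spectrum ℝ a = ∅ := spectrum.of_subsingleton a
      rw [this] at hs
      exact absurd hs (Set.notMem_empty _)
    · exact spectrum.norm_le_norm_of_mem hs)
  have h2 : s - t ≤ 0 := by linarith
  simp [h2]

lemma tr_sa (t : ℝ) : star (tr a t) = tr a t := by
  have : IsSelfAdjoint (tr a t) := cfc_predicate _ a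
  exact this

lemma tr_factor {t δ : ℝ} (hδ : 0 < δ) : ∃ c : K →L[ℂ] K, tr a (t + δ) = tr a t * c := by
  have hsa : IsSelfAdjoint a := ha.isSelfAdjoint
  refine ⟨cfc (fun s : ℝ => max (s - (t + δ)) 0 / max (s - t) δ) a, ?_⟩
  have hc : Continuous fun s : ℝ => max (s - (t + δ)) 0 / max (s - t) δ := by
    refine Continuous.div (by fun_prop) (by fun_prop) (fun s => ?_)
    have : 0 < max (s - t) δ := lt_max_of_lt_right hδ
    exact this.ne'
  unfold tr
  rw [← cfc_mul (fun s : ℝ => max (s - t) 0) _ a (by fun_prop) hc.continuousOn]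
  apply cfc_congr
  intro s _
  by_cases h : s - (t + δ) ≤ 0
  · simp [h]
  · push Not at h
    have h1 : max (s - (t + δ)) 0 = s - (t + δ) := max_eq_left h.le
    have h2 : max (s - t) δ = s - t := max_eq_left (by linarith)
    have h3 : max (s - t) 0 = s - t := max_eq_left (by linarith)
    have h4 : s - t ≠ 0 := by
      have : 0 < s - t := by linarith
      exact this.ne'
    simp only [h1, h2, h3]
    field_simp

lemma tr_diff (t : ℝ) {δ : ℝ} :
    tr a t - tr a (t + δ) = cfc (fun s : ℝ => max (s - t) 0 - max (s - (t + δ)) 0) a := by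
  have hsa : IsSelfAdjoint a := ha.isSelfAdjoint
  unfold tr
  rw [cfc_sub (fun s : ℝ => max (s - t) 0) (fun s : ℝ => max (s - (t + δ)) 0) a
    (by fun_prop) (by fun_prop)]

lemma tr_diff_nonneg (t : ℝ) {δ : ℝ} (hδ : 0 < δ) : 0 ≤ tr a t - tr a (t + δ) := by
  have hsa : IsSelfAdjoint a := ha.isSelfAdjoint
  rw [tr_diff ha]
  apply cfc_nonneg
  intro s _
  have : max (s - (t + δ)) 0 ≤ max (s - t) 0 := max_le_max (by linarith) le_rfl
  linarith

lemma tr_diff_le (t : ℝ) {δ : ℝ} (hδ : 0 < δ) (η : K) :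
    (⟪(tr a t - tr a (t + δ)) η, η⟫_ℂ).re ≤ δ * ‖η‖ ^ 2 := by
  have hsa : IsSelfAdjoint a := ha.isSelfAdjoint
  have h1 : 0 ≤ cfc (fun s : ℝ => δ - (max (s - t) 0 - max (s - (t + δ)) 0)) a := by
    apply cfc_nonneg
    intro s _
    rcases le_total (s - t) 0 with h | h
    · rw [max_eq_right h, max_eq_right (by linarith)]; linarith
    · rw [max_eq_left h]
      have := le_max_left (s - (t + δ)) 0
      linarith
  rw [cfc_sub (fun _ : ℝ => δ) _ a (by fun_prop) (by fun_prop), cfc_const δ a,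
    ← tr_diff ha] at h1
  have h2 := re_inner_nonneg h1 η
  rw [sub_apply, inner_sub_left, Complex.sub_re] at h2
  have h3 : (⟪(algebraMap ℝ (K →L[ℂ] K) δ) η, η⟫_ℂ).re = δ * ‖η‖ ^ 2 := by
    have e1 : (algebraMap ℝ (K →L[ℂ] K) δ) η = (δ : ℂ) • η := by
      rw [Algebra.algebraMap_eq_smul_one]
      change δ • η = _
      exact (Complex.coe_smul δ η).symm
    have e2 : (⟪η, η⟫_ℂ).re = ‖η‖ ^ 2 := inner_self_eq_norm_sq (𝕜 := ℂ) η
    rw [e1, inner_smul_left, Complex.conj_ofReal, Complex.re_ofReal_mul, e2]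
  linarith

lemma tr_diff_mul (t : ℝ) {δ : ℝ} (hδ : 0 < δ) :
    (tr a t - tr a (t + δ)) * tr a (t + δ) = (δ : ℂ) • tr a (t + δ) := by
  have hsa : IsSelfAdjoint a := ha.isSelfAdjoint
  rw [tr_diff ha]
  have e : (δ : ℂ) • tr a (t + δ) = δ • tr a (t + δ) := Complex.coe_smul δ _
  rw [e]
  unfold tr
  rw [← cfc_mul _ _ a (by fun_prop) (by fun_prop), ← cfc_smul δ _ a (by fun_prop)]
  apply cfc_congr
  intro s _
  by_cases h : s - (t + δ) ≤ 0
  · simp [h]
  · push Not at h
    have h1 : max (s - (t + δ)) 0 = s - (t + δ) := max_eq_left h.le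
    have h3 : max (s - t) 0 = s - t := max_eq_left (by linarith)
    simp only [h1, h3, smul_eq_mul]
    ring

end

/-- **Layer-cake comparison.** -/
theorem layer_cake (M : VonNeumannAlgebra K) {a : K →L[ℂ] K} (ha : 0 ≤ a) (haM : a ∈ M)
    (η₁ η₂ : K) {C : ℝ} (hC : 0 ≤ C)
    (h : ∀ q ∈ M, IsStarProjection q → (∀ g : K →L[ℂ] K, g * a = 0 → g * q = 0) →
      ‖q η₁‖ ^ 2 ≤ C * ‖q η₂‖ ^ 2) :
    (⟪a η₁, η₁⟫_ℂ).re ≤ C * (⟪a η₂, η₂⟫_ℂ).re := by
  have hmain : ∀ δ : ℝ, 0 < δ →
      (⟪a η₁, η₁⟫_ℂ).re ≤ C * (δ * ‖η₂‖ ^ 2 + (⟪a η₂, η₂⟫_ℂ).re) := by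
    intro δ hδ
    obtain ⟨n, hn⟩ := exists_nat_ge (‖a‖ / δ)
    have hn' : ‖a‖ ≤ (n + 1 : ℕ) * δ := by
      have h0 : ‖a‖ ≤ n * δ := (div_le_iff₀ hδ).1 hn
      push_cast
      nlinarith
    set b : ℕ → K →L[ℂ] K := fun k => tr a (k * δ) with hb
    have hbs : ∀ k : ℕ, b (k + 1) = tr a (k * δ + δ) := by
      intro k
      simp only [hb]
      congr 1
      push_cast; ring
    have hb0 : b 0 = a := by simp only [hb]; simpa using tr_zero ha
    have hbn : b (n + 1) = 0 := tr_eq_zero ha hn'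
    have hbM : ∀ k, b k ∈ M := fun k => cfc_mem M haM _
    set q : ℕ → K →L[ℂ] K := fun k => rp (b k) with hq
    have hqM : ∀ k, q k ∈ M := fun k => rp_mem M (hbM k)
    have hqp : ∀ k, IsStarProjection (q k) := fun k => rp_proj _
    have hqa : ∀ k, ∀ g : K →L[ℂ] K, g * a = 0 → g * q k = 0 := by
      intro k g hg
      apply mul_rp_eq_zero
      induction k with
      | zero => rw [hb0, hg]
      | succ k ih =>
        obtain ⟨c, hc⟩ := tr_factor ha (t := k * δ) hδ
        rw [hbs, hc, ← mul_assoc]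
        change g * b k * c = 0
        rw [ih, zero_mul]
    set G : ℕ → K →L[ℂ] K := fun k => b k - b (k + 1) with hG
    have hGdef : ∀ k, G k = tr a (k * δ) - tr a (k * δ + δ) := fun k => by
      simp only [hG]; rw [hbs]
    have hGs : ∀ k, star (G k) = G k := by
      intro k
      simp only [hG, hb, star_sub, tr_sa ha]
    -- upper bound
    have hup : ∀ k η, (⟪G k η, η⟫_ℂ).re ≤ δ * ‖q k η‖ ^ 2 := by
      intro k η
      have h1 : q k * G k = G k := by
        obtain ⟨c, hc⟩ := tr_factor ha (t := k * δ) hδ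
        have e1 : b (k + 1) = b k * c := by rw [hbs, hc]
        have e2 : q k * b k = b k := rp_mul_self _
        simp only [hG]
        rw [mul_sub, e1, ← mul_assoc, e2]
      have h2 : G k * q k = G k := by
        have := congrArg star h1
        rwa [star_mul, hGs, (hqp k).isSelfAdjoint.star_eq] at this
      have h3 : ⟪G k η, η⟫_ℂ = ⟪G k (q k η), q k η⟫_ℂ := by
        have e3 : ContinuousLinearMap.adjoint (q k) = q k := (hqp k).isSelfAdjoint
        conv_rhs => rw [← e3, ContinuousLinearMap.adjoint_inner_right, e3]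
        have e4 : q k (G k (q k η)) = G k η := by
          have : q k * (G k * q k) = G k := by rw [h2, h1]
          exact congrArg (fun R : K →L[ℂ] K => R η) this
        rw [e4]
      rw [h3, hGdef]
      exact tr_diff_le ha _ hδ _
    -- lower bound
    have hlow : ∀ k η, δ * ‖q (k + 1) η‖ ^ 2 ≤ (⟪G k η, η⟫_ℂ).re := by
      intro k η
      set p := q (k + 1) with hp
      have h1 : G k * p = (δ : ℂ) • p := by
        apply mul_rp_of
        rw [hGdef, hbs]
        exact tr_diff_mul ha _ hδ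
      have h2 : p * G k = (δ : ℂ) • p := by
        have := congrArg star h1
        rwa [star_mul, hGs, star_smul, (hqp (k + 1)).isSelfAdjoint.star_eq,
          Complex.star_def, Complex.conj_ofReal] at this
      have hpp : p * p = p := (hqp (k + 1)).isIdempotentElem
      have h3 : G k = (1 - p) * G k * (1 - p) + (δ : ℂ) • p := by
        have : (1 - p) * G k * (1 - p) = G k - G k * p - p * G k + p * (G k * p) := by
          noncomm_ring
        rw [this, h1, h2, mul_smul_comm, hpp]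
        abel
      have h4 : ⟪((1 - p) * G k * (1 - p)) η, η⟫_ℂ = ⟪G k ((1 - p) η), (1 - p) η⟫_ℂ := by
        have e3 : ContinuousLinearMap.adjoint (1 - p) = 1 - p :=
          (hqp (k + 1)).one_sub.isSelfAdjoint
        change ⟪(1 - p) (G k ((1 - p) η)), η⟫_ℂ = _
        conv_lhs => rw [← e3, ContinuousLinearMap.adjoint_inner_left, e3]
      have h5 : 0 ≤ (⟪G k ((1 - p) η), (1 - p) η⟫_ℂ).re := by
        rw [hGdef]
        exact re_inner_nonneg (tr_diff_nonneg ha _ hδ) _
      have h6 : (⟪((δ : ℂ) • p) η, η⟫_ℂ).re = δ * ‖p η‖ ^ 2 := by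
        change (⟪(δ : ℂ) • (p η), η⟫_ℂ).re = _
        rw [inner_smul_left, Complex.conj_ofReal, Complex.re_ofReal_mul,
          re_inner_proj (hqp (k + 1))]
      conv_rhs => rw [h3]
      rw [add_apply, inner_add_left, Complex.add_re, h4, h6]
      linarith
    have hsum : ∀ η, (⟪a η, η⟫_ℂ).re = ∑ k ∈ Finset.range (n + 1), (⟪G k η, η⟫_ℂ).re := by
      intro η
      have e1 : ∑ k ∈ Finset.range (n + 1), G k = a := by
        rw [Finset.sum_range_sub' b (n + 1), hb0, hbn, sub_zero]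
      rw [← e1, sum_apply, sum_inner, Complex.re_sum]
    calc (⟪a η₁, η₁⟫_ℂ).re = ∑ k ∈ Finset.range (n + 1), (⟪G k η₁, η₁⟫_ℂ).re := hsum _
      _ ≤ ∑ k ∈ Finset.range (n + 1), C * (δ * ‖q k η₂‖ ^ 2) := by
          refine Finset.sum_le_sum fun k _ => (hup k η₁).trans ?_
          have := h (q k) (hqM k) (hqp k) (hqa k)
          nlinarith
      _ = C * (∑ k ∈ Finset.range n, δ * ‖q (k + 1) η₂‖ ^ 2 + δ * ‖q 0 η₂‖ ^ 2) := by
          rw [← Finset.mul_sum, Finset.sum_range_succ']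
      _ ≤ C * (∑ k ∈ Finset.range n, (⟪G k η₂, η₂⟫_ℂ).re + δ * ‖η₂‖ ^ 2) := by
          refine mul_le_mul_of_nonneg_left ?_ hC
          refine add_le_add (Finset.sum_le_sum fun k _ => hlow k η₂) ?_
          exact mul_le_mul_of_nonneg_left (norm_proj_le (hqp 0) _) hδ.le
      _ ≤ C * (δ * ‖η₂‖ ^ 2 + (⟪a η₂, η₂⟫_ℂ).re) := by
          refine mul_le_mul_of_nonneg_left ?_ hC
          rw [hsum η₂, Finset.sum_range_succ]
          have : 0 ≤ (⟪G n η₂, η₂⟫_ℂ).re := by
            rw [hGdef]; exact re_inner_nonneg (tr_diff_nonneg ha _ hδ) _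
          linarith
  refine le_of_forall_pos_le_add fun ε hε => ?_
  set D : ℝ := C * ‖η₂‖ ^ 2 + 1 with hD
  have hDpos : 0 < D := by positivity
  have h1 := hmain (ε / D) (by positivity)
  have h2 : C * (ε / D * ‖η₂‖ ^ 2) ≤ ε := by
    have : C * (ε / D * ‖η₂‖ ^ 2) = ε * ((C * ‖η₂‖ ^ 2) / D) := by ring
    rw [this]
    have h3 : (C * ‖η₂‖ ^ 2) / D ≤ 1 := by
      rw [div_le_one hDpos]; linarith
    nlinarith
  calc (⟪a η₁, η₁⟫_ℂ).re ≤ _ := h1
    _ = C * (⟪a η₂, η₂⟫_ℂ).re + C * (ε / D * ‖η₂‖ ^ 2) := by ring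
    _ ≤ _ := by linarith

end Crest.Agent.R121
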