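import Mathlib
import Crest.Agent.R121.WLim

/-!
# Row 121: averaging operators on `End(M)` (last variable averaging)

`IsAvg Λ`: linear contractions `Λ` of `End(M) = (M →L M)` which commute with all the operations
`T ↦ b T`, `T ↦ T (b ·)` and fix the left multiplications.  Closed under composition, finite
averages and pointwise weak ultrafilter limits; contains `rho u : T ↦ T(· u) u*`, `u` unitary.
-/

set_option autoImplicit false
set_option linter.unusedSectionVars false

namespace Crest.Agent.R121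

open scoped InnerProductSpace Topology
open ContinuousLinearMap Filter

noncomputable section

universe u

variable {H : Type u} [NormedAddCommGroup H] [InnerProductSpace ℂ H] [CompleteSpace H]
variable {M : VonNeumannAlgebra H}

/-- bounded linear maps `M → M` -/
abbrev EndA (M : VonNeumannAlgebra H) := M.toStarSubalgebra →L[ℂ] M.toStarSubalgebra

/-- left multiplication -/
def Lm (a : M.toStarSubalgebra) : EndA M := ContinuousLinearMap.mul ℂ M.toStarSubalgebra a

/-- right multiplication -/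
def Rm (a : M.toStarSubalgebra) : EndA M := (ContinuousLinearMap.mul ℂ M.toStarSubalgebra).flip a

@[simp] lemma Lm_apply (a x : M.toStarSubalgebra) : Lm a x = a * x := rfl
@[simp] lemma Rm_apply (a x : M.toStarSubalgebra) : Rm a x = x * a := rfl

/-- Averaging operators. -/
structure IsAvg (Λ : EndA M →ₗ[ℂ] EndA M) : Prop where
  norm : ∀ T, ‖Λ T‖ ≤ ‖T‖
  left : ∀ b T, Λ (Lm b ∘L T) = Lm b ∘L Λ T
  right : ∀ b T, Λ (T ∘L Lm b) = Λ T ∘L Lm b
  unit : ∀ d, Λ (Lm d) = Lm d

lemma IsAvg.id : IsAvg (M := M) LinearMap.id where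
  norm _ := le_rfl
  left _ _ := rfl
  right _ _ := rfl
  unit _ := rfl

lemma IsAvg.comp {Λ Λ' : EndA M →ₗ[ℂ] EndA M} (h : IsAvg Λ) (h' : IsAvg Λ') : IsAvg (Λ ∘ₗ Λ') where
  norm T := (h.norm _).trans (h'.norm _)
  left b T := by rw [LinearMap.comp_apply, h'.left, h.left]; rfl
  right b T := by rw [LinearMap.comp_apply, h'.right, h.right]; rfl
  unit d := by rw [LinearMap.comp_apply, h'.unit, h.unit]

/-- `rho u T = T(· u) u*` -/
def rho (u : M.toStarSubalgebra) : EndA M →ₗ[ℂ] EndA M where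
  toFun T := Rm (star u) ∘L T ∘L Rm u
  map_add' T T' := by ext x; simp
  map_smul' c T := by ext x; simp

@[simp] lemma rho_apply (u : M.toStarSubalgebra) (T : EndA M) (x : M.toStarSubalgebra) :
    rho u T x = T (x * u) * star u := rfl

lemma norm_Rm_le (u : M.toStarSubalgebra) : ‖Rm (M := M) u‖ ≤ ‖u‖ :=
  opNorm_le_bound _ (norm_nonneg _) fun x => by
    rw [Rm_apply, mul_comm]; exact norm_mul_le _ _

lemma norm_unitary_le {u : M.toStarSubalgebra} (hu : star u * u = 1) : ‖u‖ ≤ 1 := by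
  have h1 : ‖(star (u : H →L[ℂ] H)) * u‖ = ‖(u : H →L[ℂ] H)‖ * ‖(u : H →L[ℂ] H)‖ :=
    CStarRing.norm_star_mul_self
  have h2 : (star (u : H →L[ℂ] H)) * u = 1 := congrArg Subtype.val hu
  rw [h2] at h1
  have h3 : ‖(1 : H →L[ℂ] H)‖ ≤ 1 := ContinuousLinearMap.norm_id_le
  change ‖(u : H →L[ℂ] H)‖ ≤ 1
  nlinarith [norm_nonneg (u : H →L[ℂ] H)]

lemma rho_isAvg {u : M.toStarSubalgebra} (hu : star u * u = 1) (hu' : u * star u = 1) :
    IsAvg (rho u) where
  norm T := by
    have h1 : ‖Rm (M := M) u‖ ≤ 1 := (norm_Rm_le u).trans (norm_unitary_le hu)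
    have h2 : ‖Rm (M := M) (star u)‖ ≤ 1 := (norm_Rm_le _).trans (norm_unitary_le (by simpa using hu'))
    change ‖Rm (star u) ∘L T ∘L Rm u‖ ≤ ‖T‖
    calc ‖Rm (star u) ∘L T ∘L Rm u‖ ≤ ‖Rm (M := M) (star u)‖ * (‖T‖ * ‖Rm (M := M) u‖) :=
          (opNorm_comp_le _ _).trans (by gcongr; exact opNorm_comp_le _ _)
      _ ≤ 1 * (‖T‖ * 1) := by gcongr
      _ = ‖T‖ := by ring
  left b T := by ext x; simp [mul_assoc]
  right b T := by ext x; simp [mul_assoc]
  unit d := by ext x; simp [mul_assoc, hu']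

lemma comp_finset_sum_left {κ : Type*} (s : Finset κ) (B : EndA M) (f : κ → EndA M) :
    B ∘L (∑ k ∈ s, f k) = ∑ k ∈ s, B ∘L f k := by
  classical
  induction s using Finset.induction_on with
  | empty => simp
  | insert a s ha ih => rw [Finset.sum_insert ha, Finset.sum_insert ha, comp_add, ih]

lemma comp_finset_sum_right {κ : Type*} (s : Finset κ) (B : EndA M) (f : κ → EndA M) :
    (∑ k ∈ s, f k) ∘L B = ∑ k ∈ s, f k ∘L B := by
  classical
  induction s using Finset.induction_on with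
  | empty => simp
  | insert a s ha ih => rw [Finset.sum_insert ha, Finset.sum_insert ha, add_comp, ih]

/-- general finite convex combinations -/
lemma IsAvg.convex {κ : Type*} {s : Finset κ} {w : κ → ℝ} (hw : ∀ k ∈ s, 0 ≤ w k)
    (hw1 : ∑ k ∈ s, w k = 1) {Λ : κ → (EndA M →ₗ[ℂ] EndA M)} (h : ∀ k ∈ s, IsAvg (Λ k)) :
    IsAvg (∑ k ∈ s, (w k : ℂ) • Λ k) where
  norm T := by
    rw [LinearMap.sum_apply]
    refine (norm_sum_le _ _).trans ?_
    calc ∑ k ∈ s, ‖((w k : ℂ) • Λ k) T‖ ≤ ∑ k ∈ s, w k * ‖T‖ := by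
          refine Finset.sum_le_sum fun k hk => ?_
          rw [LinearMap.smul_apply, norm_smul, Complex.norm_real, Real.norm_of_nonneg (hw k hk)]
          exact mul_le_mul_of_nonneg_left ((h k hk).norm T) (hw k hk)
      _ = ‖T‖ := by rw [← Finset.sum_mul, hw1, one_mul]
  left b T := by
    simp only [LinearMap.sum_apply, LinearMap.smul_apply]
    rw [comp_finset_sum_left]
    refine Finset.sum_congr rfl fun k hk => ?_
    rw [(h k hk).left, ContinuousLinearMap.comp_smul]
  right b T := by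
    simp only [LinearMap.sum_apply, LinearMap.smul_apply]
    rw [comp_finset_sum_right]
    refine Finset.sum_congr rfl fun k hk => ?_
    rw [(h k hk).right, ContinuousLinearMap.smul_comp]
  unit d := by
    rw [LinearMap.sum_apply]
    calc ∑ k ∈ s, ((w k : ℂ) • Λ k) (Lm d) = ∑ k ∈ s, (w k : ℂ) • Lm d := by
          refine Finset.sum_congr rfl fun k hk => ?_
          rw [LinearMap.smul_apply, (h k hk).unit]
      _ = Lm d := by
          rw [← Finset.sum_smul, ← Complex.ofReal_sum, hw1, Complex.ofReal_one, one_smul]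

/-- pointwise weak limits of averaging operators -/
theorem exists_limit {ι : Type*} (𝒰 : Ultrafilter ι) {Λ : ι → (EndA M →ₗ[ℂ] EndA M)}
    (h : ∀ i, IsAvg (Λ i)) :
    ∃ Λ' : EndA M →ₗ[ℂ] EndA M, IsAvg Λ' ∧ ∀ T x, WTends 𝒰
      (fun i => ((Λ i T x : M.toStarSubalgebra) : H →L[ℂ] H))
      ((Λ' T x : M.toStarSubalgebra) : H →L[ℂ] H) := by
  have hb : ∀ T x i, ‖((Λ i T x : M.toStarSubalgebra) : H →L[ℂ] H)‖ ≤ ‖T‖ * ‖x‖ := by
    intro T x i
    exact (Λ i T).le_of_opNorm_le ((h i).norm T) x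
  choose L hLn hL using fun T x => exists_wtends 𝒰 (hb T x)
  have hLM : ∀ T x, L T x ∈ M := fun T x => (hL T x).mem fun i => (Λ i T x).2
  have hadd : ∀ T x y, L T (x + y) = L T x + L T y := fun T x y =>
    (hL T (x + y)).unique (by simpa using (hL T x).add (hL T y))
  have hsmul : ∀ T (c : ℂ) x, L T (c • x) = c • L T x := fun T c x =>
    (hL T (c • x)).unique (by simpa using (hL T x).smul c)
  have hadd' : ∀ T T' x, L (T + T') x = L T x + L T' x := fun T T' x =>
    (hL (T + T') x).unique (by simpa using (hL T x).add (hL T' x))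
  have hsmul' : ∀ (c : ℂ) T x, L (c • T) x = c • L T x := fun c T x =>
    (hL (c • T) x).unique (by simpa using (hL T x).smul c)
  let Φ : EndA M → EndA M := fun T => LinearMap.mkContinuous
    { toFun := fun x => ⟨L T x, hLM T x⟩
      map_add' := fun x y => Subtype.ext (hadd T x y)
      map_smul' := fun c x => Subtype.ext (hsmul T c x) } ‖T‖ (fun x => hLn T x)
  have hΦ : ∀ T x, ((Φ T x : M.toStarSubalgebra) : H →L[ℂ] H) = L T x := fun T x => rfl
  let Λ' : EndA M →ₗ[ℂ] EndA M :=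
    { toFun := Φ
      map_add' := fun T T' => by ext x : 2; exact hadd' T T' x
      map_smul' := fun c T => by ext x : 2; exact hsmul' c T x }
  have hΛ' : ∀ T x, ((Λ' T x : M.toStarSubalgebra) : H →L[ℂ] H) = L T x := fun T x => rfl
  refine ⟨Λ', ⟨?_, ?_, ?_, ?_⟩, fun T x => by rw [hΛ']; exact hL T x⟩
  · intro T
    exact LinearMap.mkContinuous_norm_le _ (norm_nonneg _) (fun x => hLn T x)
  · intro b T
    ext x : 2
    rw [hΛ']
    refine (hL (Lm b ∘L T) x).unique ?_
    have := (hL T x).mul_left (b : H →L[ℂ] H)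
    refine (funext fun i => ?_ : (fun i => ((Λ i (Lm b ∘L T) x : M.toStarSubalgebra) : H →L[ℂ] H))
      = fun i => (b : H →L[ℂ] H) * ((Λ i T x : M.toStarSubalgebra) : H →L[ℂ] H)) ▸ this
    rw [(h i).left]; rfl
  · intro b T
    ext x : 2
    rw [hΛ']
    refine (hL (T ∘L Lm b) x).unique ?_
    have := hL T (b * x)
    refine (funext fun i => ?_ : (fun i => ((Λ i (T ∘L Lm b) x : M.toStarSubalgebra) : H →L[ℂ] H))
      = fun i => ((Λ i T (b * x) : M.toStarSubalgebra) : H →L[ℂ] H)) ▸ this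
    rw [(h i).right]; rfl
  · intro d
    ext x : 2
    rw [hΛ']
    refine (hL (Lm d) x).unique ?_
    have := WTends.const (𝒰 := 𝒰) ((d * x : M.toStarSubalgebra) : H →L[ℂ] H)
    refine (funext fun i => ?_ : (fun i => ((Λ i (Lm d) x : M.toStarSubalgebra) : H →L[ℂ] H))
      = fun i => ((d * x : M.toStarSubalgebra) : H →L[ℂ] H)) ▸ this
    rw [(h i).unit]; rfl

end

end Crest.Agent.R121
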