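import Mathlib
import Crest.Agent.R121.AvgOp

/-!
# Row 121: averaging over commuting families of unitaries

`exists_invariant_avg`: for a commuting set `G` of unitaries of `M` there is an averaging operator
`Λ` with `rho u (Λ T) = Λ T` for all `u ∈ G`.
-/

set_option autoImplicit false
set_option linter.unusedSectionVars false

namespace Crest.Agent.R121

open scoped InnerProductSpace Topology
open ContinuousLinearMap Filter

noncomputable section

universe u

variable {H : Type u} [NormedAddCommGroup H] [InnerProductSpace ℂ H] [CompleteSpace H]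
variable {M : VonNeumannAlgebra H} {ι : Type*} {𝒰 : Ultrafilter ι}

/-- pointwise weak convergence of operators on `End(M)` -/
def ATends (𝒰 : Ultrafilter ι) (Λ : ι → (EndA M →ₗ[ℂ] EndA M)) (L : EndA M →ₗ[ℂ] EndA M) : Prop :=
  ∀ T x, WTends 𝒰 (fun i => ((Λ i T x : M.toStarSubalgebra) : H →L[ℂ] H))
    ((L T x : M.toStarSubalgebra) : H →L[ℂ] H)

lemma ATends.unique {Λ : ι → (EndA M →ₗ[ℂ] EndA M)} {L L' : EndA M →ₗ[ℂ] EndA M}
    (h : ATends 𝒰 Λ L) (h' : ATends 𝒰 Λ L') : L = L' := by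
  refine LinearMap.ext fun T => ContinuousLinearMap.ext fun x => Subtype.ext ?_
  exact (h T x).unique (h' T x)

lemma ATends.rho_comp {Λ : ι → (EndA M →ₗ[ℂ] EndA M)} {L : EndA M →ₗ[ℂ] EndA M}
    (h : ATends 𝒰 Λ L) (v : M.toStarSubalgebra) :
    ATends 𝒰 (fun i => rho v ∘ₗ Λ i) (rho v ∘ₗ L) := fun T x =>
  (h T (x * v)).mul_right ((star v : M.toStarSubalgebra) : H →L[ℂ] H)

lemma ATends.comp_right {Λ : ι → (EndA M →ₗ[ℂ] EndA M)} {L : EndA M →ₗ[ℂ] EndA M}
    (h : ATends 𝒰 Λ L) (P : EndA M →ₗ[ℂ] EndA M) :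
    ATends 𝒰 (fun i => Λ i ∘ₗ P) (L ∘ₗ P) := fun T x => h (P T) x

lemma rho_comm {u v : M.toStarSubalgebra} (h : u * v = v * u) :
    rho u ∘ₗ rho v = rho v ∘ₗ rho u := by
  refine LinearMap.ext fun T => ContinuousLinearMap.ext fun x => ?_
  simp only [LinearMap.comp_apply, rho_apply]
  rw [mul_assoc, mul_assoc, h, mul_assoc, mul_assoc, ← star_mul, ← star_mul, h]

lemma cesaro_telescope {R : Type*} [Ring R] [Algebra ℂ R] (P : R) (c : ℂ) (N : ℕ) :
    P * ∑ k ∈ Finset.range (N + 1), c • P ^ k - ∑ k ∈ Finset.range (N + 1), c • P ^ k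
      = c • (P ^ (N + 1) - 1) := by
  rw [Finset.mul_sum, ← Finset.sum_sub_distrib]
  have : ∀ k, P * (c • P ^ k) - c • P ^ k = c • (P ^ (k + 1) - P ^ k) := by
    intro k
    rw [mul_smul_comm, ← pow_succ', smul_sub]
  simp only [this]
  rw [← Finset.smul_sum, Finset.sum_range_sub (fun k => P ^ k), pow_zero]

lemma IsAvg.apply_le {Λ : EndA M →ₗ[ℂ] EndA M} (h : IsAvg Λ) (T : EndA M)
    (x : M.toStarSubalgebra) : ‖((Λ T x : M.toStarSubalgebra) : H →L[ℂ] H)‖ ≤ ‖T‖ * ‖x‖ :=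
  (Λ T).le_of_opNorm_le (h.norm T) x

lemma norm_smul_sub_le {A B : M.toStarSubalgebra} {w K : ℝ} (hw : 0 ≤ w)
    (hA : ‖(A : H →L[ℂ] H)‖ ≤ K) (hB : ‖(B : H →L[ℂ] H)‖ ≤ K) :
    ‖(((w : ℂ) • (A - B) : M.toStarSubalgebra) : H →L[ℂ] H)‖ ≤ w * (2 * K) := by
  have e2 : (((w : ℂ) • (A - B) : M.toStarSubalgebra) : H →L[ℂ] H)
      = (w : ℂ) • ((A : H →L[ℂ] H) - B) := rfl
  rw [e2, norm_smul, Complex.norm_real, Real.norm_of_nonneg hw]
  refine mul_le_mul_of_nonneg_left ?_ hw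
  refine (norm_sub_le _ _).trans ?_
  linarith

/-- Cesàro averages of one unitary -/
theorem exists_cesaro (u : M.toStarSubalgebra) (hu : star u * u = 1) (hu' : u * star u = 1) :
    ∃ Λ : EndA M →ₗ[ℂ] EndA M, IsAvg Λ ∧ rho u ∘ₗ Λ = Λ ∧
      ∀ v : M.toStarSubalgebra, u * v = v * u → rho v ∘ₗ Λ = Λ ∘ₗ rho v := by
  have hP : IsAvg (rho u) := rho_isAvg hu hu'
  let P : Module.End ℂ (EndA M) := rho u
  have hPk : ∀ k : ℕ, IsAvg (P ^ k : Module.End ℂ (EndA M)) := by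
    intro k
    induction k with
    | zero => exact IsAvg.id
    | succ k ih => rw [pow_succ]; exact ih.comp hP
  let w : ℕ → ℝ := fun N => ((N : ℝ) + 1)⁻¹
  have hw : ∀ N, 0 ≤ w N := fun N => by positivity
  let A : ℕ → Module.End ℂ (EndA M) := fun N => ∑ k ∈ Finset.range (N + 1), (w N : ℂ) • P ^ k
  have hA : ∀ N, IsAvg (A N) := fun N => by
    refine IsAvg.convex (s := Finset.range (N + 1)) (w := fun _ => w N) (fun _ _ => hw N) ?_
      (fun k _ => hPk k)
    simp only [Finset.sum_const, Finset.card_range, nsmul_eq_mul, w]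
    push_cast
    field_simp
  obtain ⟨Λ, hΛ, hlim⟩ := exists_limit (hyperfilter ℕ) hA
  have hlim' : ATends (hyperfilter ℕ) A Λ := hlim
  refine ⟨Λ, hΛ, ?_, ?_⟩
  · refine (hlim'.rho_comp u).unique ?_
    intro T x
    refine (hlim' T x).congr' ?_
    have h1 : ∀ N, P * A N - A N = (w N : ℂ) • (P ^ (N + 1) - 1) :=
      fun N => cesaro_telescope P (w N : ℂ) N
    have h2 : ∀ N, ‖((((rho u ∘ₗ A N) T x : M.toStarSubalgebra) : H →L[ℂ] H)
        - ((A N T x : M.toStarSubalgebra) : H →L[ℂ] H))‖ ≤ w N * (2 * (‖T‖ * ‖x‖)) := by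
      intro N
      have e1 : (((rho u ∘ₗ A N) T x : M.toStarSubalgebra) : H →L[ℂ] H)
        - ((A N T x : M.toStarSubalgebra) : H →L[ℂ] H)
          = (((P * A N - A N) T x : M.toStarSubalgebra) : H →L[ℂ] H) := rfl
      rw [e1, h1]
      exact norm_smul_sub_le (hw N) ((hPk (N + 1)).apply_le T x) (IsAvg.id.apply_le T x)
    refine squeeze_zero (fun _ => norm_nonneg _) h2 ?_
    have h3 : Tendsto (fun N : ℕ => w N * (2 * (‖T‖ * ‖x‖))) atTop (𝓝 (0 * (2 * (‖T‖ * ‖x‖)))) := by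
      refine Tendsto.mul_const _ ?_
      simpa [w, one_div] using tendsto_one_div_add_atTop_nhds_zero_nat (𝕜 := ℝ)
    rw [zero_mul] at h3
    exact h3.mono_left Nat.hyperfilter_le_atTop
  · intro v hv
    refine (hlim'.rho_comp v).unique ?_
    have h1 : ∀ N, rho v ∘ₗ A N = A N ∘ₗ rho v := by
      intro N
      have h0 : Commute (rho v : Module.End ℂ (EndA M)) P := (rho_comm hv).symm
      have h2 : Commute (rho v : Module.End ℂ (EndA M)) (A N) :=
        Commute.sum_right _ _ _ fun k _ => (h0.pow_right k).smul_right _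
      exact h2
    have h2 := hlim'.comp_right (rho v)
    have h3 : (fun N => rho v ∘ₗ A N) = fun N => A N ∘ₗ rho v := funext h1
    rw [h3]
    exact h2

/-- finite commuting families -/
theorem exists_finite_avg (F : Finset (M.toStarSubalgebra))
    (hu : ∀ u ∈ F, star u * u = 1 ∧ u * star u = 1)
    (hc : ∀ u ∈ F, ∀ v ∈ F, u * v = v * u) :
    ∃ Λ : EndA M →ₗ[ℂ] EndA M, IsAvg Λ ∧ (∀ u ∈ F, rho u ∘ₗ Λ = Λ) ∧
      ∀ v : M.toStarSubalgebra, (∀ u ∈ F, u * v = v * u) → rho v ∘ₗ Λ = Λ ∘ₗ rho v := by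
  classical
  induction F using Finset.induction_on with
  | empty => exact ⟨LinearMap.id, IsAvg.id, by simp, fun v _ => rfl⟩
  | insert g F hg ih =>
    obtain ⟨Λ, hΛ, h1, h2⟩ := ih (fun u hu' => hu u (Finset.mem_insert_of_mem hu'))
      (fun u hu' v hv' => hc u (Finset.mem_insert_of_mem hu') v (Finset.mem_insert_of_mem hv'))
    obtain ⟨Λg, hΛg, g1, g2⟩ := exists_cesaro g (hu g (Finset.mem_insert_self _ _)).1
      (hu g (Finset.mem_insert_self _ _)).2
    refine ⟨Λg ∘ₗ Λ, hΛg.comp hΛ, ?_, ?_⟩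
    · intro u hu'
      rcases Finset.mem_insert.1 hu' with rfl | hu''
      · rw [← LinearMap.comp_assoc, g1]
      · rw [← LinearMap.comp_assoc, g2 u (hc g (Finset.mem_insert_self _ _) u hu'),
          LinearMap.comp_assoc, h1 u hu'']
    · intro v hv
      rw [← LinearMap.comp_assoc, g2 v (hv g (Finset.mem_insert_self _ _)), LinearMap.comp_assoc,
        h2 v (fun u hu' => hv u (Finset.mem_insert_of_mem hu')), LinearMap.comp_assoc]

/-- **Averaging over a commuting set of unitaries.** -/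
theorem exists_invariant_avg (G : Set (M.toStarSubalgebra))
    (hu : ∀ u ∈ G, star u * u = 1 ∧ u * star u = 1)
    (hc : ∀ u ∈ G, ∀ v ∈ G, u * v = v * u) :
    ∃ Λ : EndA M →ₗ[ℂ] EndA M, IsAvg Λ ∧ ∀ u ∈ G, ∀ T, rho u (Λ T) = Λ T := by
  classical
  have h0 : ∀ F : Finset G, ∃ Λ : EndA M →ₗ[ℂ] EndA M, IsAvg Λ ∧
      ∀ u ∈ F, rho (u : M.toStarSubalgebra) ∘ₗ Λ = Λ := by
    intro F
    obtain ⟨Λ, h1, h2, -⟩ := exists_finite_avg (F.map (Function.Embedding.subtype _))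
      (fun u hu' => by
        obtain ⟨v, _, rfl⟩ := Finset.mem_map.1 hu'
        exact hu v.1 v.2)
      (fun u hu' v hv' => by
        obtain ⟨u', _, rfl⟩ := Finset.mem_map.1 hu'
        obtain ⟨v', _, rfl⟩ := Finset.mem_map.1 hv'
        exact hc u'.1 u'.2 v'.1 v'.2)
    exact ⟨Λ, h1, fun u hu' => h2 u (Finset.mem_map_of_mem _ hu')⟩
  choose L hL hLG using h0
  let 𝒰 : Ultrafilter (Finset G) := Ultrafilter.of atTop
  obtain ⟨Λ, hΛ, hlim⟩ := exists_limit 𝒰 hL
  have hlim' : ATends 𝒰 L Λ := hlim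
  refine ⟨Λ, hΛ, fun u hu' T => ?_⟩
  have h1 : rho u ∘ₗ Λ = Λ := by
    refine (hlim'.rho_comp u).unique ?_
    intro T x ξ η
    refine (hlim' T x ξ η).congr' ?_
    have h2 : ∀ᶠ F in (𝒰 : Filter (Finset G)), ({⟨u, hu'⟩} : Finset G) ≤ F :=
      (Ultrafilter.of_le atTop) (eventually_ge_atTop _)
    filter_upwards [h2] with F hF
    rw [hLG F ⟨u, hu'⟩ (hF (Finset.mem_singleton_self _))]
  exact LinearMap.congr_fun h1 T

lemma right_of_rho {u : M.toStarSubalgebra} (hu : star u * u = 1) {S : EndA M}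
    (h : rho u S = S) (x : M.toStarSubalgebra) : S (x * u) = S x * u := by
  have h1 : rho u S x = S x := by rw [h]
  rw [← h1, rho_apply, mul_assoc, hu, mul_one]

end

end Crest.Agent.R121
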