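import Mathlib.Analysis.VonNeumannAlgebra.Basic
import Mathlib.Analysis.CStarAlgebra.ContinuousLinearMap
import Mathlib.Analysis.InnerProductSpace.Adjoint
import Mathlib.Tactic

/-!
# Row 121, block B: averaging completely bounded maps over columns (algebra)
-/

set_option autoImplicit false

set_option linter.unusedSectionVars false
set_option linter.unusedSimpArgs false

namespace Crest.Agent.R121.B

open scoped InnerProductSpace
open Filter Topology

noncomputable section

universe u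

/-- `1 / √2` as a complex number. -/
def sg : ℂ := ((√2)⁻¹ : ℝ)

lemma sg_mul : sg * sg = 1 / 2 := by
  unfold sg
  rw [← Complex.ofReal_mul, ← mul_inv, Real.mul_self_sqrt (by norm_num)]
  norm_num

lemma star_sg : star sg = sg := Complex.conj_ofReal _

lemma norm_sg_sq : ‖sg‖ ^ 2 = 1 / 2 := by
  have h : ‖sg * sg‖ = 1 / 2 := by rw [sg_mul]; norm_num
  rw [norm_mul] at h
  rw [pow_two, h]

variable {H : Type u} [NormedAddCommGroup H] [InnerProductSpace ℂ H] [CompleteSpace H]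

/-- A finite column over `M` : a finite family `c` in `M` with `∑ c_i* c_i = 1`. -/
structure Col (M : VonNeumannAlgebra H) where
  /-- index type -/
  ι : Type
  [fin : Fintype ι]
  /-- entries -/
  c : ι → M.toStarSubalgebra
  sum_eq : ∑ i, star (c i) * c i = 1

attribute [instance] Col.fin

variable {M : VonNeumannAlgebra H}

/-- The action of `a : M` on a vector. -/
abbrev act (a : M.toStarSubalgebra) (ξ : H) : H := (a : H →L[ℂ] H) ξ

lemma act_add (a b : M.toStarSubalgebra) (ξ : H) : act (a + b) ξ = act a ξ + act b ξ := rfl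
lemma act_sub (a b : M.toStarSubalgebra) (ξ : H) : act (a - b) ξ = act a ξ - act b ξ := rfl
lemma act_mul (a b : M.toStarSubalgebra) (ξ : H) : act (a * b) ξ = act a (act b ξ) := rfl
lemma act_one (ξ : H) : act (1 : M.toStarSubalgebra) ξ = ξ := rfl
lemma act_zero (ξ : H) : act (0 : M.toStarSubalgebra) ξ = 0 := rfl
lemma act_smul (r : ℂ) (a : M.toStarSubalgebra) (ξ : H) : act (r • a) ξ = r • act a ξ := rfl
lemma act_map_smul (a : M.toStarSubalgebra) (r : ℂ) (ξ : H) : act a (r • ξ) = r • act a ξ :=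
  map_smul (a : H →L[ℂ] H) r ξ
lemma act_map_add (a : M.toStarSubalgebra) (ξ η : H) : act a (ξ + η) = act a ξ + act a η :=
  map_add (a : H →L[ℂ] H) ξ η
lemma act_map_sub (a : M.toStarSubalgebra) (ξ η : H) : act a (ξ - η) = act a ξ - act a η :=
  map_sub (a : H →L[ℂ] H) ξ η
lemma act_map_zero (a : M.toStarSubalgebra) : act a (0 : H) = 0 := map_zero (a : H →L[ℂ] H)
lemma act_map_neg (a : M.toStarSubalgebra) (ξ : H) : act a (-ξ) = - act a ξ :=
  map_neg (a : H →L[ℂ] H) ξ
lemma act_neg (a : M.toStarSubalgebra) (ξ : H) : act (-a) ξ = - act a ξ := rfl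

lemma act_sum {ι : Type*} (s : Finset ι) (a : ι → M.toStarSubalgebra) (ξ : H) :
    act (∑ i ∈ s, a i) ξ = ∑ i ∈ s, act (a i) ξ := by
  classical
  induction s using Finset.induction_on with
  | empty => simp [act]
  | insert i s hi ih => rw [Finset.sum_insert hi, Finset.sum_insert hi, act_add, ih]

lemma act_map_sum {ι : Type*} (s : Finset ι) (a : M.toStarSubalgebra) (ξ : ι → H) :
    act a (∑ i ∈ s, ξ i) = ∑ i ∈ s, act a (ξ i) := map_sum (a : H →L[ℂ] H) ξ s

lemma inner_act_left (a : M.toStarSubalgebra) (ξ η : H) : ⟪act (star a) ξ, η⟫_ℂ = ⟪ξ, act a η⟫_ℂ := by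
  change ⟪(ContinuousLinearMap.adjoint (a : H →L[ℂ] H)) ξ, η⟫_ℂ = _
  rw [ContinuousLinearMap.adjoint_inner_left]

lemma inner_act_right (a : M.toStarSubalgebra) (ξ η : H) :
    ⟪ξ, act (star a) η⟫_ℂ = ⟪act a ξ, η⟫_ℂ := by
  change ⟪ξ, (ContinuousLinearMap.adjoint (a : H →L[ℂ] H)) η⟫_ℂ = _
  rw [ContinuousLinearMap.adjoint_inner_right]

lemma norm_act_le (a : M.toStarSubalgebra) (ξ : H) : ‖act a ξ‖ ≤ ‖a‖ * ‖ξ‖ :=
  (a : H →L[ℂ] H).le_opNorm ξ

/-- Composition of columns. -/
def Col.comp (b c : Col M) : Col M where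
  ι := b.ι × c.ι
  c := fun p => b.c p.1 * c.c p.2
  sum_eq := by
    rw [Fintype.sum_prod_type_right]
    have : ∀ j : c.ι, ∑ i : b.ι, star (b.c i * c.c j) * (b.c i * c.c j) = star (c.c j) * c.c j := by
      intro j
      have h1 : ∀ i : b.ι, star (b.c i * c.c j) * (b.c i * c.c j)
          = star (c.c j) * (star (b.c i) * b.c i) * c.c j := by
        intro i; rw [star_mul]; noncomm_ring
      rw [Finset.sum_congr rfl fun i _ => h1 i, ← Finset.sum_mul, ← Finset.mul_sum, b.sum_eq, mul_one]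
    rw [Finset.sum_congr rfl fun j _ => this j, c.sum_eq]

/-- The averaged map `T^b (y) = ∑ T (y b_i*) b_i`. -/
def av (b : Col M) (T : M.toStarSubalgebra →ₗ[ℂ] M.toStarSubalgebra) :
    M.toStarSubalgebra →ₗ[ℂ] M.toStarSubalgebra where
  toFun y := ∑ i, T (y * star (b.c i)) * b.c i
  map_add' x y := by
    simp only [add_mul, map_add, Finset.sum_add_distrib]
  map_smul' r x := by
    simp only [smul_mul_assoc, map_smul, Finset.smul_sum, RingHom.id_apply]

lemma av_apply (b : Col M) (T : M.toStarSubalgebra →ₗ[ℂ] M.toStarSubalgebra)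
    (y : M.toStarSubalgebra) : av b T y = ∑ i, T (y * star (b.c i)) * b.c i := rfl

lemma av_comp (b c : Col M) (T : M.toStarSubalgebra →ₗ[ℂ] M.toStarSubalgebra) :
    av (b.comp c) T = av c (av b T) := by
  refine LinearMap.ext fun y => ?_
  rw [av_apply, av_apply]
  change ∑ p : b.ι × c.ι, T (y * star (b.c p.1 * c.c p.2)) * (b.c p.1 * c.c p.2) = _
  rw [Fintype.sum_prod_type_right]
  refine Finset.sum_congr rfl fun j _ => ?_
  rw [av_apply, Finset.sum_mul]
  refine Finset.sum_congr rfl fun i _ => ?_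
  rw [star_mul, ← mul_assoc, ← mul_assoc]

/-- The trivial column. -/
def Col.one (M : VonNeumannAlgebra H) : Col M where
  ι := Unit
  c := fun _ => 1
  sum_eq := by simp

/-- The column `(1, u) / √2`. -/
def Col.two (u : M.toStarSubalgebra) (hu : star u * u = 1) : Col M where
  ι := Bool
  c := fun e => sg • (if e then u else 1)
  sum_eq := by
    have key : ∀ v : M.toStarSubalgebra, star v * v = 1 →
        star (sg • v) * (sg • v) = ((1 / 2 : ℂ)) • (1 : M.toStarSubalgebra) := by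
      intro v hv
      rw [star_smul, smul_mul_smul_comm, star_sg, sg_mul, hv]
    rw [Fintype.sum_bool]
    simp only [if_true, Bool.false_eq_true, if_false]
    rw [key u hu, key 1 (by simp), ← add_smul]
    norm_num

lemma av_two (u : M.toStarSubalgebra) (hu : star u * u = 1)
    (T : M.toStarSubalgebra →ₗ[ℂ] M.toStarSubalgebra) (y : M.toStarSubalgebra) :
    av (Col.two u hu) T y = (1 / 2 : ℂ) • (T y + T (y * star u) * u) := by
  have key : ∀ v : M.toStarSubalgebra,
      T (y * star (sg • v)) * (sg • v) = (1 / 2 : ℂ) • (T (y * star v) * v) := by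
    intro v
    simp only [star_smul, mul_smul_comm, map_smul, smul_mul_assoc, smul_smul, star_sg, sg_mul]
  rw [av_apply]
  change ∑ e : Bool, T (y * star (sg • (if e then u else 1))) *
    (sg • (if e then u else 1)) = _
  rw [Fintype.sum_bool]
  simp only [if_true, Bool.false_eq_true, if_false]
  rw [key, key, star_one, mul_one, mul_one, smul_add, add_comm]

/-- A finite matrix over `M` which is a contraction. -/
def Ctr {I J : Type} [Fintype I] [Fintype J] (y : I → J → M.toStarSubalgebra) : Prop :=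
  ∀ η : J → H, ∑ i, ‖∑ j, act (y i j) (η j)‖ ^ 2 ≤ ∑ j, ‖η j‖ ^ 2

/-- Complete boundedness of a map `M → M` with constant `C`. -/
def CBd (T : M.toStarSubalgebra →ₗ[ℂ] M.toStarSubalgebra) (C : ℝ) : Prop :=
  ∀ (I J : Type) [Fintype I] [Fintype J] (y : I → J → M.toStarSubalgebra), Ctr y →
    ∀ ζ : J → H, ∑ i, ‖∑ j, act (T (y i j)) (ζ j)‖ ^ 2 ≤ C ^ 2 * ∑ j, ‖ζ j‖ ^ 2

lemma sum_norm_col {ι : Type*} [Fintype ι] (c : ι → M.toStarSubalgebra)
    (hc : ∑ i, star (c i) * c i = 1) (v : H) : ∑ i, ‖act (c i) v‖ ^ 2 = ‖v‖ ^ 2 := by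
  have h1 : ∀ i, ((‖act (c i) v‖ ^ 2 : ℝ) : ℂ) = ⟪act (star (c i) * c i) v, v⟫_ℂ := by
    intro i
    rw [act_mul, inner_act_left, inner_self_eq_norm_sq_to_K (𝕜 := ℂ)]
    push_cast
    rfl
  have h2 : ((∑ i, ‖act (c i) v‖ ^ 2 : ℝ) : ℂ) = ((‖v‖ ^ 2 : ℝ) : ℂ) := by
    push_cast
    have h3 : ∑ i, ((‖act (c i) v‖ : ℂ)) ^ 2 = ∑ i, ⟪act (star (c i) * c i) v, v⟫_ℂ :=
      Finset.sum_congr rfl fun i _ => by rw [← h1 i]; push_cast; rfl
    rw [h3, ← sum_inner, ← act_sum, hc, act_one, inner_self_eq_norm_sq_to_K (𝕜 := ℂ)]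
    rfl
  exact_mod_cast h2

/-- A row `(c_i*)` with `∑ c_i* c_i = 1` is a contraction. -/
lemma norm_row_le {ι : Type*} [Fintype ι] (c : ι → M.toStarSubalgebra)
    (hc : ∑ i, star (c i) * c i = 1) (η : ι → H) :
    ‖∑ i, act (star (c i)) (η i)‖ ^ 2 ≤ ∑ i, ‖η i‖ ^ 2 := by
  set v : H := ∑ i, act (star (c i)) (η i) with hv
  have h0 : ‖v‖ ^ 2 ≤ ∑ i, ‖act (c i) v‖ * ‖η i‖ := by
    have h1 : ((‖v‖ ^ 2 : ℝ) : ℂ) = ∑ i, ⟪act (c i) v, η i⟫_ℂ := by
      have : ((‖v‖ ^ 2 : ℝ) : ℂ) = ⟪v, v⟫_ℂ := by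
        rw [inner_self_eq_norm_sq_to_K (𝕜 := ℂ)]; push_cast; rfl
      rw [this]
      have h2 : ⟪v, v⟫_ℂ = ⟪v, ∑ i, act (star (c i)) (η i)⟫_ℂ := by rw [← hv]
      rw [h2, inner_sum]
      exact Finset.sum_congr rfl fun i _ => by rw [inner_act_right]
    have h2 : ‖v‖ ^ 2 = ‖((‖v‖ ^ 2 : ℝ) : ℂ)‖ := by
      rw [Complex.norm_real, Real.norm_of_nonneg (by positivity)]
    rw [h2, h1]
    refine (norm_sum_le _ _).trans (Finset.sum_le_sum fun i _ => norm_inner_le_norm _ _)
  have h3 : (∑ i, ‖act (c i) v‖ * ‖η i‖) ^ 2 ≤ (∑ i, ‖act (c i) v‖ ^ 2) * ∑ i, ‖η i‖ ^ 2 :=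
    Finset.sum_mul_sq_le_sq_mul_sq _ _ _
  rw [sum_norm_col c hc v] at h3
  have h4 : (‖v‖ ^ 2) ^ 2 ≤ ‖v‖ ^ 2 * ∑ i, ‖η i‖ ^ 2 := by
    refine le_trans ?_ h3
    exact pow_le_pow_left₀ (by positivity) h0 2
  by_cases hv0 : ‖v‖ = 0
  · rw [hv0]; simpa using Finset.sum_nonneg fun i _ => sq_nonneg ‖η i‖
  · have hpos : 0 < ‖v‖ ^ 2 := by positivity
    rw [pow_two (‖v‖ ^ 2)] at h4
    exact le_of_mul_le_mul_left h4 hpos

section Tests

variable {𝔱 𝔩 : Type} [Fintype 𝔱] [Fintype 𝔩]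

/-- Value of a test `(d, Y)` on a family of maps. -/
def V (ξ : 𝔩 → H) {I K : Type} [Fintype I] [Fintype K]
    (S : 𝔱 → (M.toStarSubalgebra →ₗ[ℂ] M.toStarSubalgebra)) (d : K → M.toStarSubalgebra)
    (Y : 𝔱 → I → K × 𝔩 → M.toStarSubalgebra) : ℝ :=
  ∑ t, ∑ i, ‖∑ p : K × 𝔩, act (S t (Y t i p)) (act (d p.1) (ξ p.2))‖ ^ 2

lemma V_nonneg (ξ : 𝔩 → H) {I K : Type} [Fintype I] [Fintype K]
    (S : 𝔱 → (M.toStarSubalgebra →ₗ[ℂ] M.toStarSubalgebra)) (d : K → M.toStarSubalgebra)
    (Y : 𝔱 → I → K × 𝔩 → M.toStarSubalgebra) : 0 ≤ V ξ S d Y :=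
  Finset.sum_nonneg fun _ _ => Finset.sum_nonneg fun _ _ => sq_nonneg _

/-- The test obtained by inserting a column `c`. -/
def insY {I K : Type} (c : Col M) (Y : 𝔱 → I → K × 𝔩 → M.toStarSubalgebra) :
    𝔱 → I → (c.ι × K) × 𝔩 → M.toStarSubalgebra :=
  fun t i p => Y t i (p.1.2, p.2) * star (c.c p.1.1)

lemma V_av (ξ : 𝔩 → H) {I K : Type} [Fintype I] [Fintype K] (c : Col M)
    (S : 𝔱 → (M.toStarSubalgebra →ₗ[ℂ] M.toStarSubalgebra)) (d : K → M.toStarSubalgebra)
    (Y : 𝔱 → I → K × 𝔩 → M.toStarSubalgebra) :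
    V ξ (fun t => av c (S t)) d Y
      = V ξ S (fun p : c.ι × K => c.c p.1 * d p.2) (insY c Y) := by
  unfold V insY
  refine Finset.sum_congr rfl fun t _ => Finset.sum_congr rfl fun i _ => ?_
  congr 2
  rw [Fintype.sum_prod_type, Fintype.sum_prod_type, Fintype.sum_prod_type_right]
  refine Finset.sum_congr rfl fun k _ => ?_
  rw [Finset.sum_comm]
  refine Finset.sum_congr rfl fun l _ => ?_
  rw [av_apply, act_sum]
  rfl

lemma sum_eq_comp {K : Type} [Fintype K] (c : Col M) (d : K → M.toStarSubalgebra)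
    (hd : ∑ k, star (d k) * d k = 1) :
    ∑ p : c.ι × K, star (c.c p.1 * d p.2) * (c.c p.1 * d p.2) = 1 := by
  rw [Fintype.sum_prod_type_right]
  have : ∀ j : K, ∑ i : c.ι, star (c.c i * d j) * (c.c i * d j) = star (d j) * d j := by
    intro j
    have h1 : ∀ i : c.ι, star (c.c i * d j) * (c.c i * d j)
        = star (d j) * (star (c.c i) * c.c i) * d j := by
      intro i; rw [star_mul]; noncomm_ring
    rw [Finset.sum_congr rfl fun i _ => h1 i, ← Finset.sum_mul, ← Finset.mul_sum, c.sum_eq, mul_one]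
  rw [Finset.sum_congr rfl fun j _ => this j, hd]

lemma Ctr_insY {I K : Type} [Fintype I] [Fintype K] (c : Col M)
    (Y : 𝔱 → I → K × 𝔩 → M.toStarSubalgebra) (t : 𝔱) (hY : Ctr (Y t)) : Ctr (insY c Y t) := by
  intro η
  have h1 : ∀ i, ∑ p : (c.ι × K) × 𝔩, act (insY c Y t i p) (η p)
      = ∑ q : K × 𝔩, act (Y t i q) (∑ j, act (star (c.c j)) (η ((j, q.1), q.2))) := by
    intro i
    unfold insY
    simp only [Fintype.sum_prod_type]
    rw [Finset.sum_comm]
    refine Finset.sum_congr rfl fun k _ => ?_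
    rw [Finset.sum_comm]
    refine Finset.sum_congr rfl fun l _ => ?_
    rw [act_map_sum]
    rfl
  simp only [h1]
  refine (hY _).trans ?_
  have h2 : ∑ p : (c.ι × K) × 𝔩, ‖η p‖ ^ 2 = ∑ q : K × 𝔩, ∑ j, ‖η ((j, q.1), q.2)‖ ^ 2 := by
    simp only [Fintype.sum_prod_type]
    rw [Finset.sum_comm]
    refine Finset.sum_congr rfl fun k _ => ?_
    rw [Finset.sum_comm]
  rw [h2]
  exact Finset.sum_le_sum fun q _ => norm_row_le c.c c.sum_eq _

/-- sign of the parallelogram. -/
def eps (e : Bool) : ℂ := if e then -1 else 1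

/-- the two unitaries. -/
def uu (u : M.toStarSubalgebra) (e : Bool) : M.toStarSubalgebra := if e then u else 1

/-- The parallelogram matrix. -/
def parY {I K : Type} [DecidableEq K] [DecidableEq 𝔩] [DecidableEq 𝔱]
    (u x : M.toStarSubalgebra) (t₀ : 𝔱)
    (Y : 𝔱 → I → K × 𝔩 → M.toStarSubalgebra) :
    𝔱 → (I ⊕ (K × 𝔩)) → (Bool × K) × 𝔩 → M.toStarSubalgebra :=
  fun t i p => Sum.elim (fun i => sg • (Y t i (p.1.2, p.2) * star (uu u p.1.1)))
    (fun q => if t = t₀ ∧ q = (p.1.2, p.2) then (sg * eps p.1.1) • (x * star (uu u p.1.1)) else 0) i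

/-- The parallelogram column. -/
def parD {K : Type} (u : M.toStarSubalgebra) (d : K → M.toStarSubalgebra) :
    Bool × K → M.toStarSubalgebra := fun p => sg • (uu u p.1 * d p.2)

lemma sum_parD {K : Type} [Fintype K] (u : M.toStarSubalgebra) (hu : star u * u = 1)
    (d : K → M.toStarSubalgebra) (hd : ∑ k, star (d k) * d k = 1) :
    ∑ p, star (parD u d p) * parD u d p = 1 := by
  have := sum_eq_comp (Col.two u hu) d hd
  have h : ∀ p : Bool × K, parD u d p = (Col.two u hu).c p.1 * d p.2 := by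
    intro p
    change sg • ((if p.1 then u else 1) * d p.2) = (sg • (if p.1 then u else 1)) * d p.2
    rw [smul_mul_assoc]
  simp only [h]
  exact this

lemma norm_star_unitary (u : M.toStarSubalgebra) (hu' : u * star u = 1) (η : H) :
    ‖act (star u) η‖ = ‖η‖ := by
  have h : ((‖act (star u) η‖ ^ 2 : ℝ) : ℂ) = ((‖η‖ ^ 2 : ℝ) : ℂ) := by
    have h1 : ((‖act (star u) η‖ ^ 2 : ℝ) : ℂ) = ⟪act (star u) η, act (star u) η⟫_ℂ := by
      rw [inner_self_eq_norm_sq_to_K (𝕜 := ℂ)]; push_cast; rfl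
    rw [h1, inner_act_left, ← act_mul, hu', act_one, inner_self_eq_norm_sq_to_K (𝕜 := ℂ)]
    push_cast; rfl
  have h2 : ‖act (star u) η‖ ^ 2 = ‖η‖ ^ 2 := by exact_mod_cast h
  exact (pow_left_inj₀ (norm_nonneg _) (norm_nonneg _) two_ne_zero).1 h2

lemma norm_act_le_of_norm_le_one (x : M.toStarSubalgebra) (hx : ‖x‖ ≤ 1) (η : H) :
    ‖act x η‖ ≤ ‖η‖ :=
  (norm_act_le x η).trans (mul_le_of_le_one_left (norm_nonneg _) hx)

/-- parallelogram identity with phases -/
lemma par_norm (a b : H) : ‖sg • (a + b)‖ ^ 2 + ‖sg • (a - b)‖ ^ 2 = ‖a‖ ^ 2 + ‖b‖ ^ 2 := by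
  rw [norm_smul, norm_smul, mul_pow, mul_pow, norm_sg_sq]
  have := parallelogram_law_with_norm ℂ a b
  nlinarith [this]

lemma Ctr_parY {I K : Type} [Fintype I] [Fintype K] [DecidableEq K] [DecidableEq 𝔩]
    [DecidableEq 𝔱] (u x : M.toStarSubalgebra) (hu' : u * star u = 1) (hx : ‖x‖ ≤ 1) (t₀ : 𝔱)
    (Y : 𝔱 → I → K × 𝔩 → M.toStarSubalgebra) (t : 𝔱) (hY : Ctr (Y t)) : Ctr (parY u x t₀ Y t) := by
  intro η
  rw [Fintype.sum_sum_type]
  set P : K × 𝔩 → H := fun q => sg • (η ((false, q.1), q.2) + act (star u) (η ((true, q.1), q.2)))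
    with hP
  set N : K × 𝔩 → H := fun q => sg • (η ((false, q.1), q.2) - act (star u) (η ((true, q.1), q.2)))
    with hN
  have h1 : ∀ i : I, ∑ p : (Bool × K) × 𝔩, act (parY u x t₀ Y t (Sum.inl i) p) (η p)
      = ∑ q : K × 𝔩, act (Y t i q) (P q) := by
    intro i
    simp only [Fintype.sum_prod_type, Fintype.sum_bool]
    rw [← Finset.sum_add_distrib]
    refine Finset.sum_congr rfl fun k _ => ?_
    rw [← Finset.sum_add_distrib]
    refine Finset.sum_congr rfl fun l _ => ?_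
    simp only [parY, Sum.elim_inl, uu, if_true, Bool.false_eq_true, if_false, star_one, mul_one, hP,
      act_smul, act_mul, act_map_smul, act_map_add, smul_add]
    rw [add_comm]
  have h2 : ∀ q : K × 𝔩, ‖∑ p : (Bool × K) × 𝔩, act (parY u x t₀ Y t (Sum.inr q) p) (η p)‖ ^ 2
      ≤ ‖N q‖ ^ 2 := by
    intro q
    by_cases ht : t = t₀
    · have h3 : ∑ p : (Bool × K) × 𝔩, act (parY u x t₀ Y t (Sum.inr q) p) (η p) = act x (N q) := by
        simp only [Fintype.sum_prod_type, Fintype.sum_bool]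
        rw [← Finset.sum_add_distrib]
        rw [Finset.sum_eq_single q.1]
        · rw [← Finset.sum_add_distrib, Finset.sum_eq_single q.2]
          · simp only [parY, Sum.elim_inr, ht, true_and, uu, eps, if_true, Bool.false_eq_true,
              if_false, star_one, mul_one, mul_neg, hN, act_smul, act_mul, act_map_smul,
              act_map_sub, smul_sub, neg_smul, act_neg]
            rw [sub_eq_add_neg, add_comm]
          · intro l _ hl
            have : ¬ (q = (q.1, l)) := fun h => hl (congrArg Prod.snd h).symm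
            simp only [parY, Sum.elim_inr, ht, true_and, this, if_false, act_zero, add_zero]
          · intro h; exact absurd (Finset.mem_univ _) h
        · intro k _ hk
          rw [← Finset.sum_add_distrib]
          refine Finset.sum_eq_zero fun l _ => ?_
          have : ¬ (q = (k, l)) := fun h => hk (congrArg Prod.fst h).symm
          simp only [parY, Sum.elim_inr, ht, true_and, this, if_false, act_zero, add_zero]
        · intro h; exact absurd (Finset.mem_univ _) h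
      rw [h3]
      exact pow_le_pow_left₀ (norm_nonneg _) (norm_act_le_of_norm_le_one x hx _) 2
    · have h3 : ∑ p : (Bool × K) × 𝔩, act (parY u x t₀ Y t (Sum.inr q) p) (η p) = 0 := by
        refine Finset.sum_eq_zero fun p _ => ?_
        simp only [parY, Sum.elim_inr, ht, false_and, if_false, act_zero]
      rw [h3, norm_zero]
      have := sq_nonneg ‖N q‖
      simpa using this
  simp only [h1]
  calc ∑ i, ‖∑ q : K × 𝔩, act (Y t i q) (P q)‖ ^ 2
        + ∑ q, ‖∑ p : (Bool × K) × 𝔩, act (parY u x t₀ Y t (Sum.inr q) p) (η p)‖ ^ 2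
      ≤ ∑ q, ‖P q‖ ^ 2 + ∑ q, ‖N q‖ ^ 2 :=
        add_le_add (hY P) (Finset.sum_le_sum fun q _ => h2 q)
    _ = ∑ q : K × 𝔩, (‖η ((false, q.1), q.2)‖ ^ 2 + ‖η ((true, q.1), q.2)‖ ^ 2) := by
        rw [← Finset.sum_add_distrib]
        refine Finset.sum_congr rfl fun q _ => ?_
        rw [hP, hN]
        simp only
        rw [par_norm, norm_star_unitary u hu']
    _ = ∑ p, ‖η p‖ ^ 2 := by
        simp only [Fintype.sum_prod_type, Fintype.sum_bool]
        rw [← Finset.sum_add_distrib]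
        refine Finset.sum_congr rfl fun k _ => ?_
        rw [← Finset.sum_add_distrib]
        refine Finset.sum_congr rfl fun l _ => ?_
        rw [add_comm]

/-- The parallelogram identity for values of tests. -/
lemma V_par (ξ : 𝔩 → H) {I K : Type} [Fintype I] [Fintype K] [DecidableEq K] [DecidableEq 𝔩]
    [DecidableEq 𝔱] (u x : M.toStarSubalgebra) (hu : star u * u = 1) (t₀ : 𝔱)
    (S : 𝔱 → (M.toStarSubalgebra →ₗ[ℂ] M.toStarSubalgebra)) (d : K → M.toStarSubalgebra)
    (Y : 𝔱 → I → K × 𝔩 → M.toStarSubalgebra) :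
    V ξ (fun t => av (Col.two u hu) (S t)) d Y
      + (1 / 4) * ∑ q : K × 𝔩, ‖act (S t₀ x - S t₀ (x * star u) * u) (act (d q.1) (ξ q.2))‖ ^ 2
      = V ξ S (parD u d) (parY u x t₀ Y) := by
  have h1 : ∀ t (i : I), ∑ p : (Bool × K) × 𝔩,
      act (S t (parY u x t₀ Y t (Sum.inl i) p)) (act (parD u d p.1) (ξ p.2))
      = ∑ q : K × 𝔩, act (av (Col.two u hu) (S t) (Y t i q)) (act (d q.1) (ξ q.2)) := by
    intro t i
    simp only [Fintype.sum_prod_type, Fintype.sum_bool]
    rw [← Finset.sum_add_distrib]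
    refine Finset.sum_congr rfl fun k _ => ?_
    rw [← Finset.sum_add_distrib]
    refine Finset.sum_congr rfl fun l _ => ?_
    rw [av_two]
    simp only [parY, parD, Sum.elim_inl, uu, if_true, Bool.false_eq_true, if_false, star_one,
      mul_one, one_mul, act_smul, map_smul, act_map_smul, act_add, act_mul, smul_smul, sg_mul,
      smul_add]
    rw [add_comm]
  have h2 : ∀ q : K × 𝔩, ∑ p : (Bool × K) × 𝔩,
      act (S t₀ (parY u x t₀ Y t₀ (Sum.inr q) p)) (act (parD u d p.1) (ξ p.2))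
      = (1 / 2 : ℂ) • act (S t₀ x - S t₀ (x * star u) * u) (act (d q.1) (ξ q.2)) := by
    intro q
    simp only [Fintype.sum_prod_type, Fintype.sum_bool]
    rw [← Finset.sum_add_distrib]
    rw [Finset.sum_eq_single q.1]
    · rw [← Finset.sum_add_distrib, Finset.sum_eq_single q.2]
      · simp only [parY, parD, Sum.elim_inr, true_and, uu, eps, if_true, Bool.false_eq_true,
          if_false, star_one, mul_one, one_mul, mul_neg, act_smul, map_smul, act_map_smul,
          act_sub, act_mul, smul_smul, sg_mul, smul_sub, neg_smul, map_neg, act_neg, smul_neg]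
        rw [sub_eq_add_neg, add_comm]
      · intro l _ hl
        have : ¬ (q = (q.1, l)) := fun h => hl (congrArg Prod.snd h).symm
        simp only [parY, Sum.elim_inr, true_and, this, if_false, map_zero, act_zero, add_zero]
      · intro h; exact absurd (Finset.mem_univ _) h
    · intro k _ hk
      rw [← Finset.sum_add_distrib]
      refine Finset.sum_eq_zero fun l _ => ?_
      have : ¬ (q = (k, l)) := fun h => hk (congrArg Prod.fst h).symm
      simp only [parY, Sum.elim_inr, true_and, this, if_false, map_zero, act_zero, add_zero]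
    · intro h; exact absurd (Finset.mem_univ _) h
  have h3 : ∀ t, t ≠ t₀ → ∀ q : K × 𝔩, ∑ p : (Bool × K) × 𝔩,
      act (S t (parY u x t₀ Y t (Sum.inr q) p)) (act (parD u d p.1) (ξ p.2)) = 0 := by
    intro t ht q
    refine Finset.sum_eq_zero fun p _ => ?_
    simp only [parY, Sum.elim_inr, ht, false_and, if_false, map_zero, act_zero]
  unfold V
  have h4 : ∀ t, ∑ i : I ⊕ (K × 𝔩), ‖∑ p : (Bool × K) × 𝔩,
      act (S t (parY u x t₀ Y t i p)) (act (parD u d p.1) (ξ p.2))‖ ^ 2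
      = ∑ i : I, ‖∑ q : K × 𝔩, act (av (Col.two u hu) (S t) (Y t i q)) (act (d q.1) (ξ q.2))‖ ^ 2
        + (if t = t₀ then (1 / 4) * ∑ q : K × 𝔩,
          ‖act (S t₀ x - S t₀ (x * star u) * u) (act (d q.1) (ξ q.2))‖ ^ 2 else 0) := by
    intro t
    rw [Fintype.sum_sum_type]
    simp only [h1]
    congr 1
    split_ifs with ht
    · subst ht
      simp only [h2, norm_smul, mul_pow]
      rw [Finset.mul_sum]
      refine Finset.sum_congr rfl fun q _ => ?_
      norm_num
    · simp only [h3 t ht, norm_zero]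
      simp
  rw [Finset.sum_congr rfl fun t _ => h4 t, Finset.sum_add_distrib, Finset.sum_ite_eq']
  simp

end Tests

end

end Crest.Agent.R121.B
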