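import Crest.Agent.R121.BCol
import Crest.Agent.R124.VNSplit

/-!
# Row 121, block B: weak limits in `M`, approximate units below a central support
-/

set_option autoImplicit false

namespace Crest.Agent.R121.B

open scoped InnerProductSpace
open Filter Topology

noncomputable section

universe u

variable {H : Type u} [NormedAddCommGroup H] [InnerProductSpace ℂ H] [CompleteSpace H]
variable {M : VonNeumannAlgebra H}

lemma exists_scalar_lim {α : Type*} (U : Ultrafilter α) (f : α → ℂ) (R : ℝ)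
    (hR : ∀ a, ‖f a‖ ≤ R) : ∃ L : ℂ, Tendsto f U (𝓝 L) ∧ ‖L‖ ≤ R := by
  have hc : IsCompact (Metric.closedBall (0 : ℂ) R) := isCompact_closedBall _ _
  have hle : ((U.map f : Ultrafilter ℂ) : Filter ℂ) ≤ 𝓟 (Metric.closedBall (0 : ℂ) R) := by
    rw [Filter.le_principal_iff]
    refine Filter.mem_map.2 (Filter.univ_mem' fun a => ?_)
    simpa using hR a
  obtain ⟨L, hL, hlim⟩ := hc.ultrafilter_le_nhds (U.map f) hle
  exact ⟨L, hlim, by simpa using hL⟩

/-- Bounded families in `M` have weak-operator limits in `M` along ultrafilters. -/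
theorem exists_wot_lim {α : Type*} (U : Ultrafilter α) (x : α → M.toStarSubalgebra) (R : ℝ)
    (hR : ∀ a, ‖x a‖ ≤ R) : ∃ D : M.toStarSubalgebra, ‖D‖ ≤ R ∧
      ∀ ξ η : H, Tendsto (fun a => ⟪η, act (x a) ξ⟫_ℂ) U (𝓝 ⟪η, act D ξ⟫_ℂ) := by
  classical
  obtain ⟨a0, -⟩ : ∃ a : α, a ∈ (Set.univ : Set α) :=
    (Ultrafilter.nonempty_of_mem (f := U) Filter.univ_mem)
  have hR0 : 0 ≤ R := (norm_nonneg _).trans (hR a0)
  have hb : ∀ (v w : H) (a : α), ‖⟪act (x a) v, w⟫_ℂ‖ ≤ R * ‖v‖ * ‖w‖ := by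
    intro v w a
    refine (norm_inner_le_norm _ _).trans ?_
    gcongr
    exact (norm_act_le (x a) v).trans (by gcongr; exact hR a)
  choose L hL hLn using fun (v w : H) =>
    exists_scalar_lim U (fun a => ⟪act (x a) v, w⟫_ℂ) (R * ‖v‖ * ‖w‖) (hb v w)
  have huniq : ∀ {f : α → ℂ} {a b : ℂ}, Tendsto f U (𝓝 a) → Tendsto f U (𝓝 b) → a = b :=
    fun h1 h2 => tendsto_nhds_unique h1 h2
  let B0 : H →ₗ⋆[ℂ] H →ₗ[ℂ] ℂ := LinearMap.mk₂'ₛₗ (starRingEnd ℂ) (RingHom.id ℂ) L
    (fun v v' w => huniq (hL (v + v') w) (by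
      have := (hL v w).add (hL v' w)
      refine this.congr fun a => ?_
      rw [act_map_add, inner_add_left]))
    (fun c v w => huniq (hL (c • v) w) (by
      have := (hL v w).const_mul ((starRingEnd ℂ) c)
      refine this.congr fun a => ?_
      rw [act_map_smul, inner_smul_left]))
    (fun v w w' => huniq (hL v (w + w')) (by
      have := (hL v w).add (hL v w')
      refine this.congr fun a => ?_
      rw [inner_add_right]))
    (fun c v w => huniq (hL v (c • w)) (by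
      have := (hL v w).const_mul c
      refine this.congr fun a => ?_
      rw [inner_smul_right]))
  let B : H →L⋆[ℂ] H →L[ℂ] ℂ := LinearMap.mkContinuous₂ B0 R (fun v w => hLn v w)
  set D0 : H →L[ℂ] H := InnerProductSpace.continuousLinearMapOfBilin B with hD0
  have hD : ∀ v w : H, ⟪D0 v, w⟫_ℂ = L v w := by
    intro v w
    rw [hD0, InnerProductSpace.continuousLinearMapOfBilin_apply]
    rfl
  have hlim : ∀ v w : H, Tendsto (fun a => ⟪act (x a) v, w⟫_ℂ) U (𝓝 ⟪D0 v, w⟫_ℂ) := by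
    intro v w; rw [hD]; exact hL v w
  have hlim' : ∀ v w : H, Tendsto (fun a => ⟪w, act (x a) v⟫_ℂ) U (𝓝 ⟪w, D0 v⟫_ℂ) := by
    intro v w
    have := (Complex.continuous_conj.tendsto _).comp (hlim v w)
    simp only [inner_conj_symm] at this
    refine this.congr fun a => ?_
    simp only [Function.comp, inner_conj_symm]
  have hn : ‖D0‖ ≤ R := by
    refine ContinuousLinearMap.opNorm_le_bound _ hR0 fun v => ?_
    by_cases h0 : ‖D0 v‖ = 0
    · rw [h0]; positivity
    · have h1 : ‖⟪D0 v, D0 v⟫_ℂ‖ ≤ R * ‖v‖ * ‖D0 v‖ := by rw [hD]; exact hLn v (D0 v)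
      have h2 : ‖⟪D0 v, D0 v⟫_ℂ‖ = ‖D0 v‖ * ‖D0 v‖ := by
        rw [inner_self_eq_norm_sq_to_K (𝕜 := ℂ)]
        rw [norm_pow]
        simp [pow_two]
      rw [h2] at h1
      exact le_of_mul_le_mul_right h1 (lt_of_le_of_ne (norm_nonneg _) (Ne.symm h0))
  have hmem : D0 ∈ M := by
    refine R124.mem_of_commutant M _ fun T hT => ?_
    refine ContinuousLinearMap.ext fun v => ?_
    refine ext_inner_left ℂ fun w => ?_
    change ⟪w, T (D0 v)⟫_ℂ = ⟪w, D0 (T v)⟫_ℂ
    have h1 := hlim' (T v) w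
    have h2 := hlim' v (ContinuousLinearMap.adjoint T w)
    rw [ContinuousLinearMap.adjoint_inner_left] at h2
    refine huniq h2 (h1.congr fun a => ?_)
    rw [ContinuousLinearMap.adjoint_inner_left]
    have h3 : (x a : H →L[ℂ] H) * T = T * (x a : H →L[ℂ] H) :=
      R124.commutant_comm M (x a).2 hT |>.symm
    have h4 : (x a : H →L[ℂ] H) (T v) = T ((x a : H →L[ℂ] H) v) :=
      congrArg (fun R : H →L[ℂ] H => R v) h3
    change ⟪w, (x a : H →L[ℂ] H) (T v)⟫_ℂ = ⟪w, T ((x a : H →L[ℂ] H) v)⟫_ℂ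
    rw [h4]
  exact ⟨⟨D0, hmem⟩, hn, fun ξ η => hlim' ξ η⟩

/-- Elements of `span M h H` as finite sums. -/
lemma mem_spanP (h : M.toStarSubalgebra) {w : H}
    (hw : w ∈ R124.spanP M (h : H →L[ℂ] H)) :
    ∃ (ι : Type) (_ : Fintype ι) (x : ι → M.toStarSubalgebra) (t : ι → H),
      w = ∑ j, act (x j * h) (t j) := by
  refine Submodule.span_induction (p := fun w _ => ∃ (ι : Type) (_ : Fintype ι)
    (x : ι → M.toStarSubalgebra) (t : ι → H), w = ∑ j, act (x j * h) (t j)) ?_ ?_ ?_ ?_ hw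
  · rintro _ ⟨x, hx, t, rfl⟩
    exact ⟨Unit, inferInstance, fun _ => ⟨x, hx⟩, fun _ => t, by simp; rfl⟩
  · exact ⟨Empty, inferInstance, fun e => e.elim, fun e => e.elim, by simp⟩
  · rintro a b _ _ ⟨ι, _, x, t, rfl⟩ ⟨ι', _, x', t', rfl⟩
    exact ⟨ι ⊕ ι', inferInstance, Sum.elim x x', Sum.elim t t', by
      rw [Fintype.sum_sum_type]; rfl⟩
  · rintro c a _ ⟨ι, _, x, t, rfl⟩
    exact ⟨ι, inferInstance, x, fun j => c • t j, by
      rw [Finset.smul_sum]
      exact Finset.sum_congr rfl fun j _ => (act_map_smul _ _ _).symm⟩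

/-- Simultaneous approximation of `csupp h η`, `η ∈ N`. -/
lemma approx_csupp (h : M.toStarSubalgebra) (N : Finset H) (κ : ℝ) (hκ : 0 < κ) :
    ∃ (ι : Type) (_ : Fintype ι) (x : ι → M.toStarSubalgebra) (t : H → ι → H),
      ∀ η ∈ N, ‖R124.csupp M (h : H →L[ℂ] H) η - ∑ j, act (x j * h) (t η j)‖ < κ := by
  classical
  induction N using Finset.induction_on with
  | empty => exact ⟨Empty, inferInstance, fun e => e.elim, fun _ e => e.elim, by simp⟩
  | insert η N hη ih =>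
    obtain ⟨ι, _, x, t, ht⟩ := ih
    have hcl : R124.csupp M (h : H →L[ℂ] H) η ∈
        closure ((R124.spanP M (h : H →L[ℂ] H) : Submodule ℂ H) : Set H) :=
      R124.csupp_apply_mem M _ η
    obtain ⟨w, hw, hd⟩ := Metric.mem_closure_iff.1 hcl κ hκ
    obtain ⟨ι', _, x', t', rfl⟩ := mem_spanP h hw
    refine ⟨ι ⊕ ι', inferInstance, Sum.elim x x',
      fun ζ => Sum.elim (if ζ = η then fun _ => 0 else t ζ) (if ζ = η then t' else fun _ => 0), ?_⟩
    intro ζ hζ
    rw [Fintype.sum_sum_type]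
    rcases Finset.mem_insert.1 hζ with rfl | hζN
    · simp only [if_true, Sum.elim_inl, Sum.elim_inr, act_map_zero, Finset.sum_const_zero, zero_add]
      rw [← dist_eq_norm]; exact hd
    · have hne : ζ ≠ η := fun e => hη (e ▸ hζN)
      simp only [hne, if_false, Sum.elim_inl, Sum.elim_inr, act_map_zero, Finset.sum_const_zero,
        add_zero]
      exact ht ζ hζN

/-- `g s = (max s 0 + e)^{-1/2}` -/
def gfun (e s : ℝ) : ℝ := (√(max s 0 + e))⁻¹

/-- `q s = e / (max s 0 + e)` -/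
def qfun (e s : ℝ) : ℝ := e * (max s 0 + e)⁻¹

lemma gfun_cont {e : ℝ} (he : 0 < e) : Continuous (gfun e) := by
  unfold gfun
  refine Continuous.inv₀ (by fun_prop) fun s => ?_
  have : 0 < max s 0 + e := by have := le_max_right s 0; linarith
  exact (Real.sqrt_pos.2 this).ne'

lemma qfun_cont {e : ℝ} (he : 0 < e) : Continuous (qfun e) := by
  unfold qfun
  refine Continuous.mul continuous_const (Continuous.inv₀ (by fun_prop) fun s => ?_)
  have : 0 < max s 0 + e := by have := le_max_right s 0; linarith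
  exact this.ne'

lemma qfun_nonneg {e : ℝ} (he : 0 < e) (s : ℝ) : 0 ≤ qfun e s := by
  unfold qfun
  have : 0 < max s 0 + e := by have := le_max_right s 0; linarith
  positivity

lemma gq {e s : ℝ} (he : 0 < e) (hs : 0 ≤ s) : gfun e s * s * gfun e s + qfun e s = 1 := by
  unfold gfun qfun
  rw [max_eq_left hs]
  have h1 : 0 < s + e := by linarith
  have h2 : (√(s + e))⁻¹ * s * (√(s + e))⁻¹ = s * (s + e)⁻¹ := by
    rw [mul_right_comm, ← mul_inv, Real.mul_self_sqrt h1.le, mul_comm]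
  rw [h2, ← add_mul]
  exact mul_inv_cancel₀ h1.ne'

lemma qsq {e s : ℝ} (he : 0 < e) (hs : 0 ≤ s) : qfun e s * s * qfun e s ≤ e := by
  unfold qfun
  rw [max_eq_left hs]
  have h1 : 0 < s + e := by linarith
  rw [show e * (s + e)⁻¹ * s * (e * (s + e)⁻¹) = e * (e * s) / (s + e) ^ 2 by
    field_simp]
  rw [div_le_iff₀ (by positivity)]
  nlinarith [mul_nonneg he.le (sq_nonneg s), mul_nonneg (mul_nonneg he.le he.le) hs,
    mul_nonneg he.le (mul_nonneg he.le he.le)]

/-- Approximate units of the ideal generated by `h`. -/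
theorem exists_cols_csupp (h : M.toStarSubalgebra) (hs : star h = h) (N : Finset H) (ε : ℝ)
    (hε : 0 < ε) :
    ∃ (ι : Type) (_ : Fintype ι) (a : ι → M.toStarSubalgebra) (r : M.toStarSubalgebra),
      (∑ i, star (h * a i) * (h * a i)) + star r * r = 1 ∧
      ∀ η ∈ N, ‖R124.csupp M (h : H →L[ℂ] H) η‖ ^ 2 - ε ≤ ∑ i, ‖act (h * a i) η‖ ^ 2 := by
  classical
  set z : H →L[ℂ] H := R124.csupp M (h : H →L[ℂ] H) with hz
  set S : ℝ := ∑ η ∈ N, ‖η‖ with hS
  have hS0 : 0 ≤ S := Finset.sum_nonneg fun _ _ => norm_nonneg _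
  set κ : ℝ := ε / (2 * (S + 1)) with hκ
  have hκ0 : 0 < κ := by positivity
  obtain ⟨ι, _, x, t, ht⟩ := approx_csupp h N κ hκ0
  set B : ℝ := 1 + ∑ η ∈ N, ∑ j, ‖t η j‖ with hB
  have hB1 : 1 ≤ B := by
    have : 0 ≤ ∑ η ∈ N, ∑ j, ‖t η j‖ :=
      Finset.sum_nonneg fun _ _ => Finset.sum_nonneg fun _ _ => norm_nonneg _
    linarith
  set e : ℝ := (κ / B) ^ 2 with he
  have he0 : 0 < e := by positivity
  set T0 : M.toStarSubalgebra := ∑ j, (x j * h) * star (x j * h) with hT0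
  set tt : H →L[ℂ] H := (T0 : H →L[ℂ] H) with htt
  have htt' : tt = ∑ j, ((x j : H →L[ℂ] H) * (h : H →L[ℂ] H)) *
      star ((x j : H →L[ℂ] H) * (h : H →L[ℂ] H)) := by
    rw [htt, hT0]
    push_cast
    rfl
  have hpos : 0 ≤ tt := by
    rw [htt']
    exact Finset.sum_nonneg fun j _ => mul_star_self_nonneg _
  have hsa : IsSelfAdjoint tt := IsSelfAdjoint.of_nonneg hpos
  have hsp : ∀ s ∈ spectrum ℝ tt, 0 ≤ s := fun s hs => spectrum_nonneg_of_nonneg hpos hs
  have httM : tt ∈ M := T0.2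
  set ρ : H →L[ℂ] H := cfc (gfun e) tt with hρ
  set r : H →L[ℂ] H := cfc (fun s => √(qfun e s)) tt with hr
  set G : H →L[ℂ] H := cfc (qfun e) tt with hG
  have hρM : ρ ∈ M := R124.cfc_mem M httM _
  have hrM : r ∈ M := R124.cfc_mem M httM _
  have hρs : star ρ = ρ := (cfc_predicate (gfun e) tt : IsSelfAdjoint _)
  have hrs : star r = r := (cfc_predicate (fun s => √(qfun e s)) tt : IsSelfAdjoint _)
  have hGs : star G = G := (cfc_predicate (qfun e) tt : IsSelfAdjoint _)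
  have gc := (gfun_cont he0).continuousOn (s := spectrum ℝ tt)
  have qc := (qfun_cont he0).continuousOn (s := spectrum ℝ tt)
  have sqc : ContinuousOn (fun s => √(qfun e s)) (spectrum ℝ tt) :=
    (Real.continuous_sqrt.comp (qfun_cont he0)).continuousOn
  have hid : cfc (fun s : ℝ => s) tt = tt := cfc_id' ℝ tt
  have hρtρ : ρ * tt * ρ = cfc (fun s => gfun e s * s * gfun e s) tt := by
    rw [cfc_mul (fun s => gfun e s * s) (gfun e) tt (gc.mul continuousOn_id) gc,
      cfc_mul (gfun e) (fun s => s) tt gc continuousOn_id, hid]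
  have hrr : r * r = G := by
    rw [hr, ← cfc_mul _ _ tt sqc sqc, hG]
    exact cfc_congr fun s _ => Real.mul_self_sqrt (qfun_nonneg he0 s)
  have hsum : ρ * tt * ρ + G = 1 := by
    rw [hρtρ, hG, ← cfc_add tt (fun s => gfun e s * s * gfun e s) (qfun e)
      ((gc.mul continuousOn_id).mul gc) qc]
    rw [show cfc (fun s => gfun e s * s * gfun e s + qfun e s) tt = cfc (fun _ : ℝ => (1 : ℝ)) tt
      from cfc_congr fun s hs => gq he0 (hsp s hs)]
    exact cfc_const_one ℝ tt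
  have hGtG : G * tt * G ≤ algebraMap ℝ (H →L[ℂ] H) e := by
    have h1 : G * tt * G = cfc (fun s => qfun e s * s * qfun e s) tt := by
      rw [cfc_mul (fun s => qfun e s * s) (qfun e) tt (qc.mul continuousOn_id) qc,
        cfc_mul (qfun e) (fun s => s) tt qc continuousOn_id, hid]
    rw [h1]
    exact cfc_le_algebraMap _ _ _ (fun s hs => qsq he0 (hsp s hs)) ((qc.mul continuousOn_id).mul qc)
  -- norm estimate for `h x_j* G`
  have hest : ∀ j (v : H), ‖act (star (x j * h)) (G v)‖ ^ 2 ≤ e * ‖v‖ ^ 2 := by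
    intro j v
    have h1 : ∀ k, ((‖act (star (x k * h)) (G v)‖ ^ 2 : ℝ) : ℂ)
        = ⟪act ((x k * h) * star (x k * h)) (G v), G v⟫_ℂ := by
      intro k
      have h2 : ⟪act ((x k * h) * star (x k * h)) (G v), G v⟫_ℂ
          = ⟪act (star (x k * h)) (G v), act (star (x k * h)) (G v)⟫_ℂ := by
        rw [act_mul, inner_act_right]
      rw [h2, inner_self_eq_norm_sq_to_K (𝕜 := ℂ)]
      push_cast
      rfl
    have h3 : ((∑ k, ‖act (star (x k * h)) (G v)‖ ^ 2 : ℝ) : ℂ) = ⟪(G * tt * G) v, v⟫_ℂ := by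
      have h4 : ⟪(G * tt * G) v, v⟫_ℂ = ⟪tt (G v), G v⟫_ℂ := by
        change ⟪G (tt (G v)), v⟫_ℂ = _
        rw [← ContinuousLinearMap.adjoint_inner_right]
        change ⟪tt (G v), (star G) v⟫_ℂ = _
        rw [hGs]
      have h5 : tt (G v) = ∑ k, act ((x k * h) * star (x k * h)) (G v) := by
        rw [← act_sum]
      rw [h4, h5, sum_inner]
      push_cast
      refine Finset.sum_congr rfl fun k _ => ?_
      rw [← h1 k]; push_cast; rfl
    have h6 : ∑ k, ‖act (star (x k * h)) (G v)‖ ^ 2 ≤ e * ‖v‖ ^ 2 := by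
      have h7 : 0 ≤ (⟪(algebraMap ℝ (H →L[ℂ] H) e - G * tt * G) v, v⟫_ℂ).re := by
        have := (ContinuousLinearMap.le_def _ _).1 hGtG
        exact this.2 v
      have h8 : ((algebraMap ℝ (H →L[ℂ] H) e - G * tt * G) v) = (e : ℂ) • v - (G * tt * G) v := by
        rw [Algebra.algebraMap_eq_smul_one]
        change (e • (1 : H →L[ℂ] H)) v - _ = _
        rfl
      rw [h8, inner_sub_left, inner_smul_left, ← h3, inner_self_eq_norm_sq_to_K (𝕜 := ℂ),
        Complex.sub_re, Complex.ofReal_re, Complex.conj_ofReal] at h7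
      have h9 : ((e : ℂ) * ((‖v‖ : ℂ)) ^ 2).re = e * ‖v‖ ^ 2 := by
        rw [← Complex.ofReal_pow, ← Complex.ofReal_mul, Complex.ofReal_re]
      rw [show ((RCLike.ofReal ‖v‖ : ℂ)) = (‖v‖ : ℂ) from rfl, h9] at h7
      linarith
    exact (Finset.single_le_sum (f := fun k => ‖act (star (x k * h)) (G v)‖ ^ 2)
      (fun _ _ => sq_nonneg _) (Finset.mem_univ j)).trans h6
  have hest' : ∀ j (ζ : H), ‖G (act (x j * h) ζ)‖ ≤ (κ / B) * ‖ζ‖ := by
    intro j ζ
    set w : H := G (act (x j * h) ζ) with hw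
    have h1 : ((‖w‖ ^ 2 : ℝ) : ℂ) = ⟪act (star (x j * h)) (G w), ζ⟫_ℂ := by
      rw [inner_act_left]
      have : ((‖w‖ ^ 2 : ℝ) : ℂ) = ⟪w, w⟫_ℂ := by
        rw [inner_self_eq_norm_sq_to_K (𝕜 := ℂ)]; push_cast; rfl
      rw [this]
      conv_lhs => rw [hw]
      rw [← hw]
      have h2 : ⟪w, G (act (x j * h) ζ)⟫_ℂ = ⟪(star G) w, act (x j * h) ζ⟫_ℂ :=
        (ContinuousLinearMap.adjoint_inner_left G _ _).symm
      rw [← hw, hGs] at h2
      exact h2
    have h2 : ‖w‖ ^ 2 ≤ ‖act (star (x j * h)) (G w)‖ * ‖ζ‖ := by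
      have h3 : ‖w‖ ^ 2 = ‖((‖w‖ ^ 2 : ℝ) : ℂ)‖ := by
        rw [Complex.norm_real, Real.norm_of_nonneg (by positivity)]
      rw [h3, h1]
      exact norm_inner_le_norm _ _
    have h3 : ‖act (star (x j * h)) (G w)‖ ≤ (κ / B) * ‖w‖ := by
      refine abs_le_of_sq_le_sq' ?_ (by positivity) |>.2
      rw [mul_pow, ← he]
      exact hest j w
    by_cases hw0 : ‖w‖ = 0
    · rw [hw0]; positivity
    · have hwp : 0 < ‖w‖ := lt_of_le_of_ne (norm_nonneg _) (Ne.symm hw0)
      have h4 : ‖w‖ * ‖w‖ ≤ ((κ / B) * ‖ζ‖) * ‖w‖ := by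
        calc ‖w‖ * ‖w‖ = ‖w‖ ^ 2 := (pow_two _).symm
          _ ≤ _ := h2
          _ ≤ ((κ / B) * ‖w‖) * ‖ζ‖ := mul_le_mul_of_nonneg_right h3 (norm_nonneg _)
          _ = _ := by ring
      exact le_of_mul_le_mul_right h4 hwp
  have hG1 : ‖G‖ ≤ 1 := by
    refine norm_cfc_le zero_le_one fun s hs => ?_
    rw [Real.norm_of_nonneg (qfun_nonneg he0 s)]
    have := gq he0 (hsp s hs)
    have h2 : 0 ≤ gfun e s * s * gfun e s := by
      have h3 : 0 ≤ gfun e s := by unfold gfun; positivity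
      have := hsp s hs
      positivity
    linarith
  have hGv : ∀ v : H, ‖G v‖ ≤ ‖v‖ := fun v =>
    (G.le_opNorm v).trans (mul_le_of_le_one_left (norm_nonneg _) hG1)
  have hzv : ∀ v : H, ‖z v‖ ≤ ‖v‖ := by
    intro v
    refine (z.le_opNorm v).trans (mul_le_of_le_one_left (norm_nonneg _) ?_)
    exact (R124.csupp_proj M (h : H →L[ℂ] H)).norm_le
  set ρ' : M.toStarSubalgebra := ⟨ρ, hρM⟩ with hρ'
  have hρs' : star ρ' = ρ' := Subtype.ext hρs
  set r' : M.toStarSubalgebra := ⟨r, hrM⟩ with hr'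
  set a : ι → M.toStarSubalgebra := fun j => star (x j) * ρ' with ha
  have hha : ∀ j, h * a j = star (x j * h) * ρ' := by
    intro j
    rw [ha, star_mul, hs, mul_assoc]
  have hZ : ∑ j, star (h * a j) * (h * a j) = ρ' * T0 * ρ' := by
    rw [hT0, Finset.mul_sum, Finset.sum_mul]
    refine Finset.sum_congr rfl fun j _ => ?_
    rw [hha, star_mul, star_star, hρs']
    simp only [mul_assoc]
  have hsum' : (∑ j, star (h * a j) * (h * a j)) + star r' * r' = 1 := by
    rw [hZ]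
    refine Subtype.ext ?_
    change ρ * tt * ρ + star r * r = 1
    rw [hrs, hrr, hsum]
  refine ⟨ι, inferInstance, a, r', hsum', fun η hη => ?_⟩
  have hzcomm : ∀ y ∈ M, z * y = y * z := fun y hy => R124.csupp_comm M _ h.2 y (Or.inl hy)
  have hzh : z * (h : H →L[ℂ] H) = h := R124.csupp_mul_self M _
  have hcz : ∀ j, act (h * a j) (z η) = act (h * a j) η := by
    intro j
    have h1 : ((h * a j : M.toStarSubalgebra) : H →L[ℂ] H) * z = (h * a j : M.toStarSubalgebra) := by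
      rw [← hzcomm _ (h * a j).2]
      change z * ((h : H →L[ℂ] H) * (a j : H →L[ℂ] H)) = _
      rw [← mul_assoc, hzh]
      rfl
    exact congrArg (fun R : H →L[ℂ] H => R η) h1
  have h1 : ((∑ j, ‖act (h * a j) η‖ ^ 2 : ℝ) : ℂ) = ⟪z η, z η⟫_ℂ - ⟪G (z η), z η⟫_ℂ := by
    have h2 : ∀ j, ((‖act (h * a j) η‖ ^ 2 : ℝ) : ℂ)
        = ⟪act (star (h * a j) * (h * a j)) (z η), z η⟫_ℂ := by
      intro j
      rw [act_mul (star (h * a j)) (h * a j), inner_act_left, hcz j, inner_self_eq_norm_sq_to_K (𝕜 := ℂ)]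
      push_cast; rfl
    have h3 : ((∑ j, ‖act (h * a j) η‖ ^ 2 : ℝ) : ℂ)
        = ⟪act (∑ j, star (h * a j) * (h * a j)) (z η), z η⟫_ℂ := by
      rw [act_sum, sum_inner]
      push_cast
      refine Finset.sum_congr rfl fun j _ => ?_
      rw [← h2 j]; push_cast; rfl
    rw [h3, hZ]
    have h4 : ρ * tt * ρ = 1 - G := by rw [← hsum]; abel
    have h5 : act (ρ' * T0 * ρ') (z η) = z η - G (z η) := by
      change (ρ * tt * ρ) (z η) = _
      rw [h4]; rfl
    rw [h5, inner_sub_left]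
  have h6 : ‖⟪G (z η), z η⟫_ℂ‖ ≤ ε := by
    refine (norm_inner_le_norm _ _).trans ?_
    have h7 : ‖G (z η)‖ ≤ 2 * κ := by
      set w : H := ∑ j, act (x j * h) (t η j) with hw
      have h8 : G (z η) = G (z η - w) + ∑ j, G (act (x j * h) (t η j)) := by
        rw [← map_sum, ← hw, ← map_add, sub_add_cancel]
      rw [h8]
      refine (norm_add_le _ _).trans ?_
      have h9 : ‖G (z η - w)‖ ≤ κ := (hGv _).trans (ht η hη).le
      have h10 : ‖∑ j, G (act (x j * h) (t η j))‖ ≤ κ := by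
        refine (norm_sum_le _ _).trans ?_
        calc ∑ j, ‖G (act (x j * h) (t η j))‖ ≤ ∑ j, (κ / B) * ‖t η j‖ :=
              Finset.sum_le_sum fun j _ => hest' j _
          _ = (κ / B) * ∑ j, ‖t η j‖ := by rw [Finset.mul_sum]
          _ ≤ (κ / B) * B := by
              refine mul_le_mul_of_nonneg_left ?_ (by positivity)
              have : ∑ j, ‖t η j‖ ≤ ∑ η ∈ N, ∑ j, ‖t η j‖ :=
                Finset.single_le_sum (f := fun η => ∑ j, ‖t η j‖)
                  (fun _ _ => Finset.sum_nonneg fun _ _ => norm_nonneg _) hη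
              linarith
          _ = κ := div_mul_cancel₀ _ (by positivity)
      linarith
    have h11 : ‖z η‖ ≤ S := (hzv η).trans
      (Finset.single_le_sum (f := fun η => ‖η‖) (fun _ _ => norm_nonneg _) hη)
    calc ‖G (z η)‖ * ‖z η‖ ≤ (2 * κ) * S := mul_le_mul h7 h11 (norm_nonneg _) (by positivity)
      _ ≤ (2 * κ) * (S + 1) := by gcongr; linarith
      _ = ε := by rw [hκ]; field_simp
  have h12 : ∑ j, ‖act (h * a j) η‖ ^ 2 = ‖z η‖ ^ 2 - (⟪G (z η), z η⟫_ℂ).re := by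
    have := congrArg Complex.re h1
    rw [Complex.ofReal_re, Complex.sub_re, inner_self_eq_norm_sq_to_K (𝕜 := ℂ)] at this
    rw [this]
    congr 1
    rw [show ((RCLike.ofReal ‖z η‖ : ℂ)) = (‖z η‖ : ℂ) from rfl, ← Complex.ofReal_pow,
      Complex.ofReal_re]
  rw [h12]
  have := (Complex.re_le_norm ⟪G (z η), z η⟫_ℂ).trans h6
  linarith

end

end Crest.Agent.R121.B
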