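import Crest.Agent.R121.BInput

/-!
# Row 121, block B: right-modular limits of completely bounded maps
-/

set_option autoImplicit false
set_option linter.unusedSectionVars false

namespace Crest.Agent.R121.B

open scoped InnerProductSpace
open Filter Topology

noncomputable section

universe u

variable {H : Type u} [NormedAddCommGroup H] [InnerProductSpace ℂ H] [CompleteSpace H]
variable {M : VonNeumannAlgebra H}

/-- Averaging preserves complete boundedness. -/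
lemma CBd.av {T : M.toStarSubalgebra →ₗ[ℂ] M.toStarSubalgebra} {C : ℝ} (hT : CBd T C) (b : Col M) :
    CBd (av b T) C := by
  intro I J _ _ y hy ζ
  have h1 : ∀ i, ∑ j, act (B.av b T (y i j)) (ζ j)
      = ∑ p : b.ι × J, act (T (y i p.2 * star (b.c p.1))) (act (b.c p.1) (ζ p.2)) := by
    intro i
    rw [Fintype.sum_prod_type_right]
    refine Finset.sum_congr rfl fun j _ => ?_
    rw [av_apply, act_sum]
    rfl
  simp only [h1]
  refine (hT I (b.ι × J) (fun i p => y i p.2 * star (b.c p.1)) ?_ _).trans ?_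
  · intro η
    have h2 : ∀ i, ∑ p : b.ι × J, act (y i p.2 * star (b.c p.1)) (η p)
        = ∑ j, act (y i j) (∑ k, act (star (b.c k)) (η (k, j))) := by
      intro i
      rw [Fintype.sum_prod_type_right]
      refine Finset.sum_congr rfl fun j _ => ?_
      rw [act_map_sum]
      rfl
    simp only [h2]
    refine (hy _).trans ?_
    rw [Fintype.sum_prod_type_right]
    exact Finset.sum_le_sum fun j _ => norm_row_le b.c b.sum_eq _
  · rw [Fintype.sum_prod_type_right]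
    refine mul_le_mul_of_nonneg_left ?_ (sq_nonneg C)
    refine Finset.sum_le_sum fun j _ => ?_
    exact (sum_norm_col b.c b.sum_eq (ζ j)).le

lemma CBd.apply_le {T : M.toStarSubalgebra →ₗ[ℂ] M.toStarSubalgebra} {C : ℝ} (hC : 0 ≤ C)
    (hT : CBd T C) (x : M.toStarSubalgebra) (hx : ‖x‖ ≤ 1) (ζ : H) : ‖act (T x) ζ‖ ≤ C * ‖ζ‖ := by
  have h := hT Unit Unit (fun _ _ => x) (by
    intro η
    simpa using pow_le_pow_left₀ (norm_nonneg _) (norm_act_le_of_norm_le_one x hx (η ())) 2)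
    (fun _ => ζ)
  simp only [Finset.univ_unique, Finset.sum_singleton] at h
  rw [← mul_pow] at h
  exact abs_le_of_sq_le_sq' h (by positivity) |>.2

lemma CBd.norm_le {T : M.toStarSubalgebra →ₗ[ℂ] M.toStarSubalgebra} {C : ℝ} (hC : 0 ≤ C)
    (hT : CBd T C) (x : M.toStarSubalgebra) : ‖T x‖ ≤ C * ‖x‖ := by
  by_cases hx : ‖x‖ = 0
  · have : x = 0 := norm_eq_zero.1 hx
    subst this
    simp
  · have hpos : 0 < ‖x‖ := lt_of_le_of_ne (norm_nonneg _) (Ne.symm hx)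
    set y : M.toStarSubalgebra := ((‖x‖ : ℂ)⁻¹) • x with hy
    have hyn : ‖y‖ ≤ 1 := by
      rw [hy, norm_smul, norm_inv, Complex.norm_real, norm_norm, inv_mul_cancel₀ hx]
    have hxy : x = (‖x‖ : ℂ) • y := by
      rw [hy, smul_smul, mul_inv_cancel₀ (by exact_mod_cast hx), one_smul]
    have h1 : ‖T y‖ ≤ C := by
      change ‖((T y : M.toStarSubalgebra) : H →L[ℂ] H)‖ ≤ C
      exact ContinuousLinearMap.opNorm_le_bound _ hC fun ζ => CBd.apply_le hC hT y hyn ζ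
    calc ‖T x‖ = ‖x‖ * ‖T y‖ := by
          conv_lhs => rw [hxy]
          rw [map_smul, norm_smul, Complex.norm_real, norm_norm]
      _ ≤ ‖x‖ * C := mul_le_mul_of_nonneg_left h1 (norm_nonneg _)
      _ = C * ‖x‖ := mul_comm _ _

section Good

variable {𝔱 𝔩 : Type} [Fintype 𝔱] [Fintype 𝔩]

/-- `U` is `s`-good for the family `T` and the vectors `ξ`. -/
def Good (T : 𝔱 → (M.toStarSubalgebra →ₗ[ℂ] M.toStarSubalgebra)) (ξ : 𝔩 → H)
    (U : Ultrafilter (Col M)) (s : ℝ) : Prop :=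
  ∀ (I K : Type) [Fintype I] [Fintype K] (d : K → M.toStarSubalgebra),
    ∑ k, star (d k) * d k = 1 → ∀ Y : 𝔱 → I → K × 𝔩 → M.toStarSubalgebra, (∀ t, Ctr (Y t)) →
      ∀ κ : ℝ, 0 < κ → ∀ᶠ b in (U : Filter (Col M)), V ξ (fun t => av b (T t)) d Y ≤ s + κ

lemma Good.nonneg {T : 𝔱 → (M.toStarSubalgebra →ₗ[ℂ] M.toStarSubalgebra)} {ξ : 𝔩 → H}
    {U : Ultrafilter (Col M)} {s : ℝ} (h : Good T ξ U s) : 0 ≤ s := by
  refine le_of_forall_pos_le_add fun κ hκ => ?_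
  have := h Empty Unit (fun _ => 1) (by simp) (fun _ e => e.elim) (fun t η => by
    simpa using Finset.sum_nonneg fun i _ => sq_nonneg ‖η i‖) κ hκ
  obtain ⟨b, hb⟩ := this.exists
  exact (V_nonneg _ _ _ _).trans hb

lemma good_of_cbd (T : 𝔱 → (M.toStarSubalgebra →ₗ[ℂ] M.toStarSubalgebra)) (ξ : 𝔩 → H) (C : ℝ)
    (hT : ∀ t, CBd (T t) C) (U : Ultrafilter (Col M)) :
    Good T ξ U (∑ _t : 𝔱, C ^ 2 * ∑ l, ‖ξ l‖ ^ 2) := by
  intro I K _ _ d hd Y hY κ hκ
  refine Filter.Eventually.of_forall fun b => ?_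
  have h1 : V ξ (fun t => av b (T t)) d Y ≤ ∑ _t : 𝔱, C ^ 2 * ∑ l, ‖ξ l‖ ^ 2 := by
    refine Finset.sum_le_sum fun t _ => ?_
    refine (((hT t).av b) I (K × 𝔩) (Y t) (hY t) _).trans ?_
    refine mul_le_mul_of_nonneg_left ?_ (sq_nonneg C)
    rw [Fintype.sum_prod_type_right]
    exact Finset.sum_le_sum fun l _ => (sum_norm_col d hd (ξ l)).le
  linarith

/-- the defect of modularity. -/
def Dfc (T : M.toStarSubalgebra →ₗ[ℂ] M.toStarSubalgebra) (u x : M.toStarSubalgebra)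
    (b : Col M) : M.toStarSubalgebra := av b T x - av b T (x * star u) * u

/-- lower semicontinuity -/
lemma eventually_norm_sq_ge {α : Type*} (U : Ultrafilter α) (x : α → M.toStarSubalgebra)
    (D : M.toStarSubalgebra)
    (hD : ∀ ξ η : H, Tendsto (fun a => ⟪η, act (x a) ξ⟫_ℂ) U (𝓝 ⟪η, act D ξ⟫_ℂ))
    (v : H) (κ : ℝ) (hκ : 0 < κ) :
    ∀ᶠ a in (U : Filter α), ‖act D v‖ ^ 2 - κ ≤ ‖act (x a) v‖ ^ 2 := by
  have h1 : Tendsto (fun a => (⟪act D v, act (x a) v⟫_ℂ).re) U (𝓝 ((⟪act D v, act D v⟫_ℂ).re)) :=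
    (Complex.continuous_re.tendsto _).comp (hD v (act D v))
  have h2 : (⟪act D v, act D v⟫_ℂ).re = ‖act D v‖ ^ 2 := by
    rw [inner_self_eq_norm_sq_to_K (𝕜 := ℂ)]
    rw [show ((RCLike.ofReal ‖act D v‖ : ℂ)) = (‖act D v‖ : ℂ) from rfl, ← Complex.ofReal_pow,
      Complex.ofReal_re]
  rw [h2] at h1
  have h3 : ∀ᶠ a in (U : Filter α), ‖act D v‖ ^ 2 - κ / 2 < (⟪act D v, act (x a) v⟫_ℂ).re :=
    h1.eventually (lt_mem_nhds (by linarith))
  refine h3.mono fun a ha => ?_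
  have h4 : (⟪act D v, act (x a) v⟫_ℂ).re ≤ ‖act D v‖ * ‖act (x a) v‖ :=
    (Complex.re_le_norm _).trans (norm_inner_le_norm _ _)
  nlinarith [sq_nonneg (‖act D v‖ - ‖act (x a) v‖)]

end Good

section Decrease

variable {𝔱 𝔩 : Type} [Fintype 𝔱] [Fintype 𝔩]

/-- the truncation function -/
def phf (δ s : ℝ) : ℝ := max (s - δ) 0

lemma phf_cont (δ : ℝ) : Continuous (phf δ) := by unfold phf; fun_prop

lemma phf_nonneg (δ s : ℝ) : 0 ≤ phf δ s := le_max_right _ _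

/-- the truncated square of `D`, as an element of `M` -/
def hel (δ : ℝ) (D : M.toStarSubalgebra) : M.toStarSubalgebra :=
  ⟨cfc (phf δ) ((star D * D : M.toStarSubalgebra) : H →L[ℂ] H),
    R124.cfc_mem M (star D * D : M.toStarSubalgebra).2 _⟩

lemma star_hel (δ : ℝ) (D : M.toStarSubalgebra) : star (hel δ D) = hel δ D :=
  Subtype.ext (cfc_predicate (phf δ) ((star D * D : M.toStarSubalgebra) : H →L[ℂ] H) :
    IsSelfAdjoint _)

lemma W_nonneg (D : M.toStarSubalgebra) :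
    (0 : H →L[ℂ] H) ≤ ((star D * D : M.toStarSubalgebra) : H →L[ℂ] H) := by
  change (0 : H →L[ℂ] H) ≤ star (D : H →L[ℂ] H) * (D : H →L[ℂ] H)
  exact star_mul_self_nonneg _

lemma norm_act_sq (D : M.toStarSubalgebra) (v : H) :
    ((‖act D v‖ ^ 2 : ℝ) : ℂ) = ⟪act (star D * D) v, v⟫_ℂ := by
  rw [act_mul, inner_act_left, inner_self_eq_norm_sq_to_K (𝕜 := ℂ)]
  push_cast
  rfl

lemma re_inner_le_of_le {A B : H →L[ℂ] H} (h : A ≤ B) (v : H) :
    (⟪A v, v⟫_ℂ).re ≤ (⟪B v, v⟫_ℂ).re := by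
  have h1 := ((ContinuousLinearMap.le_def _ _).1 h).2 v
  change 0 ≤ (⟪(B - A) v, v⟫_ℂ).re at h1
  rw [show (B - A) v = B v - A v from rfl, inner_sub_left, Complex.sub_re] at h1
  linarith

/-- `‖D h v‖² ≥ δ ‖h v‖²`. -/
lemma D_hel_ge (δ : ℝ) (D : M.toStarSubalgebra) (v : H) :
    δ * ‖act (hel δ D) v‖ ^ 2 ≤ ‖act D (act (hel δ D) v)‖ ^ 2 := by
  set W : H →L[ℂ] H := ((star D * D : M.toStarSubalgebra) : H →L[ℂ] H) with hW
  set h : H →L[ℂ] H := cfc (phf δ) W with hh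
  have hsa : IsSelfAdjoint W := IsSelfAdjoint.of_nonneg (W_nonneg D)
  have hc := (phf_cont δ).continuousOn (s := spectrum ℝ W)
  have hid : cfc (fun s : ℝ => s) W = W := cfc_id' ℝ W
  have hhs : star h = h := (cfc_predicate (phf δ) W : IsSelfAdjoint _)
  have h1 : h * W * h = cfc (fun s => phf δ s * s * phf δ s) W := by
    rw [cfc_mul (fun s => phf δ s * s) (phf δ) W (hc.mul continuousOn_id) hc,
      cfc_mul (phf δ) (fun s => s) W hc continuousOn_id, hid]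
  have h2 : (δ : ℝ) • (h * h) = cfc (fun s => δ * (phf δ s * phf δ s)) W := by
    rw [cfc_const_mul δ (fun s => phf δ s * phf δ s) W (hc.mul hc), cfc_mul _ _ W hc hc]
  have h3 : (δ : ℝ) • (h * h) ≤ h * W * h := by
    rw [h1, h2]
    refine cfc_mono (fun s hs => ?_) (continuousOn_const.mul (hc.mul hc))
      ((hc.mul continuousOn_id).mul hc)
    unfold phf
    rcases le_total (s - δ) 0 with h4 | h4
    · rw [max_eq_right h4]; simp
    · rw [max_eq_left h4]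
      nlinarith [mul_nonneg h4 h4, mul_nonneg (mul_nonneg h4 h4) h4]
  have h4 := re_inner_le_of_le h3 v
  have h5 : (⟪((δ : ℝ) • (h * h)) v, v⟫_ℂ).re = δ * ‖act (hel δ D) v‖ ^ 2 := by
    have h6 : ((δ : ℝ) • (h * h)) v = (δ : ℂ) • act (star (hel δ D) * hel δ D) v := by
      rw [star_hel]; rfl
    rw [h6, inner_smul_left, ← norm_act_sq, Complex.conj_ofReal, ← Complex.ofReal_mul,
      Complex.ofReal_re]
  have h7 : (⟪(h * W * h) v, v⟫_ℂ).re = ‖act D (act (hel δ D) v)‖ ^ 2 := by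
    have h8 : (h * W * h) v = act (star (D * hel δ D) * (D * hel δ D)) v := by
      rw [star_mul, star_hel]
      rfl
    rw [h8, ← norm_act_sq, Complex.ofReal_re]
    rfl
  rw [h5, h7] at h4
  exact h4

/-- `‖D v‖² ≤ δ ‖v‖² + ‖D‖² ‖z v‖²`. -/
lemma D_le {δ : ℝ} (hδ : 0 ≤ δ) (D : M.toStarSubalgebra) (v : H) :
    ‖act D v‖ ^ 2 ≤ δ * ‖v‖ ^ 2
      + ‖D‖ ^ 2 * ‖R124.csupp M ((hel δ D : M.toStarSubalgebra) : H →L[ℂ] H) v‖ ^ 2 := by
  set W : H →L[ℂ] H := ((star D * D : M.toStarSubalgebra) : H →L[ℂ] H) with hW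
  set h : H →L[ℂ] H := cfc (phf δ) W with hh
  set z : H →L[ℂ] H := R124.csupp M h with hz
  have hsa : IsSelfAdjoint W := IsSelfAdjoint.of_nonneg (W_nonneg D)
  have hsp : ∀ s ∈ spectrum ℝ W, 0 ≤ s := fun s hs => spectrum_nonneg_of_nonneg (W_nonneg D) hs
  have hc := (phf_cont δ).continuousOn (s := spectrum ℝ W)
  have hid : cfc (fun s : ℝ => s) W = W := cfc_id' ℝ W
  have hhs : star h = h := (cfc_predicate (phf δ) W : IsSelfAdjoint _)
  have h1 : W ≤ algebraMap ℝ (H →L[ℂ] H) δ + h := by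
    have h2 : algebraMap ℝ (H →L[ℂ] H) δ + h = cfc (fun s => δ + phf δ s) W := by
      rw [cfc_const_add δ (phf δ) W hc]
    rw [h2]
    nth_rewrite 1 [← hid]
    refine cfc_mono (fun s hs => ?_) continuousOn_id (continuousOn_const.add hc)
    unfold phf
    have := le_max_left (s - δ) 0
    linarith
  have hzh : z * h = h := R124.csupp_mul_self M h
  have hzs : star z = z := (R124.csupp_proj M h).isSelfAdjoint
  have hhz : h * z = h := by
    have := congrArg star hzh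
    rwa [star_mul, hhs, hzs] at this
  have hWn : ‖W‖ ≤ ‖D‖ ^ 2 := by
    change ‖star (D : H →L[ℂ] H) * (D : H →L[ℂ] H)‖ ≤ _
    rw [CStarRing.norm_star_mul_self, pow_two]
    rfl
  have hhn : ‖h‖ ≤ ‖D‖ ^ 2 := by
    refine norm_cfc_le (by positivity) fun s hs => ?_
    rw [Real.norm_of_nonneg (phf_nonneg δ s)]
    have h3 : ‖s‖ ≤ ‖W‖ := by
      rcases subsingleton_or_nontrivial H with hH | hH
      · exfalso
        have : Subsingleton (H →L[ℂ] H) := inferInstance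
        rw [spectrum.of_subsingleton] at hs
        exact hs
      · exact spectrum.norm_le_norm_of_mem hs
    rw [Real.norm_of_nonneg (hsp s hs)] at h3
    have h4 : phf δ s ≤ s := by
      unfold phf
      exact max_le (by linarith) (hsp s hs)
    linarith
  have h5 := re_inner_le_of_le h1 v
  have h6 : (⟪W v, v⟫_ℂ).re = ‖act D v‖ ^ 2 := by
    have : W v = act (star D * D) v := rfl
    rw [this, ← norm_act_sq, Complex.ofReal_re]
  have h7 : (⟪(algebraMap ℝ (H →L[ℂ] H) δ + h) v, v⟫_ℂ).re = δ * ‖v‖ ^ 2 + (⟪h v, v⟫_ℂ).re := by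
    have h8 : (algebraMap ℝ (H →L[ℂ] H) δ + h) v = (δ : ℂ) • v + h v := by
      rw [Algebra.algebraMap_eq_smul_one]
      change (δ • (1 : H →L[ℂ] H)) v + _ = _
      rfl
    rw [h8, inner_add_left, Complex.add_re, inner_smul_left, inner_self_eq_norm_sq_to_K (𝕜 := ℂ),
      Complex.conj_ofReal]
    rw [show ((RCLike.ofReal ‖v‖ : ℂ)) = (‖v‖ : ℂ) from rfl, ← Complex.ofReal_pow,
      ← Complex.ofReal_mul, Complex.ofReal_re]
  have h9 : (⟪h v, v⟫_ℂ).re ≤ ‖D‖ ^ 2 * ‖z v‖ ^ 2 := by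
    have h10 : ⟪h v, v⟫_ℂ = ⟪h (z v), z v⟫_ℂ := by
      have h11 : h v = z (h (z v)) := by
        have : h v = (z * (h * z)) v := by rw [hhz, hzh]
        exact this
      conv_lhs => rw [h11]
      have h12 : ⟪z (h (z v)), v⟫_ℂ = ⟪h (z v), (star z) v⟫_ℂ :=
        (ContinuousLinearMap.adjoint_inner_right z _ _).symm
      rw [h12, hzs]
    rw [h10]
    refine (Complex.re_le_norm _).trans ((norm_inner_le_norm _ _).trans ?_)
    calc ‖h (z v)‖ * ‖z v‖ ≤ (‖h‖ * ‖z v‖) * ‖z v‖ := by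
          gcongr; exact h.le_opNorm _
      _ = ‖h‖ * ‖z v‖ ^ 2 := by ring
      _ ≤ _ := by gcongr
  rw [h6, h7] at h5
  change ‖act D v‖ ^ 2 ≤ δ * ‖v‖ ^ 2 + ‖D‖ ^ 2 * ‖z v‖ ^ 2
  linarith

end Decrease

/-- The column `(f, r)`. -/
def colOf (ι : Type) [Fintype ι] (f : ι → M.toStarSubalgebra) (r : M.toStarSubalgebra)
    (h : (∑ i, star (f i) * f i) + star r * r = 1) : Col M where
  ι := ι ⊕ Unit
  c := Sum.elim f (fun _ => r)
  sum_eq := by
    rw [Fintype.sum_sum_type]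
    simpa using h

lemma sum_colOf_aux (ι : Type) [Fintype ι] (g : ι ⊕ Unit → ℝ)
    (hg : ∀ j, 0 ≤ g j) : ∑ i : ι, g (Sum.inl i) ≤ ∑ j, g j := by
  rw [Fintype.sum_sum_type]
  have : 0 ≤ ∑ j : Unit, g (Sum.inr j) := Finset.sum_nonneg fun _ _ => hg _
  linarith

/-- sums over `colOf` -/
lemma sum_colOf_le (ι : Type) [Fintype ι] (f : ι → M.toStarSubalgebra) (r : M.toStarSubalgebra)
    (h : (∑ i, star (f i) * f i) + star r * r = 1) (G : M.toStarSubalgebra → ℝ)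
    (hg : ∀ y, 0 ≤ G y) : ∑ i : ι, G (f i) ≤ ∑ j, G ((colOf ι f r h).c j) :=
  sum_colOf_aux ι (fun j => G ((colOf ι f r h).c j)) (fun _ => hg _)

section Decrease2

variable {𝔱 𝔩 : Type} [Fintype 𝔱] [Fintype 𝔩]

theorem decrease (T : 𝔱 → (M.toStarSubalgebra →ₗ[ℂ] M.toStarSubalgebra)) (ξ : 𝔩 → H)
    (U : Ultrafilter (Col M)) (s : ℝ) (hU : Good T ξ U s) (t₀ : 𝔱) (u x : M.toStarSubalgebra)
    (hu : star u * u = 1) (hu' : u * star u = 1) (hx : ‖x‖ ≤ 1) (D : M.toStarSubalgebra)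
    (hD : ∀ ξ η : H, Tendsto (fun b => ⟪η, act (Dfc (T t₀) u x b) ξ⟫_ℂ) U (𝓝 ⟪η, act D ξ⟫_ℂ))
    (δ : ℝ) (hδ : 0 < δ) :
    ∃ U' : Ultrafilter (Col M), Good T ξ U'
      (s - δ / 4 * ∑ l, ‖R124.csupp M ((hel δ D : M.toStarSubalgebra) : H →L[ℂ] H) (ξ l)‖ ^ 2) := by
  classical
  set h : M.toStarSubalgebra := hel δ D with hh
  set z : H →L[ℂ] H := R124.csupp M (h : H →L[ℂ] H) with hz
  choose ι fι a r hsum hN using fun (p : Finset H × ℕ) =>
    exists_cols_csupp h (star_hel δ D) p.1 (1 / ((p.2 : ℝ) + 1)) (by positivity)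
  let c : Finset H × ℕ → Col M := fun p => colOf (ι p) (fun i => h * a p i) (r p) (hsum p)
  let 𝓕 : Ultrafilter (Finset H × ℕ) := Ultrafilter.of atTop
  refine ⟨𝓕.bind (fun p => U.map (fun b => (b.comp (Col.two u hu)).comp (c p))), ?_⟩
  intro I K _ _ d hd Y hY κ hκ
  have hzd : ∀ l, ∑ k, ‖z (act (d k) (ξ l))‖ ^ 2 = ‖z (ξ l)‖ ^ 2 := by
    intro l
    rw [← sum_norm_col d hd (z (ξ l))]
    refine Finset.sum_congr rfl fun k _ => ?_
    have h1 : z * (d k : H →L[ℂ] H) = (d k : H →L[ℂ] H) * z :=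
      R124.csupp_comm M _ h.2 _ (Or.inl (d k).2)
    have h2 : z (act (d k) (ξ l)) = act (d k) (z (ξ l)) := congrArg (fun R : H →L[ℂ] H => R (ξ l)) h1
    rw [h2]
  set A : ℝ := ∑ l, ‖z (ξ l)‖ ^ 2 with hA
  obtain ⟨n0, hn0⟩ := exists_nat_gt (δ * ((Fintype.card 𝔩 : ℝ) * (Fintype.card K : ℝ)) / κ)
  let N0 : Finset H := Finset.univ.image (fun q : K × 𝔩 => act (d q.1) (ξ q.2))
  have hev : ∀ᶠ p in (𝓕 : Filter (Finset H × ℕ)), ∀ᶠ b in (U : Filter (Col M)),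
      V ξ (fun t => av ((b.comp (Col.two u hu)).comp (c p)) (T t)) d Y ≤ s - δ / 4 * A + κ := by
    have hat : ∀ᶠ p in (𝓕 : Filter (Finset H × ℕ)), (N0, n0) ≤ p :=
      (Ultrafilter.of_le atTop) (eventually_ge_atTop (N0, n0))
    refine hat.mono fun p hp => ?_
    set d' : (c p).ι × K → M.toStarSubalgebra := fun q => (c p).c q.1 * d q.2 with hd'
    have hd1 : ∑ q, star (d' q) * d' q = 1 := sum_eq_comp (c p) d hd
    set v : ((c p).ι × K) × 𝔩 → H := fun q => act (d' q.1) (ξ q.2) with hv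
    have hp2 : δ * ((Fintype.card 𝔩 : ℝ) * ((Fintype.card K : ℝ) * (1 / ((p.2 : ℝ) + 1)))) ≤ κ := by
      have h1 : (n0 : ℝ) ≤ p.2 := by exact_mod_cast hp.2
      have h2 : δ * ((Fintype.card 𝔩 : ℝ) * (Fintype.card K : ℝ)) / κ ≤ (p.2 : ℝ) + 1 := by linarith
      rw [div_le_iff₀ hκ] at h2
      have h3 : 0 < (p.2 : ℝ) + 1 := by positivity
      rw [show δ * ((Fintype.card 𝔩 : ℝ) * ((Fintype.card K : ℝ) * (1 / ((p.2 : ℝ) + 1))))
        = (δ * ((Fintype.card 𝔩 : ℝ) * (Fintype.card K : ℝ))) / ((p.2 : ℝ) + 1) by ring]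
      rw [div_le_iff₀ h3]
      linarith
    -- lower bound
    have hlow : δ * A - κ ≤ ∑ q, ‖act D (v q)‖ ^ 2 := by
      have e1 : ∑ q, ‖act D (v q)‖ ^ 2
          = ∑ j : (c p).ι, ∑ k : K, ∑ l : 𝔩, ‖act D (act ((c p).c j * d k) (ξ l))‖ ^ 2 := by
        rw [Fintype.sum_prod_type, Fintype.sum_prod_type]
      have e2 : ∑ i : ι p, ∑ k : K, ∑ l : 𝔩, ‖act D (act ((h * a p i) * d k) (ξ l))‖ ^ 2
          ≤ ∑ q, ‖act D (v q)‖ ^ 2 := by
        rw [e1]
        exact sum_colOf_le (ι p) (fun i => h * a p i) (r p) (hsum p)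
          (fun y => ∑ k : K, ∑ l : 𝔩, ‖act D (act (y * d k) (ξ l))‖ ^ 2)
          (fun j => Finset.sum_nonneg fun _ _ => Finset.sum_nonneg fun _ _ => sq_nonneg _)
      refine le_trans ?_ e2
      have e3 : ∀ i k l, δ * ‖act (h * a p i) (act (d k) (ξ l))‖ ^ 2
          ≤ ‖act D (act ((h * a p i) * d k) (ξ l))‖ ^ 2 := by
        intro i k l
        exact D_hel_ge δ D (act (a p i * d k) (ξ l))
      have e4 : ∑ i : ι p, ∑ k : K, ∑ l : 𝔩, ‖act D (act ((h * a p i) * d k) (ξ l))‖ ^ 2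
          = ∑ l : 𝔩, ∑ k : K, ∑ i : ι p, ‖act D (act ((h * a p i) * d k) (ξ l))‖ ^ 2 := by
        rw [Finset.sum_comm]
        rw [show ∑ l : 𝔩, ∑ k : K, ∑ i : ι p, ‖act D (act ((h * a p i) * d k) (ξ l))‖ ^ 2
          = ∑ k : K, ∑ l : 𝔩, ∑ i : ι p, ‖act D (act ((h * a p i) * d k) (ξ l))‖ ^ 2
          from Finset.sum_comm]
        refine Finset.sum_congr rfl fun k _ => ?_
        exact Finset.sum_comm
      rw [e4]
      have e5 : ∀ l k, δ * (‖z (act (d k) (ξ l))‖ ^ 2 - 1 / ((p.2 : ℝ) + 1))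
          ≤ ∑ i : ι p, ‖act D (act ((h * a p i) * d k) (ξ l))‖ ^ 2 := by
        intro l k
        have h1 : act (d k) (ξ l) ∈ p.1 := hp.1 (Finset.mem_image.2 ⟨(k, l), Finset.mem_univ _, rfl⟩)
        refine (mul_le_mul_of_nonneg_left (hN p _ h1) hδ.le).trans ?_
        rw [Finset.mul_sum]
        exact Finset.sum_le_sum fun i _ => e3 i k l
      refine le_trans ?_ (Finset.sum_le_sum fun l _ => Finset.sum_le_sum fun k _ => e5 l k)
      simp only [← Finset.mul_sum, Finset.sum_sub_distrib, hzd, Finset.sum_const, Finset.card_univ,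
        nsmul_eq_mul]
      rw [mul_sub]
      linarith
    -- the test
    have hG := hU (I ⊕ (((c p).ι × K) × 𝔩)) (Bool × ((c p).ι × K)) (parD u d')
      (sum_parD u hu d' hd1) (parY u x t₀ (insY (c p) Y))
      (fun t => Ctr_parY u x hu' hx t₀ _ t (Ctr_insY (c p) Y t (hY t))) (κ / 3) (by positivity)
    set κ₁ : ℝ := κ / ((Fintype.card (((c p).ι × K) × 𝔩) : ℝ) + 1) with hκ₁
    have hκ₁0 : 0 < κ₁ := by positivity
    have hL : ∀ᶠ b in (U : Filter (Col M)), ∀ q : ((c p).ι × K) × 𝔩,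
        ‖act D (v q)‖ ^ 2 - κ₁ ≤ ‖act (Dfc (T t₀) u x b) (v q)‖ ^ 2 :=
      Filter.eventually_all.2 fun q => eventually_norm_sq_ge U _ D hD (v q) κ₁ hκ₁0
    filter_upwards [hG, hL] with b hb1 hb2
    have h1 : V ξ (fun t => av ((b.comp (Col.two u hu)).comp (c p)) (T t)) d Y
        = V ξ (fun t => av (Col.two u hu) (av b (T t))) d' (insY (c p) Y) := by
      have : (fun t => av ((b.comp (Col.two u hu)).comp (c p)) (T t))
          = fun t => av (c p) (av (Col.two u hu) (av b (T t))) := by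
        funext t
        rw [av_comp, av_comp]
      rw [this]
      exact V_av ξ (c p) (fun t => av (Col.two u hu) (av b (T t))) d Y
    have h2 := V_par ξ u x hu t₀ (fun t => av b (T t)) d' (insY (c p) Y)
    rw [h1]
    have h3 : ∑ q, ‖act D (v q)‖ ^ 2 - κ ≤ ∑ q, ‖act (Dfc (T t₀) u x b) (v q)‖ ^ 2 := by
      refine le_trans ?_ (Finset.sum_le_sum fun q _ => hb2 q)
      rw [Finset.sum_sub_distrib, Finset.sum_const, Finset.card_univ, nsmul_eq_mul]
      have h4 : (Fintype.card (((c p).ι × K) × 𝔩) : ℝ) * κ₁ ≤ κ := by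
        rw [hκ₁, mul_div_assoc', div_le_iff₀ (by positivity)]
        nlinarith
      linarith
    have h5 : ∑ q : ((c p).ι × K) × 𝔩, ‖act (av b (T t₀) x - av b (T t₀) (x * star u) * u) (act (d' q.1) (ξ q.2))‖ ^ 2
        = ∑ q, ‖act (Dfc (T t₀) u x b) (v q)‖ ^ 2 := rfl
    rw [h5] at h2
    linarith
  exact hev

end Decrease2

section Final

variable {𝔱 𝔩 : Type} [Fintype 𝔱] [Fintype 𝔩]

lemma Dfc_norm_le {T : M.toStarSubalgebra →ₗ[ℂ] M.toStarSubalgebra} {C : ℝ} (hC : 0 ≤ C)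
    (hT : CBd T C) (u x : M.toStarSubalgebra) (hu : ‖u‖ ≤ 1) (hx : ‖x‖ ≤ 1) (b : Col M) :
    ‖Dfc T u x b‖ ≤ 2 * C := by
  unfold Dfc
  have h1 : ‖B.av b T x‖ ≤ C * ‖x‖ := (hT.av b).norm_le hC x
  have h2 : ‖B.av b T (x * star u)‖ ≤ C * ‖x * star u‖ := (hT.av b).norm_le hC _
  have h3 : ‖x * star u‖ ≤ 1 := by
    refine (norm_mul_le _ _).trans ?_
    rw [norm_star]
    exact mul_le_one₀ hx (norm_nonneg _) hu
  refine (norm_sub_le _ _).trans ?_
  have h4 : ‖B.av b T (x * star u) * u‖ ≤ C := by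
    refine (norm_mul_le _ _).trans ?_
    calc ‖B.av b T (x * star u)‖ * ‖u‖ ≤ (C * ‖x * star u‖) * 1 := by gcongr
      _ ≤ (C * 1) * 1 := by gcongr
      _ = C := by ring
  have h5 : ‖B.av b T x‖ ≤ C := h1.trans (by nlinarith)
  linarith

lemma norm_le_one_of_unitary (u : M.toStarSubalgebra) (hu : star u * u = 1) : ‖u‖ ≤ 1 := by
  change ‖(u : H →L[ℂ] H)‖ ≤ 1
  have h1 : ‖star (u : H →L[ℂ] H) * (u : H →L[ℂ] H)‖ ≤ 1 := by
    have h2 : star (u : H →L[ℂ] H) * (u : H →L[ℂ] H) = 1 := congrArg Subtype.val hu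
    rw [h2]
    exact ContinuousLinearMap.norm_id_le
  rw [CStarRing.norm_star_mul_self] at h1
  nlinarith [norm_nonneg (u : H →L[ℂ] H)]

/-- Existence of an almost modular ultrafilter. -/
theorem exists_almost (T : 𝔱 → (M.toStarSubalgebra →ₗ[ℂ] M.toStarSubalgebra)) (ξ : 𝔩 → H)
    (C : ℝ) (hC : 0 ≤ C) (hT : ∀ t, CBd (T t) C) (ε : ℝ) (hε : 0 < ε) :
    ∃ U : Ultrafilter (Col M), ∀ (t₀ : 𝔱) (u x D : M.toStarSubalgebra), star u * u = 1 →
      u * star u = 1 → ‖x‖ ≤ 1 →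
      (∀ ξ η : H, Tendsto (fun b => ⟪η, act (Dfc (T t₀) u x b) ξ⟫_ℂ) U (𝓝 ⟪η, act D ξ⟫_ℂ)) →
      ∀ l, ‖act D (ξ l)‖ ^ 2 ≤ ε := by
  classical
  set Sset : Set ℝ := {s | ∃ U : Ultrafilter (Col M), Good T ξ U s} with hS
  have hne : Sset.Nonempty := ⟨_, pure (Col.one M), good_of_cbd T ξ C hT _⟩
  have hbdd : BddBelow Sset := ⟨0, by rintro s ⟨U, hU⟩; exact hU.nonneg⟩
  set S0 : ℝ := ∑ l, ‖ξ l‖ ^ 2 with hS0
  have hS00 : 0 ≤ S0 := Finset.sum_nonneg fun _ _ => sq_nonneg _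
  set δ : ℝ := ε / (2 * (S0 + 1)) with hδ
  have hδ0 : 0 < δ := by positivity
  set η0 : ℝ := δ * ε / (32 * (C ^ 2 + 1)) with hη0
  have hη00 : 0 < η0 := by positivity
  obtain ⟨s, ⟨U, hU⟩, hs⟩ := exists_lt_of_csInf_lt hne (lt_add_of_pos_right (sInf Sset) hη00)
  refine ⟨U, fun t₀ u x D hu hu' hx hD l => ?_⟩
  obtain ⟨U', hU'⟩ := decrease T ξ U s hU t₀ u x hu hu' hx D hD δ hδ0
  have h1 := csInf_le hbdd (show _ ∈ Sset from ⟨U', hU'⟩)
  set A : ℝ := ∑ l, ‖R124.csupp M ((hel δ D : M.toStarSubalgebra) : H →L[ℂ] H) (ξ l)‖ ^ 2 with hA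
  have h2 : δ / 4 * A ≤ η0 := by linarith
  have h3 : ‖R124.csupp M ((hel δ D : M.toStarSubalgebra) : H →L[ℂ] H) (ξ l)‖ ^ 2 ≤ A :=
    Finset.single_le_sum
      (f := fun l => ‖R124.csupp M ((hel δ D : M.toStarSubalgebra) : H →L[ℂ] H) (ξ l)‖ ^ 2)
      (fun _ _ => sq_nonneg _) (Finset.mem_univ l)
  have h4 : ‖D‖ ≤ 2 * C := by
    obtain ⟨D', hD'n, hD'⟩ := exists_wot_lim U (fun b => Dfc (T t₀) u x b) (2 * C)
      (fun b => Dfc_norm_le hC (hT t₀) u x (norm_le_one_of_unitary u hu) hx b)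
    have h5 : D = D' := by
      refine Subtype.ext (ContinuousLinearMap.ext fun v => ext_inner_left ℂ fun w => ?_)
      exact tendsto_nhds_unique (hD v w) (hD' v w)
    rw [h5]; exact hD'n
  have h5 := D_le hδ0.le D (ξ l)
  have h6 : ‖ξ l‖ ^ 2 ≤ S0 :=
    Finset.single_le_sum (f := fun l => ‖ξ l‖ ^ 2) (fun _ _ => sq_nonneg _) (Finset.mem_univ l)
  have h7 : δ * ‖ξ l‖ ^ 2 ≤ ε / 2 := by
    calc δ * ‖ξ l‖ ^ 2 ≤ δ * (S0 + 1) := by gcongr; linarith
      _ = ε / 2 := by rw [hδ]; field_simp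
  have h8 : ‖D‖ ^ 2 ≤ 4 * (C ^ 2 + 1) := by nlinarith [norm_nonneg D]
  have h9 : A ≤ 4 * η0 / δ := by
    rw [le_div_iff₀ hδ0]; linarith
  have hA0 : 0 ≤ A := Finset.sum_nonneg fun _ _ => sq_nonneg _
  have h10 : ‖D‖ ^ 2 * ‖R124.csupp M ((hel δ D : M.toStarSubalgebra) : H →L[ℂ] H) (ξ l)‖ ^ 2
      ≤ ε / 2 := by
    calc _ ≤ (4 * (C ^ 2 + 1)) * A := mul_le_mul h8 h3 (sq_nonneg _) (by positivity)
      _ ≤ (4 * (C ^ 2 + 1)) * (4 * η0 / δ) := by gcongr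
      _ = ε / 2 := by rw [hη0]; field_simp; ring
  linarith

lemma CBd.mono {T : M.toStarSubalgebra →ₗ[ℂ] M.toStarSubalgebra} {C C' : ℝ} (hC : 0 ≤ C)
    (h : C ≤ C') (hT : CBd T C) : CBd T C' := by
  intro I J _ _ y hy ζ
  refine (hT I J y hy ζ).trans ?_
  have : 0 ≤ ∑ j, ‖ζ j‖ ^ 2 := Finset.sum_nonneg fun _ _ => sq_nonneg _
  gcongr

lemma CBd.abs {T : M.toStarSubalgebra →ₗ[ℂ] M.toStarSubalgebra} {C : ℝ} (hT : CBd T C) :
    CBd T |C| := by
  intro I J _ _ y hy ζ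
  rw [sq_abs]
  exact hT I J y hy ζ

lemma Dfc_smul (T : M.toStarSubalgebra →ₗ[ℂ] M.toStarSubalgebra) (u x : M.toStarSubalgebra)
    (c : ℂ) (b : Col M) : Dfc T u (c • x) b = c • Dfc T u x b := by
  unfold Dfc
  rw [smul_mul_assoc, map_smul, map_smul, smul_mul_assoc, smul_sub]

/-- Data for the ultrafilter. -/
structure Dat (M : VonNeumannAlgebra H) where
  T : M.toStarSubalgebra →ₗ[ℂ] M.toStarSubalgebra
  C : ℝ
  hT : CBd T C
  y : M.toStarSubalgebra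
  u : M.toStarSubalgebra
  hu : star u * u = 1
  hu' : u * star u = 1
  ξ : H
  η : H
  ε : ℝ
  hε : 0 < ε

/-- the set of a datum -/
def Dat.set (α : Dat M) : Set (Col M) := {b | ‖⟪α.η, act (Dfc α.T α.u α.y b) α.ξ⟫_ℂ‖ < α.ε}

lemma dat_finite (s : Finset (Dat M)) : ∃ b : Col M, ∀ α ∈ s, b ∈ α.set := by
  classical
  set n := s.card with hn
  let e : Fin n ≃ s := (Finset.equivFin s).symm
  let α : Fin n → Dat M := fun i => (e i : Dat M)
  set C : ℝ := ∑ i, |(α i).C| with hC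
  have hC0 : 0 ≤ C := Finset.sum_nonneg fun _ _ => abs_nonneg _
  have hCi : ∀ i, |(α i).C| ≤ C := fun i =>
    Finset.single_le_sum (f := fun i => |(α i).C|) (fun _ _ => abs_nonneg _) (Finset.mem_univ i)
  have hpos : ∀ i, 0 < (α i).ε / ((‖(α i).y‖ + 1) * (‖(α i).η‖ + 1)) := fun i => by
    have := (α i).hε
    positivity
  obtain ⟨ε, hε0, hε⟩ : ∃ ε : ℝ, 0 < ε ∧
      ∀ i, ε < (α i).ε / ((‖(α i).y‖ + 1) * (‖(α i).η‖ + 1)) := by
    rcases Nat.eq_zero_or_pos n with h0 | h0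
    · exact ⟨1, one_pos, fun i => absurd i.2 (by omega)⟩
    · have : Nonempty (Fin n) := ⟨⟨0, h0⟩⟩
      obtain ⟨i0, hi0⟩ := Finite.exists_min
        (fun i => (α i).ε / ((‖(α i).y‖ + 1) * (‖(α i).η‖ + 1)))
      exact ⟨_, half_pos (hpos i0), fun i => (half_lt_self (hpos i0)).trans_le (hi0 i)⟩
  obtain ⟨U, hU⟩ := exists_almost (fun i => (α i).T) (fun i => (α i).ξ) C hC0
    (fun i => ((α i).hT.abs).mono (abs_nonneg _) (hCi i)) (ε ^ 2) (by positivity)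
  have key : ∀ i, ∀ᶠ b in (U : Filter (Col M)), b ∈ (α i).set := by
    intro i
    set k : ℝ := ‖(α i).y‖ + 1 with hk
    have hk0 : 0 < k := by positivity
    set x : M.toStarSubalgebra := ((k : ℂ)⁻¹) • (α i).y with hx
    have hxn : ‖x‖ ≤ 1 := by
      rw [hx, norm_smul, norm_inv, Complex.norm_real, Real.norm_of_nonneg hk0.le,
        inv_mul_le_iff₀ hk0]
      linarith
    have hxy : (α i).y = (k : ℂ) • x := by
      rw [hx, smul_smul, mul_inv_cancel₀ (by exact_mod_cast hk0.ne'), one_smul]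
    obtain ⟨D, hDn, hD⟩ := exists_wot_lim U (fun b => Dfc (α i).T (α i).u x b) (2 * C)
      (fun b => Dfc_norm_le hC0 (((α i).hT.abs).mono (abs_nonneg _) (hCi i)) (α i).u x
        (norm_le_one_of_unitary _ (α i).hu) hxn b)
    have h1 := hU i (α i).u x D (α i).hu (α i).hu' hxn hD i
    have h2 : ‖act D (α i).ξ‖ ≤ ε := abs_le_of_sq_le_sq' h1 hε0.le |>.2
    have h3 : Tendsto (fun b => ‖⟪(α i).η, act (Dfc (α i).T (α i).u (α i).y b) (α i).ξ⟫_ℂ‖) U
        (𝓝 ‖(k : ℂ) * ⟪(α i).η, act D (α i).ξ⟫_ℂ‖) := by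
      refine (Tendsto.norm ((hD (α i).ξ (α i).η).const_mul (k : ℂ))).congr fun b => ?_
      have e1 : Dfc (α i).T (α i).u (α i).y b = (k : ℂ) • Dfc (α i).T (α i).u x b := by
        rw [← Dfc_smul, ← hxy]
      rw [e1, act_smul, inner_smul_right]
    have h4 : ‖(k : ℂ) * ⟪(α i).η, act D (α i).ξ⟫_ℂ‖ < (α i).ε := by
      rw [norm_mul, Complex.norm_real, Real.norm_of_nonneg hk0.le]
      calc k * ‖⟪(α i).η, act D (α i).ξ⟫_ℂ‖ ≤ k * (‖(α i).η‖ * ε) := by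
            gcongr
            exact (norm_inner_le_norm _ _).trans (by gcongr)
        _ ≤ k * ((‖(α i).η‖ + 1) * ε) := by gcongr; linarith
        _ = ε * (k * (‖(α i).η‖ + 1)) := by ring
        _ < (α i).ε := by
            have := hε i
            rwa [lt_div_iff₀ (by positivity)] at this
    exact h3.eventually (gt_mem_nhds h4)
  obtain ⟨b, hb⟩ := (Filter.eventually_all.2 key).exists
  refine ⟨b, fun β hβ => ?_⟩
  have := hb (e.symm ⟨β, hβ⟩)
  have h2 : α (e.symm ⟨β, hβ⟩) = β := by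
    change ((e (e.symm ⟨β, hβ⟩) : s) : Dat M) = β
    rw [Equiv.apply_symm_apply]
  rwa [h2] at this

/-- **Block B, core.**  There is an ultrafilter on the columns of `M` along which the averages of
all completely bounded maps become right modular. -/
theorem exists_modular_ultrafilter (M : VonNeumannAlgebra H) :
    ∃ W : Ultrafilter (Col M), ∀ (T : M.toStarSubalgebra →ₗ[ℂ] M.toStarSubalgebra) (C : ℝ),
      CBd T C → ∀ y u : M.toStarSubalgebra, star u * u = 1 → u * star u = 1 → ∀ ξ η : H,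
        Tendsto (fun b => ⟪η, act (av b T y - av b T (y * star u) * u) ξ⟫_ℂ) W (𝓝 0) := by
  classical
  obtain ⟨W, hW⟩ := Ultrafilter.exists_ultrafilter_of_finite_inter_nonempty
    (Set.range (fun α : Dat M => α.set)) (by
      intro T hT
      choose f hf using fun (s : (T : Set (Set (Col M)))) => hT s.2
      obtain ⟨b, hb⟩ := dat_finite (Finset.univ.image f)
      refine ⟨b, ?_⟩
      simp only [Set.mem_sInter]
      intro s hs
      have h1 := hb (f ⟨s, hs⟩) (Finset.mem_image.2 ⟨⟨s, hs⟩, Finset.mem_univ _, rfl⟩)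
      have h2 : (f ⟨s, hs⟩).set = s := hf ⟨s, hs⟩
      rw [← h2]
      exact h1)
  refine ⟨W, fun T C hT y u hu hu' ξ η => ?_⟩
  rw [Metric.tendsto_nhds]
  intro ε hε
  have h1 := hW ⟨⟨T, C, hT, y, u, hu, hu', ξ, η, ε, hε⟩, rfl⟩
  refine Filter.mem_of_superset h1 fun b hb => ?_
  simpa [Dat.set, Dfc] using hb

end Final

end

end Crest.Agent.R121.B
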