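import Mathlib
import Crest.Prelude.Def_Hochschild

/-!
Row 121: the cochain homotopy for `t` with `σ a * t = t * a`, for all degrees.

For a cochain `f` in `n` variables, a map `σ` with `σ (a b) = σ a σ b` and an element `t` with
`σ a * t = t * a`, put `hK σ t f (x₁..x_{n-1}) = ∑_j (-1)^j f (σ x₁, .., σ x_j, t, x_{j+1}, ..)`.
Then `d (hK f) + hK (d f) = t f - f (σ ·) t`, where in the differential of `hK f` the left action
of `x₁` is multiplication by `σ x₁`.
-/

set_option autoImplicit false

universe u

namespace Crest.Agent.R121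

open Crest.OpAlg

variable {A : Type u} [Ring A]

/-- recursive Hochschild differential, `S` is a type of states with an action of `A`;
the last variable acts by right multiplication -/
def hD : (n : ℕ) → {S : Type u} → (S → A → S) → (S → (Fin n → A) → A) → S →
    (Fin (n + 1) → A) → A
  | 0, _, act, f, s, x => f (act s (x 0)) Fin.elim0 - f s Fin.elim0 * x 0
  | n + 1, S, act, f, s, x => f (act s (x 0)) (fun i => x i.succ) -
      hD n (S := S × A) (fun p b => (p.1, p.2 * b)) (fun p y => f p.1 (Fin.cons p.2 y))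
        (s, x 0) (fun i => x i.succ)

/-- the homotopy -/
def hK (σ : A → A) (t : A) : (n : ℕ) → {S : Type u} → (S → (Fin (n + 1) → A) → A) → S →
    (Fin n → A) → A
  | 0, _, f, s, _ => f s (fun _ => t)
  | n + 1, S, f, s, x => f s (Fin.cons t x) -
      hK σ t n (S := S × A) (fun p y => f p.1 (Fin.cons p.2 y)) (s, σ (x 0)) (fun i => x i.succ)

theorem mergeArgs_zero {n : ℕ} (x : Fin (n + 2) → A) :
    mergeArgs (0 : Fin (n + 1)) x = Fin.cons (x 0 * x 1) (fun i => x i.succ.succ) := by
  funext i
  refine Fin.cases ?_ (fun i => ?_) i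
  · simp [mergeArgs]
  · simp [mergeArgs]

theorem mergeArgs_succ {n : ℕ} (j : Fin n) (x : Fin (n + 2) → A) :
    mergeArgs j.succ x = Fin.cons (x 0) (mergeArgs j (fun i => x i.succ)) := by
  funext i
  refine Fin.cases ?_ (fun i => ?_) i
  · simp [mergeArgs]
  · simp only [mergeArgs, Fin.val_succ, Fin.cons_succ, Nat.succ_lt_succ_iff,
      Nat.add_right_cancel_iff, Fin.castSucc_succ]

/-- closed form of the recursive differential -/
theorem hD_eq (n : ℕ) : ∀ {S : Type u} (act : S → A → S) (f : S → (Fin n → A) → A) (s : S)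
    (x : Fin (n + 1) → A),
    hD n act f s x = f (act s (x 0)) (fun i => x i.succ) +
      (∑ j : Fin n, ((-1 : ℤ) ^ (j.val + 1)) • f s (mergeArgs j x)) +
      ((-1 : ℤ) ^ (n + 1)) • (f s (fun i => x i.castSucc) * x (Fin.last n)) := by
  induction n with
  | zero =>
    intro S act f s x
    have h1 : (fun i : Fin 0 => x i.succ) = Fin.elim0 := funext fun i => i.elim0
    have h2 : (fun i : Fin 0 => x i.castSucc) = Fin.elim0 := funext fun i => i.elim0
    rw [hD, h1, h2]
    simp [sub_eq_add_neg]
  | succ n ih =>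
    intro S act f s x
    rw [hD, ih]
    rw [Fin.sum_univ_succ]
    have e1 : (fun i : Fin (n + 1) => x i.castSucc)
        = Fin.cons (x 0) (fun i : Fin n => x i.succ.castSucc) := by
      funext i
      refine Fin.cases ?_ (fun i => ?_) i
      · simp
      · simp
    have e2 : ∀ j : Fin n, f s (mergeArgs j.succ x)
        = f s (Fin.cons (x 0) (mergeArgs j (fun i => x i.succ))) := fun j => by
      rw [mergeArgs_succ]
    rw [mergeArgs_zero, e1]
    simp only [e2]
    have e3 : (fun i : Fin n => x (Fin.castSucc i).succ) = fun i : Fin n => x i.succ.castSucc := by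
      funext i
      rw [Fin.succ_castSucc]
    simp only [e3, Fin.succ_last, Fin.succ_zero_eq_one, Fin.val_zero, Fin.val_succ]
    have e4 : ∀ (k : ℕ) (b : A), ((-1 : ℤ) ^ (k + 1)) • b = - (((-1 : ℤ) ^ k) • b) := by
      intro k b
      rw [pow_succ, mul_neg, mul_one, neg_smul]
    simp only [e4, Finset.sum_neg_distrib, pow_zero, one_smul, zero_add]
    abel

theorem hochschildDiff_eq_hD {n : ℕ} (f : (Fin n → A) → A) (x : Fin (n + 1) → A) :
    hochschildDiff f x = hD n (S := A) (fun s b => s * b) (fun s y => s * f y) 1 x := by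
  rw [hD_eq]
  simp only [hochschildDiff, one_mul]

theorem hD_sub (n : ℕ) {S : Type u} (act : S → A → S) (f g : S → (Fin n → A) → A) (s : S)
    (x : Fin (n + 1) → A) :
    hD n act (fun s y => f s y - g s y) s x = hD n act f s x - hD n act g s x := by
  simp only [hD_eq, smul_sub, Finset.sum_sub_distrib, sub_mul]
  abel

theorem hD_comap (n : ℕ) {S S' : Type u} (act : S → A → S) (act' : S' → A → S') (φ : S → S')
    (hφ : ∀ s a, φ (act s a) = act' (φ s) a) (f : S' → (Fin n → A) → A) (s : S)
    (x : Fin (n + 1) → A) :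
    hD n act (fun s y => f (φ s) y) s x = hD n act' f (φ s) x := by
  simp only [hD_eq, hφ]

theorem hK_sub (σ : A → A) (t : A) (n : ℕ) : ∀ {S : Type u} (f g : S → (Fin (n + 1) → A) → A)
    (s : S) (x : Fin n → A),
    hK σ t n (fun s y => f s y - g s y) s x = hK σ t n f s x - hK σ t n g s x := by
  induction n with
  | zero => intro S f g s x; rfl
  | succ n ih =>
    intro S f g s x
    simp only [hK]
    rw [ih]
    abel

theorem hK_comap (σ : A → A) (t : A) (n : ℕ) : ∀ {S S' : Type u} (φ : S → S')
    (f : S' → (Fin (n + 1) → A) → A) (s : S) (x : Fin n → A),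
    hK σ t n (fun s y => f (φ s) y) s x = hK σ t n f (φ s) x := by
  induction n with
  | zero => intro S S' φ f s x; rfl
  | succ n ih =>
    intro S S' φ f s x
    simp only [hK]
    have := ih (S := S × A) (S' := S' × A) (fun p => (φ p.1, p.2))
      (fun p y => f p.1 (Fin.cons p.2 y)) (s, σ (x 0)) (fun i => x i.succ)
    rw [this]

/-- **The homotopy identity.** -/
theorem homotopy (σ : A → A) (t : A) (hσ : ∀ a b, σ (a * b) = σ a * σ b)
    (hσt : ∀ a, σ a * t = t * a) (n : ℕ) :
    ∀ {S : Type u} (act : S → A → S) (f : S → (Fin (n + 1) → A) → A) (s : S)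
      (x : Fin (n + 1) → A),
    hD n (fun s b => act s (σ b)) (hK σ t n f) s x + hK σ t (n + 1) (hD (n + 1) act f) s x
      = f (act s t) x - f s (fun i => σ (x i)) * t := by
  induction n with
  | zero =>
    intro S act f s x
    have h0 : ∀ b : A, (fun _ : Fin 1 => b) = Fin.cons b Fin.elim0 := by
      intro b; funext i; refine Fin.cases ?_ (fun i => i.elim0) i; simp
    have hx : x = Fin.cons (x 0) Fin.elim0 := by
      funext i; refine Fin.cases ?_ (fun i => i.elim0) i; simp
    have hx' : (fun i : Fin 1 => σ (x i)) = Fin.cons (σ (x 0)) Fin.elim0 := by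
      funext i; refine Fin.cases ?_ (fun i => i.elim0) i; simp
    simp only [hD, hK, Fin.cons_zero, Fin.cons_succ, h0, hx']
    rw [hx]
    simp only [Fin.cons_zero, hσt]
    abel
  | succ n ih =>
    intro S act f s x
    have hx : x = Fin.cons (x 0) (fun i => x i.succ) := by
      funext i; refine Fin.cases ?_ (fun i => ?_) i <;> simp
    have hx' : (fun i => σ (x i)) = Fin.cons (σ (x 0)) (fun i : Fin (n + 1) => σ (x i.succ)) := by
      funext i; refine Fin.cases ?_ (fun i => ?_) i <;> simp
    -- the first term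
    have T1 : hD (n + 1) (fun s b => act s (σ b)) (hK σ t (n + 1) f) s x
        = hK σ t (n + 1) f (act s (σ (x 0))) (fun i => x i.succ)
          - (hD n (S := (S × A) × A) (fun p b => (p.1, p.2 * b))
              (fun p y => f p.1.1 (Fin.cons p.1.2 (Fin.cons p.2 y))) ((s, t), x 0)
                (fun i => x i.succ)
            - hD n (S := S × A) (fun p b => (p.1, p.2 * σ b))
              (hK σ t n (S := S × A) (fun p y => f p.1 (Fin.cons p.2 y))) (s, σ (x 0))
                (fun i => x i.succ)) := by
      have e1 := hD_comap (A := A) n (S := S × A) (S' := (S × A) × A)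
        (fun p b => (p.1, p.2 * b)) (fun p b => (p.1, p.2 * b))
        (fun p => ((p.1, t), p.2)) (fun _ _ => rfl)
        (fun p y => f p.1.1 (Fin.cons p.1.2 (Fin.cons p.2 y))) (s, x 0) (fun i => x i.succ)
      have e2 := hD_comap (A := A) n (S := S × A) (S' := S × A)
        (fun p b => (p.1, p.2 * b)) (fun p b => (p.1, p.2 * σ b))
        (fun p => (p.1, σ p.2)) (fun p a => by simp [hσ])
        (hK σ t n (S := S × A) (fun p y => f p.1 (Fin.cons p.2 y))) (s, x 0) (fun i => x i.succ)
      simp only at e1 e2
      rw [← e1, ← e2, ← hD_sub]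
      rw [hD]
      simp only [hK, Fin.cons_zero, Fin.cons_succ]
    -- the second term
    have T2 : hK σ t (n + 2) (hD (n + 2) act f) s x
        = (f (act s t) x - (f s (Fin.cons (t * x 0) (fun i => x i.succ))
            - hD n (S := (S × A) × A) (fun p b => (p.1, p.2 * b))
              (fun p y => f p.1.1 (Fin.cons p.1.2 (Fin.cons p.2 y))) ((s, t), x 0)
                (fun i => x i.succ)))
          - (hK σ t (n + 1) f (act s (σ (x 0))) (fun i => x i.succ)
            - hK σ t (n + 1) (hD (n + 1) (S := S × A) (fun p b => (p.1, p.2 * b))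
              (fun p y => f p.1 (Fin.cons p.2 y))) (s, σ (x 0)) (fun i => x i.succ)) := by
      rw [hK]
      congr 1
      · have e1 := hK_comap (A := A) σ t (n + 1) (S := S × A) (S' := S)
          (fun p => act p.1 p.2) f (s, σ (x 0)) (fun i => x i.succ)
        simp only at e1
        rw [← e1, ← hK_sub]
        congr 1
    have IH := ih (S := S × A) (fun p b => (p.1, p.2 * b)) (fun p y => f p.1 (Fin.cons p.2 y))
      (s, σ (x 0)) (fun i => x i.succ)
    simp only [hσt] at IH
    rw [T1, T2, hx']
    have key : ∀ (a1 a2 a3 a4 a5 a6 a7 : A), a3 + a6 = a5 - a7 →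
        a1 - (a2 - a3) + ((a4 - (a5 - a2)) - (a1 - a6)) = a4 - a7 := by
      intro a1 a2 a3 a4 a5 a6 a7 h
      have : a1 - (a2 - a3) + ((a4 - (a5 - a2)) - (a1 - a6)) = a4 - a5 + (a3 + a6) := by abel
      rw [this, h]; abel
    exact key _ _ _ _ _ _ _ IH

end Crest.Agent.R121
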