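import Mathlib
import Crest.Agent.R121.Homotopy

/-!
Row 121, block C2: the homotopy for continuous multilinear cocycles.
-/

set_option autoImplicit false
set_option linter.unusedSectionVars false

universe u

namespace Crest.Agent.R121

open Crest.OpAlg

section alg

variable {A : Type u} [Ring A]

/-- the arguments `(σ y₁, .., σ y_j, t, y_{j+1}, ..)` -/
def hArg (σ : A → A) (t : A) {n : ℕ} (j : Fin (n + 1)) (y : Fin n → A) : Fin (n + 1) → A :=
  j.insertNth t (fun i : Fin n => if i.castSucc < j then σ (y i) else y i)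

theorem hArg_zero (σ : A → A) (t : A) {n : ℕ} (y : Fin n → A) :
    hArg σ t 0 y = Fin.cons t y := by
  unfold hArg
  simp [Fin.insertNth_zero']

theorem hArg_succ (σ : A → A) (t : A) {n : ℕ} (j : Fin (n + 1)) (y : Fin (n + 1) → A) :
    hArg σ t j.succ y = Fin.cons (σ (y 0)) (hArg σ t j (fun i => y i.succ)) := by
  unfold hArg
  symm
  rw [Fin.eq_insertNth_iff]
  refine ⟨by simp, ?_⟩
  funext i
  refine Fin.cases ?_ (fun i => ?_) i
  · simp [Fin.removeNth]
  · simp only [Fin.removeNth, Fin.succ_succAbove_succ, Fin.cons_succ, Fin.insertNth_apply_succAbove]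
    congr 1
    simp only [Fin.castSucc_succ, Fin.succ_lt_succ_iff]

theorem hK_eq (σ : A → A) (t : A) (n : ℕ) : ∀ {S : Type u} (f : S → (Fin (n + 1) → A) → A)
    (s : S) (x : Fin n → A),
    hK σ t n f s x = ∑ j : Fin (n + 1), ((-1 : ℤ) ^ j.val) • f s (hArg σ t j x) := by
  induction n with
  | zero =>
    intro S f s x
    have h : (fun _ : Fin 1 => t) = hArg σ t 0 x := by
      rw [hArg_zero]
      funext i
      refine Fin.cases ?_ (fun i => i.elim0) i
      simp
    rw [hK, h]
    simp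
  | succ n ih =>
    intro S f s x
    rw [hK, ih]
    symm
    rw [Fin.sum_univ_succ, sub_eq_add_neg, ← Finset.sum_neg_distrib]
    simp only [hArg_zero, hArg_succ, Fin.val_zero, pow_zero, one_smul, Fin.val_succ]
    congr 1
    refine Finset.sum_congr rfl fun j _ => ?_
    rw [pow_succ, mul_neg, mul_one, neg_smul]

/-- the homotopy identity in terms of `hochschildDiff` -/
theorem homotopy_hochschild {n : ℕ} (f : (Fin (n + 1) → A) → A)
    (hf : ∀ a, hochschildDiff f a = 0) (σ : A → A) (s t : A)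
    (hσ : ∀ a b, σ (a * b) = σ a * σ b) (hσs : ∀ a, s * σ a = a * s)
    (hσt : ∀ a, σ a * t = t * a) (x : Fin (n + 1) → A) :
    s * t * f x = hochschildDiff
        (fun y => s * ∑ j : Fin (n + 1), ((-1 : ℤ) ^ j.val) • f (hArg σ t j y)) x
      + s * f (fun i => σ (x i)) * t := by
  have H := homotopy σ t hσ hσt n (S := A) (fun s b => s * b) (fun s y => s * f y) s x
  have h1 : ∀ (s' : A) (y : Fin (n + 2) → A),
      hD (n + 1) (S := A) (fun s b => s * b) (fun s y => s * f y) s' y = 0 := by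
    intro s' y
    have h2 := hf y
    rw [hochschildDiff] at h2
    rw [hD_eq]
    have h3 : s' * y 0 * f (fun i => y i.succ) +
        ∑ j : Fin (n + 1), ((-1 : ℤ) ^ (j.val + 1)) • (s' * f (mergeArgs j y)) +
        ((-1 : ℤ) ^ (n + 1 + 1)) • (s' * f (fun i => y i.castSucc) * y (Fin.last (n + 1)))
        = s' * (y 0 * f (fun i => y i.succ) +
          (∑ j : Fin (n + 1), ((-1 : ℤ) ^ (j.val + 1)) • f (mergeArgs j y)) +
          ((-1 : ℤ) ^ (n + 1 + 1)) • (f (fun i => y i.castSucc) * y (Fin.last (n + 1)))) := by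
      simp only [mul_add, Finset.mul_sum, mul_smul_comm, mul_assoc]
    rw [h3, h2, mul_zero]
  have h4 : hK σ t (n + 1) (hD (n + 1) (S := A) (fun s b => s * b) (fun s y => s * f y)) s x
      = 0 := by
    rw [hK_eq]
    refine Finset.sum_eq_zero fun j _ => ?_
    rw [h1, smul_zero]
  rw [h4, add_zero] at H
  have h5 : hD n (S := A) (fun s b => s * σ b) (hK σ t n (fun s y => s * f y)) s x
      = hochschildDiff
        (fun y => s * ∑ j : Fin (n + 1), ((-1 : ℤ) ^ j.val) • f (hArg σ t j y)) x := by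
    rw [hD_eq, hochschildDiff]
    simp only [hK_eq, ← mul_smul_comm, ← Finset.mul_sum, ← mul_assoc, hσs]
  rw [h5] at H
  rw [H]
  noncomm_ring

end alg

section normed

variable {A : Type u} [NormedRing A] [NormedAlgebra ℂ A]

/-- the `j`-th term of the homotopy, as a continuous multilinear map -/
noncomputable def hTerm {n : ℕ} (f : ContinuousMultilinearMap ℂ (fun _ : Fin (n + 1) => A) A)
    (σ : A →L[ℂ] A) (t : A) (j : Fin (n + 1)) :
    ContinuousMultilinearMap ℂ (fun _ : Fin n => A) A :=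
  (f.curryMid j t).compContinuousLinearMap
    (fun i => if i.castSucc < j then σ else ContinuousLinearMap.id ℂ A)

theorem hTerm_apply {n : ℕ} (f : ContinuousMultilinearMap ℂ (fun _ : Fin (n + 1) => A) A)
    (σ : A →L[ℂ] A) (t : A) (j : Fin (n + 1)) (y : Fin n → A) :
    hTerm f σ t j y = f (hArg σ t j y) := by
  unfold hTerm hArg
  rw [ContinuousMultilinearMap.compContinuousLinearMap_apply,
    ContinuousMultilinearMap.curryMid_apply]
  congr 1
  congr 1
  funext i
  split_ifs <;> simp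

theorem norm_hTerm_le {n : ℕ} (f : ContinuousMultilinearMap ℂ (fun _ : Fin (n + 1) => A) A)
    (σ : A →L[ℂ] A) (hσ : ∀ a, ‖σ a‖ ≤ ‖a‖) (t : A) (j : Fin (n + 1)) :
    ‖hTerm f σ t j‖ ≤ ‖f‖ * ‖t‖ := by
  refine ContinuousMultilinearMap.opNorm_le_bound (by positivity) fun y => ?_
  unfold hTerm
  rw [ContinuousMultilinearMap.compContinuousLinearMap_apply]
  refine (ContinuousMultilinearMap.le_opNorm _ _).trans ?_
  have h1 : ‖f.curryMid j t‖ ≤ ‖f‖ * ‖t‖ := by
    have := (f.curryMid j).le_opNorm t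
    rwa [ContinuousMultilinearMap.norm_curryMid] at this
  have h2 : ∏ i : Fin n, ‖(if i.castSucc < j then σ else ContinuousLinearMap.id ℂ A) (y i)‖
      ≤ ∏ i : Fin n, ‖y i‖ := by
    refine Finset.prod_le_prod (fun i _ => norm_nonneg _) fun i _ => ?_
    split_ifs
    · exact hσ _
    · simp
  gcongr

/-- **Block C2.** -/
theorem exists_homotopy {n : ℕ} (f : ContinuousMultilinearMap ℂ (fun _ : Fin (n + 1) => A) A)
    (hf : ∀ a, hochschildDiff f a = 0) (σ : A →L[ℂ] A) (s t : A)
    (hσ : ∀ a b, σ (a * b) = σ a * σ b) (hσ1 : ∀ a, ‖σ a‖ ≤ ‖a‖)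
    (hσs : ∀ a, s * σ a = a * s) (hσt : ∀ a, σ a * t = t * a) :
    ∃ k : ContinuousMultilinearMap ℂ (fun _ : Fin n => A) A,
      ‖k‖ ≤ (n + 1) * ‖f‖ * ‖s‖ * ‖t‖ ∧
      ∀ x : Fin (n + 1) → A,
        s * t * f x = hochschildDiff k x + s * f (fun i => σ (x i)) * t := by
  refine ⟨(ContinuousLinearMap.mul ℂ A s).compContinuousMultilinearMap
    (∑ j : Fin (n + 1), ((-1 : ℂ) ^ j.val) • hTerm f σ t j), ?_, fun x => ?_⟩
  · refine (ContinuousLinearMap.norm_compContinuousMultilinearMap_le _ _).trans ?_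
    have h1 : ‖ContinuousLinearMap.mul ℂ A s‖ ≤ ‖s‖ := by
      exact ContinuousLinearMap.opNorm_mul_apply_le ℂ A s
    have h2 : ‖∑ j : Fin (n + 1), ((-1 : ℂ) ^ j.val) • hTerm f σ t j‖
        ≤ (n + 1) * (‖f‖ * ‖t‖) := by
      refine (norm_sum_le _ _).trans ?_
      calc ∑ j : Fin (n + 1), ‖((-1 : ℂ) ^ j.val) • hTerm f σ t j‖
          ≤ ∑ _j : Fin (n + 1), ‖f‖ * ‖t‖ := by
            refine Finset.sum_le_sum fun j _ => ?_
            rw [norm_smul]
            simpa using norm_hTerm_le f σ hσ1 t j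
        _ = (n + 1) * (‖f‖ * ‖t‖) := by simp
    calc ‖ContinuousLinearMap.mul ℂ A s‖ * ‖∑ j : Fin (n + 1), ((-1 : ℂ) ^ j.val) • hTerm f σ t j‖
        ≤ ‖s‖ * ((n + 1) * (‖f‖ * ‖t‖)) := by gcongr
      _ = _ := by ring
  · rw [homotopy_hochschild (⇑f) hf σ s t hσ hσs hσt x]
    congr 2
    funext y
    simp only [ContinuousLinearMap.compContinuousMultilinearMap_coe, Function.comp_apply,
      ContinuousLinearMap.mul_apply', sum_apply, smul_apply, hTerm_apply]
    congr 1
    refine Finset.sum_congr rfl fun j _ => ?_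
    rcases Nat.even_or_odd j.val with h | h
    · simp [h.neg_one_pow]
    · simp [h.neg_one_pow]

end normed

end Crest.Agent.R121
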