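import Crest.Agent.R121.Defs

/-!
# Row 121: the scale of completely bounded maps
-/

set_option autoImplicit false
set_option linter.unusedSectionVars false

namespace Crest.Agent.R121

open scoped InnerProductSpace

noncomputable section

universe u

variable {H : Type u} [NormedAddCommGroup H] [InnerProductSpace ℂ H] [CompleteSpace H]
variable {M : VonNeumannAlgebra H}

namespace CBaux

lemma sq_add_le {ι : Type} [Fintype ι] (a b : ι → H) (A B : ℝ) (hA : 0 ≤ A) (hB : 0 ≤ B)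
    (ha : ∑ i, ‖a i‖ ^ 2 ≤ A ^ 2) (hb : ∑ i, ‖b i‖ ^ 2 ≤ B ^ 2) :
    ∑ i, ‖a i + b i‖ ^ 2 ≤ (A + B) ^ 2 := by
  have h1 : ∑ i, ‖a i‖ * ‖b i‖ ≤ A * B := by
    have h2 : (∑ i, ‖a i‖ * ‖b i‖) ^ 2 ≤ (∑ i, ‖a i‖ ^ 2) * ∑ i, ‖b i‖ ^ 2 :=
      Finset.sum_mul_sq_le_sq_mul_sq _ _ _
    have h3 : (∑ i, ‖a i‖ * ‖b i‖) ^ 2 ≤ (A * B) ^ 2 := by
      rw [mul_pow]
      refine h2.trans (mul_le_mul ha hb ?_ (sq_nonneg _))
      exact Finset.sum_nonneg fun _ _ => sq_nonneg _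
    exact (abs_le_of_sq_le_sq' h3 (mul_nonneg hA hB)).2
  calc ∑ i, ‖a i + b i‖ ^ 2 ≤ ∑ i, (‖a i‖ ^ 2 + 2 * (‖a i‖ * ‖b i‖) + ‖b i‖ ^ 2) := by
        refine Finset.sum_le_sum fun i _ => ?_
        have := norm_add_le (a i) (b i)
        nlinarith [norm_nonneg (a i + b i), norm_nonneg (a i), norm_nonneg (b i)]
    _ = ∑ i, ‖a i‖ ^ 2 + 2 * ∑ i, ‖a i‖ * ‖b i‖ + ∑ i, ‖b i‖ ^ 2 := by
        rw [Finset.sum_add_distrib, Finset.sum_add_distrib, Finset.mul_sum]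
    _ ≤ A ^ 2 + 2 * (A * B) + B ^ 2 := by linarith
    _ = (A + B) ^ 2 := by ring

lemma mb_add {ι κ : Type} [Fintype ι] [Fintype κ] {X Y : ι → κ → (H →L[ℂ] H)} {c d : ℝ}
    (hc : 0 ≤ c) (hd : 0 ≤ d) (hX : MB X c) (hY : MB Y d) :
    MB (fun i j => X i j + Y i j) (c + d) := by
  intro ξ
  have hS : 0 ≤ ∑ j, ‖ξ j‖ ^ 2 := Finset.sum_nonneg fun _ _ => sq_nonneg _
  set s : ℝ := √(∑ j, ‖ξ j‖ ^ 2) with hs
  have hss : s ^ 2 = ∑ j, ‖ξ j‖ ^ 2 := Real.sq_sqrt hS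
  have hs0 : 0 ≤ s := Real.sqrt_nonneg _
  have h1 := hX ξ
  have h2 := hY ξ
  rw [← hss, ← mul_pow] at h1 h2 ⊢
  rw [add_mul]
  have h3 : ∀ i, ∑ j, (X i j + Y i j) (ξ j) = ∑ j, X i j (ξ j) + ∑ j, Y i j (ξ j) := by
    intro i
    rw [← Finset.sum_add_distrib]
    rfl
  simp only [h3]
  exact sq_add_le _ _ _ _ (mul_nonneg hc hs0) (mul_nonneg hd hs0) h1 h2

lemma mb_mono {ι κ : Type} [Fintype ι] [Fintype κ] {X : ι → κ → (H →L[ℂ] H)} {c d : ℝ}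
    (hc : 0 ≤ c) (hcd : c ≤ d) (hX : MB X c) : MB X d := by
  intro ξ
  refine (hX ξ).trans ?_
  have hS : 0 ≤ ∑ j, ‖ξ j‖ ^ 2 := Finset.sum_nonneg fun _ _ => sq_nonneg _
  gcongr

lemma mb_smul {ι κ : Type} [Fintype ι] [Fintype κ] {X : ι → κ → (H →L[ℂ] H)} {c : ℝ} (r : ℂ)
    (hX : MB X c) : MB (fun i j => r • X i j) (‖r‖ * c) := by
  intro ξ
  have h1 : ∀ i, ∑ j, (r • X i j) (ξ j) = r • ∑ j, X i j (ξ j) := by
    intro i
    rw [Finset.smul_sum]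
    rfl
  simp only [h1, norm_smul, mul_pow, ← Finset.mul_sum, mul_assoc]
  exact mul_le_mul_of_nonneg_left (hX ξ) (sq_nonneg _)

lemma mb_lmul {ι κ : Type} [Fintype ι] [Fintype κ] {X : ι → κ → (H →L[ℂ] H)} {c : ℝ}
    (a : H →L[ℂ] H) (hX : MB X c) : MB (fun i j => a * X i j) (‖a‖ * c) := by
  intro ξ
  have h1 : ∀ i, ∑ j, (a * X i j) (ξ j) = a (∑ j, X i j (ξ j)) := by
    intro i
    rw [map_sum]
    rfl
  simp only [h1]
  calc ∑ i, ‖a (∑ j, X i j (ξ j))‖ ^ 2 ≤ ∑ i, ‖a‖ ^ 2 * ‖∑ j, X i j (ξ j)‖ ^ 2 := by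
        refine Finset.sum_le_sum fun i _ => ?_
        rw [← mul_pow]
        exact pow_le_pow_left₀ (norm_nonneg _) (a.le_opNorm _) 2
    _ = ‖a‖ ^ 2 * ∑ i, ‖∑ j, X i j (ξ j)‖ ^ 2 := by rw [Finset.mul_sum]
    _ ≤ ‖a‖ ^ 2 * (c ^ 2 * ∑ j, ‖ξ j‖ ^ 2) := mul_le_mul_of_nonneg_left (hX ξ) (sq_nonneg _)
    _ = _ := by ring

lemma mb_zero {ι κ : Type} [Fintype ι] [Fintype κ] {c : ℝ} :
    MB (fun (_ : ι) (_ : κ) => (0 : H →L[ℂ] H)) c := by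
  intro ξ
  simp only [zero_apply, Finset.sum_const_zero, norm_zero, ne_eq,
    OfNat.ofNat_ne_zero, not_false_eq_true, zero_pow]
  exact mul_nonneg (sq_nonneg _) (Finset.sum_nonneg fun _ _ => sq_nonneg _)

lemma mb_scale {ι κ : Type} [Fintype ι] [Fintype κ] {X : ι → κ → (H →L[ℂ] H)} {c : ℝ}
    (hc : 0 < c) (hX : MB X c) : MB (fun i j => ((c : ℂ)⁻¹) • X i j) 1 := by
  have h := mb_smul ((c : ℂ)⁻¹) hX
  have h1 : ‖(c : ℂ)⁻¹‖ * c = 1 := by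
    rw [norm_inv, Complex.norm_real, Real.norm_of_nonneg hc.le, inv_mul_cancel₀ hc.ne']
  rwa [h1] at h

end CBaux

open CBaux

/-- the scale of completely bounded maps -/
def cbS (M : VonNeumannAlgebra H) : Scale M where
  mem K T := IsCB K T
  nonneg h := h.1
  mono h h' := ⟨h.1.trans h', fun n X hX => mb_mono h.1 h' (h.2 n X hX)⟩
  zero := ⟨le_rfl, fun n X _ => mb_zero⟩
  add h h' := ⟨add_nonneg h.1 h'.1, fun n X hX => mb_add h.1 h'.1 (h.2 n X hX) (h'.2 n X hX)⟩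
  smul c K T h := ⟨mul_nonneg (norm_nonneg _) h.1, fun n X hX => mb_smul c (h.2 n X hX)⟩
  lmul a K T h := ⟨mul_nonneg (norm_nonneg _) h.1, fun n X hX =>
    mb_lmul (a : H →L[ℂ] H) (h.2 n X hX)⟩
  comp a K T h := ⟨mul_nonneg h.1 (norm_nonneg _), fun n X hX => by
    rcases eq_or_ne a 0 with rfl | ha
    · have h1 : ∀ i j, (((T ∘L Lm (0 : Al M)) (X i j) : Al M) : H →L[ℂ] H) = 0 := by
        intro i j
        have : (T ∘L Lm (0 : Al M)) (X i j) = T ((0 : Al M) * X i j) := rfl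
        rw [this, zero_mul, map_zero]
        rfl
      simp only [h1]
      exact mb_zero
    · have ha' : 0 < ‖a‖ := norm_pos_iff.2 ha
      have h1 : MB (fun i j => (a : H →L[ℂ] H) * (X i j : H →L[ℂ] H)) ‖a‖ := by
        have := mb_lmul (a : H →L[ℂ] H) hX
        rw [mul_one] at this
        exact this
      have h2 := mb_scale ha' h1
      have h3 := h.2 n (fun i j => ((‖a‖ : ℂ)⁻¹) • (a * X i j)) h2
      have h4 := mb_smul (‖a‖ : ℂ) h3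
      rw [Complex.norm_real, norm_norm, mul_comm ‖a‖ K] at h4
      have h5 : ∀ i j, (((T ∘L Lm a) (X i j) : Al M) : H →L[ℂ] H)
          = (‖a‖ : ℂ) • ((T (((‖a‖ : ℂ)⁻¹) • (a * X i j)) : Al M) : H →L[ℂ] H) := by
        intro i j
        have h6 : (‖a‖ : ℂ) • T (((‖a‖ : ℂ)⁻¹) • (a * X i j)) = (T ∘L Lm a) (X i j) := by
          rw [map_smul, smul_smul, mul_inv_cancel₀ (by exact_mod_cast ha'.ne'), one_smul]
          rfl
        rw [← h6]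
        rfl
      simp only [h5]
      exact h4⟩
  mul d := ⟨norm_nonneg _, fun n X hX => by
    have := mb_lmul (d : H →L[ℂ] H) hX
    rw [mul_one] at this
    exact this⟩

end

end Crest.Agent.R121
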