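import Crest.Agent.R121.Defs
import Crest.Agent.R121.CBS
import Crest.Agent.R121.BMain
import Mathlib.Analysis.CStarAlgebra.Unitary.Span

/-!
# Row 121, block B: the averaging functional `ρ` on completely bounded maps
-/

set_option autoImplicit false
set_option linter.unusedSectionVars false

namespace Crest.Agent.R121

open scoped InnerProductSpace
open Filter Topology

noncomputable section

universe u

variable {H : Type u} [NormedAddCommGroup H] [InnerProductSpace ℂ H] [CompleteSpace H]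
variable {M : VonNeumannAlgebra H}

namespace B

lemma isClosed_M (M : VonNeumannAlgebra H) : IsClosed (M.toStarSubalgebra : Set (H →L[ℂ] H)) := by
  have h : (M.toStarSubalgebra : Set (H →L[ℂ] H))
      = Set.centralizer (Set.centralizer (M.toStarSubalgebra : Set (H →L[ℂ] H))) :=
    M.centralizer_centralizer'.symm
  rw [h]
  exact Set.isClosed_centralizer _

lemma mem_span_unitary (a : M.toStarSubalgebra) :
    a ∈ Submodule.span ℂ (unitary M.toStarSubalgebra : Set M.toStarSubalgebra) := by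
  have : IsClosed (M.toStarSubalgebra : Set (H →L[ℂ] H)) := isClosed_M M
  have h : Submodule.span ℂ (unitary M.toStarSubalgebra : Set M.toStarSubalgebra) = ⊤ :=
    CStarAlgebra.span_unitary M.toStarSubalgebra
  rw [h]
  exact Submodule.mem_top

lemma cbd_of_isCB {T : En M} {K : ℝ} (hT : IsCB K T) :
    CBd (T : M.toStarSubalgebra →ₗ[ℂ] M.toStarSubalgebra) K := by
  classical
  intro I J _ _ y hy ζ
  set e := Fintype.equivFin (I ⊕ J) with he
  let X : Fin (Fintype.card (I ⊕ J)) → Fin (Fintype.card (I ⊕ J)) → Al M := fun a b =>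
    Sum.elim (fun i => Sum.elim (fun _ => (0 : Al M)) (fun j => y i j) (e.symm b))
      (fun _ => 0) (e.symm a)
  have hX : MB (fun a b => (X a b : H →L[ℂ] H)) 1 := by
    intro ξ
    rw [← e.sum_comp (fun a => ‖∑ b, (X a b : H →L[ℂ] H) (ξ b)‖ ^ 2),
      ← e.sum_comp (fun b => ‖ξ b‖ ^ 2), Fintype.sum_sum_type, Fintype.sum_sum_type]
    have h1 : ∀ i : I, ∑ b, (X (e (Sum.inl i)) b : H →L[ℂ] H) (ξ b)
        = ∑ j, act (y i j) (ξ (e (Sum.inr j))) := by
      intro i
      rw [← e.sum_comp (fun b => (X (e (Sum.inl i)) b : H →L[ℂ] H) (ξ b)), Fintype.sum_sum_type]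
      simp [X]
    have h2 : ∀ j : J, ∑ b, (X (e (Sum.inr j)) b : H →L[ℂ] H) (ξ b) = 0 := by
      intro j
      refine Finset.sum_eq_zero fun b _ => ?_
      simp [X]
    simp only [h1, h2]
    have h3 := hy (fun j => ξ (e (Sum.inr j)))
    have h4 : 0 ≤ ∑ i : I, ‖ξ (e (Sum.inl i))‖ ^ 2 := Finset.sum_nonneg fun _ _ => sq_nonneg _
    simp only [norm_zero, ne_eq, OfNat.ofNat_ne_zero, not_false_eq_true, zero_pow,
      Finset.sum_const_zero, add_zero, one_pow, one_mul]
    linarith
  have h5 := hT.2 _ X hX (fun b => Sum.elim (fun _ => (0 : H)) (fun j => ζ j) (e.symm b))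
  rw [← e.sum_comp, ← e.sum_comp (fun b =>
    ‖(Sum.elim (fun _ => (0 : H)) (fun j => ζ j) (e.symm b) : H)‖ ^ 2), Fintype.sum_sum_type,
    Fintype.sum_sum_type] at h5
  have h6 : ∀ i : I, ∑ b, (T (X (e (Sum.inl i)) b) : H →L[ℂ] H)
      (Sum.elim (fun _ => (0 : H)) (fun j => ζ j) (e.symm b)) = ∑ j, act (T (y i j)) (ζ j) := by
    intro i
    rw [← e.sum_comp, Fintype.sum_sum_type]
    simp [X]
  simp only [h6] at h5
  have h7 : 0 ≤ ∑ j : J, ‖∑ b, (T (X (e (Sum.inr j)) b) : H →L[ℂ] H)
      (Sum.elim (fun _ => (0 : H)) (fun j => ζ j) (e.symm b))‖ ^ 2 :=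
    Finset.sum_nonneg fun _ _ => sq_nonneg _
  simp only [Equiv.symm_apply_apply, Sum.elim_inl, Sum.elim_inr, norm_zero, ne_eq,
    OfNat.ofNat_ne_zero, not_false_eq_true, zero_pow, Finset.sum_const_zero, zero_add] at h5 h7
  change ∑ i, ‖∑ j, act (T (y i j)) (ζ j)‖ ^ 2 ≤ _
  linarith

/-- the chosen ultrafilter -/
def WW (M : VonNeumannAlgebra H) : Ultrafilter (Col M) := (exists_modular_ultrafilter M).choose

lemma WW_spec (M : VonNeumannAlgebra H) (T : M.toStarSubalgebra →ₗ[ℂ] M.toStarSubalgebra) (C : ℝ)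
    (hT : CBd T C) (y u : M.toStarSubalgebra) (hu : star u * u = 1) (hu' : u * star u = 1)
    (ξ η : H) :
    Tendsto (fun b => ⟪η, act (av b T y - av b T (y * star u) * u) ξ⟫_ℂ) (WW M) (𝓝 0) :=
  (exists_modular_ultrafilter M).choose_spec T C hT y u hu hu' ξ η

/-- weak convergence along `WW M` -/
def IsL (x : Col M → M.toStarSubalgebra) (D : M.toStarSubalgebra) : Prop :=
  ∀ ξ η : H, Tendsto (fun b => ⟪η, act (x b) ξ⟫_ℂ) (WW M) (𝓝 ⟪η, act D ξ⟫_ℂ)

lemma IsL.unique {x : Col M → M.toStarSubalgebra} {D D' : M.toStarSubalgebra} (h : IsL x D)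
    (h' : IsL x D') : D = D' :=
  Subtype.ext (ContinuousLinearMap.ext fun v => ext_inner_left ℂ fun w =>
    tendsto_nhds_unique (h v w) (h' v w))

lemma IsL.add {x x' : Col M → M.toStarSubalgebra} {D D' : M.toStarSubalgebra} (h : IsL x D)
    (h' : IsL x' D') : IsL (fun b => x b + x' b) (D + D') := by
  intro ξ η
  simp only [act_add, inner_add_right]
  exact (h ξ η).add (h' ξ η)

lemma IsL.smul {x : Col M → M.toStarSubalgebra} {D : M.toStarSubalgebra} (h : IsL x D) (c : ℂ) :
    IsL (fun b => c • x b) (c • D) := by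
  intro ξ η
  simp only [act_smul, inner_smul_right]
  exact (h ξ η).const_mul c

lemma IsL.mul_left {x : Col M → M.toStarSubalgebra} {D : M.toStarSubalgebra} (h : IsL x D)
    (a : M.toStarSubalgebra) : IsL (fun b => a * x b) (a * D) := by
  intro ξ η
  have h1 : ∀ y : M.toStarSubalgebra, ⟪η, act (a * y) ξ⟫_ℂ = ⟪act (star a) η, act y ξ⟫_ℂ := by
    intro y
    rw [act_mul, inner_act_left]
  simp only [h1]
  exact h ξ _

lemma IsL.mul_right {x : Col M → M.toStarSubalgebra} {D : M.toStarSubalgebra} (h : IsL x D)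
    (a : M.toStarSubalgebra) : IsL (fun b => x b * a) (D * a) := fun ξ η => h (act a ξ) η

lemma IsL.const (D : M.toStarSubalgebra) : IsL (fun _ => D) D := fun _ _ => tendsto_const_nhds

open Classical in
/-- the averaging functional -/
def rhoB (T : En M) : Al M :=
  if h : ∃ D, IsL (fun b => av b (T : M.toStarSubalgebra →ₗ[ℂ] M.toStarSubalgebra) 1) D then
    h.choose else 0

lemma rhoB_eq {T : En M} {D : Al M}
    (h : IsL (fun b => av b (T : M.toStarSubalgebra →ₗ[ℂ] M.toStarSubalgebra) 1) D) :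
    rhoB T = D := by
  have h1 : ∃ D, IsL (fun b => av b (T : M.toStarSubalgebra →ₗ[ℂ] M.toStarSubalgebra) 1) D :=
    ⟨D, h⟩
  rw [rhoB, dif_pos h1]
  exact h1.choose_spec.unique h

lemma rhoB_isL {T : En M} {K : ℝ} (hT : IsCB K T) :
    ‖rhoB T‖ ≤ K ∧
      IsL (fun b => av b (T : M.toStarSubalgebra →ₗ[ℂ] M.toStarSubalgebra) 1) (rhoB T) := by
  have hc := cbd_of_isCB hT
  obtain ⟨D, hDn, hD⟩ := exists_wot_lim (WW M)
    (fun b => av b (T : M.toStarSubalgebra →ₗ[ℂ] M.toStarSubalgebra) 1) K (fun b => by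
      have h1 := (hc.av b).norm_le hT.1 1
      have h2 : ‖(1 : M.toStarSubalgebra)‖ ≤ 1 := norm_le_one_of_unitary 1 (by simp)
      exact h1.trans (mul_le_of_le_one_right hT.1 h2))
  have h1 : rhoB T = D := rhoB_eq hD
  rw [h1]
  exact ⟨hDn, hD⟩

lemma isL_apply {T : En M} {K : ℝ} (hT : IsCB K T) (a : Al M) :
    IsL (fun b => av b (T : M.toStarSubalgebra →ₗ[ℂ] M.toStarSubalgebra) a) (rhoB T * a) := by
  have hc := cbd_of_isCB hT
  obtain ⟨-, hL⟩ := rhoB_isL hT
  have hmem := mem_span_unitary (M := M) a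
  induction hmem using Submodule.span_induction with
  | mem u hu =>
    obtain ⟨hu1, hu2⟩ := Unitary.mem_iff.1 hu
    have h1 := WW_spec M T K hc u u hu1 hu2
    intro ξ η
    have h2 := (h1 ξ η).add ((hL.mul_right u) ξ η)
    rw [zero_add] at h2
    refine h2.congr fun b => ?_
    rw [hu2, ← inner_add_right, ← act_add, sub_add_cancel]
  | zero => simpa using IsL.const (0 : M.toStarSubalgebra)
  | add x y _ _ hx hy =>
    have := hx.add hy
    simpa only [← map_add, ← mul_add] using this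
  | smul c x _ hx =>
    have := hx.smul c
    simpa only [← map_smul, ← mul_smul_comm] using this

end B

open B in
/-- **Block B**: the averaging functional on any scale of completely bounded maps. -/
theorem rho_of_le_cb (M : VonNeumannAlgebra H) (E : Scale M)
    (hE : ∀ {K : ℝ} {T : En M}, E.mem K T → IsCB K T) : ∃ ρ : En M → Al M, IsRho E 1 1 ρ := by
  refine ⟨rhoB, ?_⟩
  refine ⟨zero_le_one, ?_, ?_, ?_, ?_, ?_, ?_⟩
  · intro K T hT
    rw [one_mul]
    exact (rhoB_isL (hE hT)).1
  · intro K K' T T' hT hT'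
    refine rhoB_eq ?_
    have h := (rhoB_isL (hE hT)).2.add (rhoB_isL (hE hT')).2
    have h1 : ∀ b : Col M, av b ((T + T' : En M) : M.toStarSubalgebra →ₗ[ℂ] M.toStarSubalgebra) 1
        = av b (T : M.toStarSubalgebra →ₗ[ℂ] M.toStarSubalgebra) 1
          + av b (T' : M.toStarSubalgebra →ₗ[ℂ] M.toStarSubalgebra) 1 := by
      intro b
      simp only [av_apply, ← Finset.sum_add_distrib, ← add_mul]
      rfl
    simpa only [h1] using h
  · intro c K T hT
    refine rhoB_eq ?_
    have h := (rhoB_isL (hE hT)).2.smul c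
    have h1 : ∀ b : Col M, av b ((c • T : En M) : M.toStarSubalgebra →ₗ[ℂ] M.toStarSubalgebra) 1
        = c • av b (T : M.toStarSubalgebra →ₗ[ℂ] M.toStarSubalgebra) 1 := by
      intro b
      simp only [av_apply, Finset.smul_sum, ← smul_mul_assoc]
      rfl
    simpa only [h1] using h
  · intro a K T hT
    refine rhoB_eq ?_
    have h := (rhoB_isL (hE hT)).2.mul_left a
    have h1 : ∀ b : Col M,
        av b ((Lm a ∘L T : En M) : M.toStarSubalgebra →ₗ[ℂ] M.toStarSubalgebra) 1
        = a * av b (T : M.toStarSubalgebra →ₗ[ℂ] M.toStarSubalgebra) 1 := by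
      intro b
      simp only [av_apply, Finset.mul_sum, ← mul_assoc]
      rfl
    simpa only [h1] using h
  · intro a K T hT
    refine rhoB_eq ?_
    have h := isL_apply (hE hT) a
    have h1 : ∀ b : Col M,
        av b ((T ∘L Lm a : En M) : M.toStarSubalgebra →ₗ[ℂ] M.toStarSubalgebra) 1
        = av b (T : M.toStarSubalgebra →ₗ[ℂ] M.toStarSubalgebra) a := by
      intro b
      simp only [av_apply, one_mul]
      rfl
    simpa only [h1] using h
  · intro d
    rw [mul_one]
    refine rhoB_eq ?_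
    have h1 : ∀ b : Col M,
        av b ((Lm d : En M) : M.toStarSubalgebra →ₗ[ℂ] M.toStarSubalgebra) 1 = d := by
      intro b
      have h2 : av b ((Lm d : En M) : M.toStarSubalgebra →ₗ[ℂ] M.toStarSubalgebra) 1
          = ∑ i, d * (star (b.c i) * b.c i) := by
        simp only [av_apply, one_mul, ← mul_assoc]
        rfl
      rw [h2, ← Finset.mul_sum, b.sum_eq, mul_one]
    simpa only [h1] using IsL.const d

/-- **(B)** the averaging functional on completely bounded maps. -/
theorem rho_cb (M : VonNeumannAlgebra H) : ∃ ρ : En M → Al M, IsRho (cbS M) 1 1 ρ :=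
  rho_of_le_cb M (cbS M) (fun h => h)

end

end Crest.Agent.R121
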