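/-
Row 121: the coboundary attached to an averaging functional `ρ` (block C1).
-/
import Crest.Agent.R121.Defs

set_option autoImplicit false
set_option linter.unusedSectionVars false

open scoped InnerProductSpace

namespace Crest.Agent.R121

open Crest.OpAlg


section args

variable {A : Type*} [Mul A]

theorem mergeArgs_snoc_castSucc {k : ℕ} (j : Fin k) (a : Fin (k + 1) → A) (x : A) :
    mergeArgs j.castSucc (Fin.snoc a x : Fin (k + 2) → A) = Fin.snoc (mergeArgs j a) x := by
  funext i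
  refine Fin.lastCases ?_ (fun i => ?_) i
  · have h1 : ¬ ((Fin.last k).val < j.castSucc.val) := by
      simp only [Fin.val_last, Fin.val_castSucc]; omega
    have h2 : ¬ ((Fin.last k).val = j.castSucc.val) := by
      simp only [Fin.val_last, Fin.val_castSucc]; omega
    simp only [mergeArgs, h1, h2, if_false, Fin.snoc_last, Fin.succ_last]
  · simp only [mergeArgs, Fin.val_castSucc, Fin.snoc_castSucc, Fin.succ_castSucc]

theorem mergeArgs_snoc_last {k : ℕ} (a : Fin (k + 1) → A) (x : A) :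
    mergeArgs (Fin.last k) (Fin.snoc a x : Fin (k + 2) → A)
      = Fin.snoc (fun i : Fin k => a i.castSucc) (a (Fin.last k) * x) := by
  funext i
  refine Fin.lastCases ?_ (fun i => ?_) i
  · simp only [mergeArgs, Fin.snoc_castSucc, Fin.snoc_last, Fin.succ_last, lt_irrefl, if_false,
      if_true]
  · have h1 : (i.castSucc).val < (Fin.last k).val := by
      simp only [Fin.val_last, Fin.val_castSucc]; omega
    simp only [mergeArgs, h1, if_true, Fin.snoc_castSucc]

theorem snoc_succ {k : ℕ} (a : Fin (k + 1) → A) (x : A) :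
    (fun i : Fin (k + 1) => (Fin.snoc a x : Fin (k + 2) → A) i.succ)
      = Fin.snoc (fun i : Fin k => a i.succ) x := by
  funext i
  refine Fin.lastCases ?_ (fun i => ?_) i
  · simp only [Fin.snoc_last, Fin.succ_last]
  · simp only [Fin.succ_castSucc, Fin.snoc_castSucc]

end args

section gen

variable (A : Type*) [NormedRing A] [NormedAlgebra ℂ A]

/-- general version of `Scale` -/
structure GScale where
  mem : ℝ → (A →L[ℂ] A) → Prop
  zero : mem 0 0
  add : ∀ {K K' T T'}, mem K T → mem K' T' → mem (K + K') (T + T')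
  smul : ∀ (c : ℂ) {K T}, mem K T → mem (‖c‖ * K) (c • T)
  lmul : ∀ (a : A) {K T}, mem K T → mem (‖a‖ * K) (ContinuousLinearMap.mul ℂ A a ∘L T)
  comp : ∀ (a : A) {K T}, mem K T → mem (K * ‖a‖) (T ∘L ContinuousLinearMap.mul ℂ A a)
  mul : ∀ d : A, mem ‖d‖ (ContinuousLinearMap.mul ℂ A d)

variable {A}

/-- general version of `IsRho` -/
structure GRho (E : GScale A) (z : A) (C : ℝ) (ρ : (A →L[ℂ] A) → A) : Prop where
  nonneg : 0 ≤ C
  bound : ∀ {K T}, E.mem K T → ‖ρ T‖ ≤ C * K
  add : ∀ {K K' T T'}, E.mem K T → E.mem K' T' → ρ (T + T') = ρ T + ρ T'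
  smul : ∀ (c : ℂ) {K T}, E.mem K T → ρ (c • T) = c • ρ T
  lmul : ∀ (a : A) {K T}, E.mem K T → ρ (ContinuousLinearMap.mul ℂ A a ∘L T) = a * ρ T
  comp : ∀ (a : A) {K T}, E.mem K T → ρ (T ∘L ContinuousLinearMap.mul ℂ A a) = ρ T * a
  mul : ∀ d : A, ρ (ContinuousLinearMap.mul ℂ A d) = d * z

variable {E : GScale A} {z : A} {C : ℝ} {ρ : (A →L[ℂ] A) → A}

theorem zpow_smul_eq (n : ℕ) (V : Type*) [AddCommGroup V] [Module ℂ V] (v : V) :
    ((-1 : ℤ) ^ n) • v = ((-1 : ℂ) ^ n) • v := by
  rcases Nat.even_or_odd n with h | h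
  · rw [h.neg_one_pow, h.neg_one_pow, one_smul, one_smul]
  · rw [h.neg_one_pow, h.neg_one_pow, neg_smul, neg_smul, one_smul, one_smul]

theorem GScale.neg_one_pow {K : ℝ} {T : A →L[ℂ] A} (h : E.mem K T) (n : ℕ) :
    E.mem K (((-1 : ℤ) ^ n) • T) := by
  have h2 := E.smul ((-1 : ℂ) ^ n) h
  rw [zpow_smul_eq]
  have h3 : ‖((-1 : ℂ) ^ n)‖ = 1 := by simp
  rwa [h3, one_mul] at h2

theorem GScale.sum {ι : Type*} (s : Finset ι) (K : ι → ℝ) (T : ι → A →L[ℂ] A)
    (h : ∀ i ∈ s, E.mem (K i) (T i)) : E.mem (∑ i ∈ s, K i) (∑ i ∈ s, T i) := by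
  classical
  induction s using Finset.induction_on with
  | empty => simpa using E.zero
  | insert a s ha ih =>
    rw [Finset.sum_insert ha, Finset.sum_insert ha]
    exact E.add (h a (Finset.mem_insert_self a s))
      (ih fun i hi => h i (Finset.mem_insert_of_mem hi))

theorem GRho.zero (hρ : GRho E z C ρ) : ρ 0 = 0 := by
  have h := hρ.smul 0 E.zero
  have e : (0 : ℂ) • (0 : A →L[ℂ] A) = 0 := by
    ext x
    change (0 : ℂ) • (0 : A) = 0
    rw [smul_zero]
  rw [e, zero_smul] at h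
  exact h

theorem GRho.sum (hρ : GRho E z C ρ) {ι : Type*} (s : Finset ι) (K : ι → ℝ)
    (T : ι → A →L[ℂ] A)
    (h : ∀ i ∈ s, E.mem (K i) (T i)) : ρ (∑ i ∈ s, T i) = ∑ i ∈ s, ρ (T i) := by
  classical
  induction s using Finset.induction_on with
  | empty => simpa using hρ.zero
  | insert a s ha ih =>
    have h' : ∀ i ∈ s, E.mem (K i) (T i) := fun i hi => h i (Finset.mem_insert_of_mem hi)
    rw [Finset.sum_insert ha, Finset.sum_insert ha,
      hρ.add (h a (Finset.mem_insert_self a s)) (GScale.sum s K T h'), ih h']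

theorem GRho.neg_one_pow (hρ : GRho E z C ρ) {K : ℝ} {T : A →L[ℂ] A} (h : E.mem K T) (n : ℕ) :
    ρ (((-1 : ℤ) ^ n) • T) = ((-1 : ℤ) ^ n) • ρ T := by
  rw [zpow_smul_eq, hρ.smul _ h, zpow_smul_eq]

theorem gen_cob_of_rho (hρ : GRho E z C ρ) {k : ℕ}
    (f : ContinuousMultilinearMap ℂ (fun _ : Fin (k + 1) => A) A)
    (hf : ∀ a, hochschildDiff f a = 0) {K : ℝ} (hK : 0 ≤ K)
    (hE : ∀ a : Fin k → A, E.mem (K * ∏ i, ‖a i‖) (f.curryRight a)) :
    ∃ g : ContinuousMultilinearMap ℂ (fun _ : Fin k => A) A, ‖g‖ ≤ C * K ∧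
      ∀ a : Fin (k + 1) → A, hochschildDiff g a = f a * z := by
  classical
  -- the multilinear map
  let g0 : MultilinearMap ℂ (fun _ : Fin k => A) (A) :=
    { toFun := fun a => ((-1 : ℤ) ^ (k + 1)) • ρ (f.curryRight a)
      map_update_add' := by
        intro inst m i x y
        have e : inst = instDecidableEqFin k := Subsingleton.elim _ _
        subst e
        rw [ContinuousMultilinearMap.map_update_add,
          hρ.add (hE (Function.update m i x)) (hE (Function.update m i y)), smul_add]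
      map_update_smul' := by
        intro inst m i c x
        have e : inst = instDecidableEqFin k := Subsingleton.elim _ _
        subst e
        rw [ContinuousMultilinearMap.map_update_smul, hρ.smul _ (hE (Function.update m i x)),
          smul_comm] }
  have hg0 : ∀ a, g0 a = ((-1 : ℤ) ^ (k + 1)) • ρ (f.curryRight a) := fun _ => rfl
  have hbd : ∀ a : Fin k → A, ‖g0 a‖ ≤ C * K * ∏ i, ‖a i‖ := by
    intro a
    rw [hg0, mul_assoc]
    have h1 : ‖((-1 : ℤ) ^ (k + 1)) • ρ (f.curryRight a)‖ = ‖ρ (f.curryRight a)‖ := by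
      rcases Nat.even_or_odd (k + 1) with h | h
      · simp [h.neg_one_pow]
      · simp [h.neg_one_pow]
    rw [h1]
    exact hρ.bound (hE a)
  refine ⟨g0.mkContinuous (C * K) hbd, ?_, ?_⟩
  · exact MultilinearMap.mkContinuous_norm_le _ (mul_nonneg hρ.nonneg hK) _
  · intro a
    -- the identity of operators
    have hop : ContinuousLinearMap.mul ℂ A (a 0) ∘L f.curryRight (fun i : Fin k => a i.succ)
        + ((∑ j : Fin k, ((-1 : ℤ) ^ (j.val + 1)) • f.curryRight (mergeArgs j a))
        + (((-1 : ℤ) ^ (k + 1)) •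
          (f.curryRight (fun i : Fin k => a i.castSucc) ∘L ContinuousLinearMap.mul ℂ A (a (Fin.last k)))
        + ((-1 : ℤ) ^ (k + 2)) • ContinuousLinearMap.mul ℂ A (f a))) = 0 := by
      ext1 x
      have h := hf (Fin.snoc a x)
      rw [hochschildDiff, Fin.sum_univ_castSucc] at h
      simp only [snoc_succ, mergeArgs_snoc_castSucc, mergeArgs_snoc_last, Fin.snoc_castSucc,
        Fin.snoc_last, Fin.val_castSucc, Fin.val_last] at h
      have h0 : (Fin.snoc a x : Fin (k + 2) → A) 0 = a 0 := by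
        simp
      rw [h0] at h
      simp only [add_apply, ContinuousLinearMap.comp_apply, sum_apply, ContinuousLinearMap.mul_apply', smul_apply,
        ContinuousMultilinearMap.curryRight_apply, zero_apply]
      rw [← h]
      abel
    -- apply `ρ`
    have m1' := hE (fun i : Fin k => a i.succ)
    have m1 := E.lmul (a 0) m1'
    have m2' : ∀ j ∈ (Finset.univ : Finset (Fin k)), E.mem (K * ∏ i, ‖mergeArgs j a i‖)
        (((-1 : ℤ) ^ (j.val + 1)) • f.curryRight (mergeArgs j a)) := fun j _ =>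
      GScale.neg_one_pow (hE (mergeArgs j a)) _
    have m2 := GScale.sum _ _ _ m2'
    have m3'' := hE (fun i : Fin k => a i.castSucc)
    have m3' := E.comp (a (Fin.last k)) m3''
    have m3 := GScale.neg_one_pow m3' (k + 1)
    have m4' := E.mul (f a)
    have m4 := GScale.neg_one_pow m4' (k + 2)
    have hρop := congrArg ρ hop
    rw [hρ.zero, hρ.add m1 (E.add m2 (E.add m3 m4)), hρ.add m2 (E.add m3 m4), hρ.add m3 m4,
      hρ.sum _ _ _ m2', hρ.neg_one_pow m3', hρ.neg_one_pow m4', hρ.lmul _ m1',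
      hρ.comp _ m3'', hρ.mul] at hρop
    have hs : ∀ j : Fin k, ρ (((-1 : ℤ) ^ (j.val + 1)) • f.curryRight (mergeArgs j a))
        = ((-1 : ℤ) ^ (j.val + 1)) • ρ (f.curryRight (mergeArgs j a)) := fun j =>
      hρ.neg_one_pow (hE (mergeArgs j a)) _
    simp only [hs] at hρop
    rw [hochschildDiff]
    simp only [MultilinearMap.coe_mkContinuous, hg0]
    -- final bookkeeping
    have e1 : ((-1 : ℤ) ^ (k + 1)) * ((-1 : ℤ) ^ (k + 1)) = 1 := by
      rw [← mul_pow]; simp
    have key := congrArg (fun v => ((-1 : ℤ) ^ (k + 1)) • v) hρop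
    simp only [smul_add, smul_zero, Finset.smul_sum, smul_smul] at key
    have e2 : ((-1 : ℤ) ^ (k + 1)) * ((-1 : ℤ) ^ (k + 2)) = -1 := by
      rw [pow_succ (-1 : ℤ) (k + 1), ← mul_assoc, e1]; norm_num
    rw [e1, e2] at key
    simp only [one_smul, neg_smul] at key
    have t1 : a 0 * ((-1 : ℤ) ^ (k + 1)) • ρ (f.curryRight fun i => a i.succ)
        = ((-1 : ℤ) ^ (k + 1)) • (a 0 * ρ (f.curryRight fun i => a i.succ)) := mul_smul_comm _ _ _
    have t2 : ((-1 : ℤ) ^ (k + 1)) •
        (((-1 : ℤ) ^ (k + 1)) • ρ (f.curryRight fun i => a i.castSucc) * a (Fin.last k))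
        = ρ (f.curryRight fun i => a i.castSucc) * a (Fin.last k) := by
      rw [smul_mul_assoc, smul_smul, e1, one_smul]
    have t3 : ∀ j : Fin k, ((-1 : ℤ) ^ (j.val + 1)) •
        ((-1 : ℤ) ^ (k + 1)) • ρ (f.curryRight (mergeArgs j a))
        = (((-1 : ℤ) ^ (k + 1)) * ((-1 : ℤ) ^ (j.val + 1))) •
          ρ (f.curryRight (mergeArgs j a)) := fun j => by rw [smul_smul, mul_comm]
    rw [t1, t2]
    simp only [t3]
    rw [← sub_eq_zero, ← key]
    abel


end gen

variable {H : Type*} [NormedAddCommGroup H] [InnerProductSpace ℂ H] [CompleteSpace H]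
variable {M : VonNeumannAlgebra H}

/-- the general scale attached to a scale -/
def Scale.gen (E : Scale M) : GScale (Al M) where
  mem K T := E.mem K T
  zero := E.zero
  add := E.add
  smul c _ _ h := E.smul c h
  lmul a _ _ h := E.lmul a h
  comp a _ _ h := E.comp a h
  mul d := E.mul d

theorem IsRho.gen {E : Scale M} {z : Al M} {C : ℝ} {ρ : En M → Al M} (h : IsRho E z C ρ) :
    GRho E.gen z C ρ where
  nonneg := h.nonneg
  bound := h.bound
  add := h.add
  smul c _ _ h' := h.smul c h'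
  lmul a _ _ h' := h.lmul a h'
  comp a _ _ h' := h.comp a h'
  mul d := h.mul d

/-- **C1** -/
theorem cob_of_rho {E : Scale M} {z : Al M} (_hz : ∀ x, z * x = x * z) {C : ℝ}
    {ρ : En M → Al M} (hρ : IsRho E z C ρ) {k : ℕ} (f : Coch M (k + 1)) (hf : IsCocycle f) {K : ℝ} (hK : 0 ≤ K)
    (hE : ∀ a : Fin k → Al M, E.mem (K * ∏ i, ‖a i‖) (f.curryRight a)) :
    ∃ g : Coch M k, ‖g‖ ≤ C * K ∧
      ∀ a : Fin (k + 1) → Al M, Crest.OpAlg.hochschildDiff g a = f a * z :=
  gen_cob_of_rho hρ.gen f hf hK hE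

/-- special case `E = bdS M`: `z` is good with constant `C` -/
theorem good_of_rho {z : Al M} (hz : ∀ x, z * x = x * z) {C : ℝ} {ρ : En M → Al M}
    (hρ : IsRho (bdS M) z C ρ) (k : ℕ) : Good M k C z := by
  intro f hf
  refine cob_of_rho hz hρ f hf (norm_nonneg f) fun a => ?_
  change ‖f.curryRight a‖ ≤ ‖f‖ * ∏ i, ‖a i‖
  have := f.curryRight.le_opNorm a
  rwa [ContinuousMultilinearMap.curryRight_norm] at this

end Crest.Agent.R121
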