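import Mathlib
import Crest.Agent.R124.VNSplit

/-!
# Row 121: the corner lemma (Lemma P)

A bounded right `eMe`-module map `Me → Me` is left multiplication by a unique element of
`M c(e)`.
-/

set_option autoImplicit false
set_option linter.unusedSectionVars false

namespace Crest.Agent.R121

open scoped InnerProductSpace
open ContinuousLinearMap Crest.Agent.R124

noncomputable section

lemma re_mul_ofReal (a b : ℝ) :
    RCLike.re ((Complex.ofReal a) * (RCLike.ofReal b : ℂ)) = a * b := by
  change RCLike.re ((Complex.ofReal a) * (Complex.ofReal b)) = a * b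
  rw [← Complex.ofReal_mul]; exact Complex.ofReal_re _

section Factor

variable {H : Type*} [NormedAddCommGroup H] [InnerProductSpace ℂ H] [CompleteSpace H]
variable {V : Type*} [AddCommGroup V] [Module ℂ V]

theorem exists_factor (α β : V →ₗ[ℂ] H) {C : ℝ} (hC : 0 ≤ C)
    (h : ∀ v, ‖β v‖ ≤ C * ‖α v‖) :
    ∃ B : H →L[ℂ] H, (∀ v, B (α v) = β v) ∧ ‖B‖ ≤ C ∧ ∀ z, (∀ v, ⟪α v, z⟫_ℂ = 0) → B z = 0 := by
  set S : Submodule ℂ H := (LinearMap.range α).topologicalClosure with hS
  have : CompleteSpace S := (Submodule.isClosed_topologicalClosure _).completeSpace_coe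
  let α' : V →ₗ[ℂ] S := α.codRestrict S
    (fun v => Submodule.le_topologicalClosure _ (LinearMap.mem_range_self α v))
  have hα' : ∀ v, ((α' v : S) : H) = α v := fun v => rfl
  have hd : DenseRange α' := by
    intro z
    rw [Metric.mem_closure_iff]
    intro ε hε
    have hz : (z : H) ∈ closure ((LinearMap.range α : Submodule ℂ H) : Set H) := z.2
    obtain ⟨w, ⟨v, rfl⟩, hw⟩ := Metric.mem_closure_iff.1 hz ε hε
    exact ⟨α' v, ⟨v, rfl⟩, hw⟩
  have hn : ∀ v, ‖β v‖ ≤ C * ‖α' v‖ := h
  set B0 : S →L[ℂ] H := β.extendOfNorm α' with hB0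
  refine ⟨B0 ∘L S.orthogonalProjectionOnto, ?_, ?_, ?_⟩
  · intro v
    have h1 : S.orthogonalProjectionOnto (α v) = α' v := by
      have : (α v) = ((α' v : S) : H) := rfl
      rw [this, Submodule.orthogonalProjectionOnto_mem_subspace_eq_self]
    rw [comp_apply, h1]
    exact LinearMap.extendOfNorm_eq hd ⟨C, hn⟩ v
  · refine opNorm_le_bound _ hC fun z => ?_
    rw [comp_apply]
    refine (LinearMap.norm_extendOfNorm_apply_le hd C hn _).trans ?_
    gcongr
    exact S.norm_orthogonalProjectionOnto_apply_le z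
  · intro z hz
    have h1 : S.orthogonalProjectionOnto z = 0 := by
      rw [Submodule.orthogonalProjectionOnto_eq_zero_iff]
      rw [hS, Submodule.mem_orthogonal]
      intro u hu
      have hcl : IsClosed {u : H | ⟪u, z⟫_ℂ = 0} :=
        isClosed_eq (by fun_prop) continuous_const
      refine closure_minimal (s := ((LinearMap.range α : Submodule ℂ H) : Set H)) ?_ hcl hu
      rintro _ ⟨v, rfl⟩
      exact hz v
    rw [comp_apply, h1, map_zero]

end Factor

section Amp

variable {H : Type*} [NormedAddCommGroup H] [InnerProductSpace ℂ H] [CompleteSpace H]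
variable {ι : Type*} [Fintype ι] [DecidableEq ι]

/-- Hilbert sum -/
abbrev EE (ι : Type*) [Fintype ι] (H : Type*) [NormedAddCommGroup H] := PiLp 2 (fun _ : ι => H)

/-- diagonal amplification -/
def dg (ι : Type*) [Fintype ι] (s : H →L[ℂ] H) : EE ι H →L[ℂ] EE ι H :=
  ((PiLp.continuousLinearEquiv 2 ℂ (fun _ : ι => H)).symm : (ι → H) →L[ℂ] EE ι H) ∘L
    ContinuousLinearMap.pi (fun j => s ∘L (PiLp.proj 2 (fun _ : ι => H) j))

@[simp]
lemma dg_apply (s : H →L[ℂ] H) (v : EE ι H) (j : ι) : (dg ι s v).ofLp j = s (v.ofLp j) := rfl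

/-- inclusion of a coordinate -/
def inc (j : ι) : H →L[ℂ] EE ι H :=
  ((PiLp.continuousLinearEquiv 2 ℂ (fun _ : ι => H)).symm : (ι → H) →L[ℂ] EE ι H) ∘L
    ContinuousLinearMap.single ℂ (fun _ : ι => H) j

lemma inc_apply (j : ι) (v : H) (i : ι) :
    (inc j v : EE ι H).ofLp i = (Pi.single j v : ι → H) i := rfl

lemma dg_inc (s : H →L[ℂ] H) (j : ι) (v : H) : dg ι s (inc j v) = inc j (s v) := by
  ext i
  simp only [dg_apply, inc_apply]
  by_cases h : i = j
  · subst h; simp
  · simp [Pi.single_eq_of_ne h]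

lemma sum_inc (v : EE ι H) : ∑ j, inc j (v.ofLp j) = v := by
  ext i
  rw [WithLp.ofLp_sum, Finset.sum_apply]
  simp only [inc_apply]
  rw [Finset.sum_eq_single i]
  · simp
  · intro j _ hj
    simp [Pi.single_eq_of_ne hj.symm]
  · simp

lemma dg_mul (s t : H →L[ℂ] H) : dg ι (s * t) = dg ι s * dg ι t := by
  ext v j; rfl

lemma star_dg (s : H →L[ℂ] H) : star (dg ι s) = dg ι (star s) := by
  rw [star_eq_adjoint]
  symm
  rw [eq_adjoint_iff]
  intro x y
  simp only [PiLp.inner_apply, dg_apply]
  refine Finset.sum_congr rfl fun j _ => ?_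
  rw [star_eq_adjoint, adjoint_inner_left]

/-- row operator -/
def rowOp (x : ι → H →L[ℂ] H) : EE ι H →L[ℂ] H :=
  ∑ j, x j ∘L (PiLp.proj 2 (fun _ : ι => H) j)

lemma rowOp_apply (x : ι → H →L[ℂ] H) (v : EE ι H) : rowOp x v = ∑ j, x j (v.ofLp j) := by
  simp [rowOp]

lemma rowOp_dg (x : ι → H →L[ℂ] H) (s : H →L[ℂ] H) (v : EE ι H) :
    rowOp x (dg ι s v) = rowOp (fun j => x j * s) v := by
  simp [rowOp_apply]

/-- The algebraic heart: `K = C² X* X - Y* Y` is positive as soon as it is positive on all the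
vectors `S (inc k (e ζ))`, `S = √(K₋)`. -/
theorem row_pos {C : ℝ} (X Y : EE ι H →L[ℂ] H) (e : H →L[ℂ] H)
    (hXe : ∀ v, X (dg ι e v) = X v) (hYe : ∀ v, Y (dg ι e v) = Y v)
    (key : ∀ S : EE ι H →L[ℂ] EE ι H, star S = S →
      (∀ T : H →L[ℂ] H, (∀ v, X (dg ι T v) = T (X v)) → (∀ v, X (dg ι (star T) v) = star T (X v)) →
        (∀ v, Y (dg ι T v) = T (Y v)) → (∀ v, Y (dg ι (star T) v) = star T (Y v)) →
        ∀ v, S (dg ι T v) = dg ι T (S v)) →
      ∀ (k : ι) (ζ : H), ‖Y (S (inc k (e ζ)))‖ ≤ C * ‖X (S (inc k (e ζ)))‖) (hC : 0 ≤ C)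
    (v : EE ι H) : ‖Y v‖ ≤ C * ‖X v‖ := by
  set K : EE ι H →L[ℂ] EE ι H := ((C ^ 2 : ℝ) : ℂ) • (adjoint X ∘L X) - adjoint Y ∘L Y with hK
  have hKsa : IsSelfAdjoint K := by
    rw [IsSelfAdjoint, hK, star_eq_adjoint, map_sub, map_smulₛₗ, adjoint_comp, adjoint_adjoint,
      adjoint_comp, adjoint_adjoint]
    simp
  have hKin : ∀ v, RCLike.re ⟪K v, v⟫_ℂ = C ^ 2 * ‖X v‖ ^ 2 - ‖Y v‖ ^ 2 := by
    intro v
    rw [hK, sub_apply, inner_sub_left, smul_apply, inner_smul_left, comp_apply, comp_apply,
      adjoint_inner_left, adjoint_inner_left, map_sub, inner_self_eq_norm_sq_to_K,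
      inner_self_eq_norm_sq_to_K, Complex.conj_ofReal]
    norm_cast
    rw [re_mul_ofReal]
  set f : ℝ → ℝ := fun t => Real.sqrt (max (-t) 0) with hf
  set g : ℝ → ℝ := fun t => Real.sqrt (max t 0) with hg
  have hfc : Continuous f := by fun_prop
  have hgc : Continuous g := by fun_prop
  set S := cfc f K with hS
  set Q := cfc g K with hQ
  have hSs : star S = S := (cfc_predicate (R := ℝ) (p := IsSelfAdjoint) f K).star_eq
  have hQs : star Q = Q := (cfc_predicate (R := ℝ) (p := IsSelfAdjoint) g K).star_eq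
  have hQS : Q * S = 0 := by
    rw [hQ, hS, ← cfc_mul g f K hgc.continuousOn hfc.continuousOn]
    rw [← cfc_zero ℝ K]
    congr 1
    funext t
    simp only [hf, hg, Pi.zero_apply]
    rcases le_total t 0 with h | h
    · rw [max_eq_right h]; simp
    · rw [max_eq_right (by linarith : -t ≤ 0)]; simp
  have hKdec : K = Q * Q - S * S := by
    rw [hQ, hS, ← cfc_mul g g K hgc.continuousOn hgc.continuousOn,
      ← cfc_mul f f K hfc.continuousOn hfc.continuousOn,
      ← cfc_sub _ _ K (by fun_prop) (by fun_prop)]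
    conv_lhs => rw [← cfc_id' ℝ K]
    congr 1
    funext t
    simp only [hf, hg]
    rw [Real.mul_self_sqrt (le_max_right _ _), Real.mul_self_sqrt (le_max_right _ _)]
    rcases le_total t 0 with h | h
    · rw [max_eq_right h, max_eq_left (by linarith : 0 ≤ -t)]; ring
    · rw [max_eq_left h, max_eq_right (by linarith : -t ≤ 0)]; ring
  have hin : ∀ A : EE ι H →L[ℂ] EE ι H, star A = A → ∀ v, RCLike.re ⟪(A * A) v, v⟫_ℂ = ‖A v‖ ^ 2 := by
    intro A hA v
    have : (A * A) v = adjoint A (A v) := by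
      rw [← star_eq_adjoint, hA]; rfl
    rw [this, adjoint_inner_left, inner_self_eq_norm_sq]
  have hKv : ∀ v, RCLike.re ⟪K v, v⟫_ℂ = ‖Q v‖ ^ 2 - ‖S v‖ ^ 2 := by
    intro v
    rw [hKdec, sub_apply, inner_sub_left, map_sub, hin Q hQs, hin S hSs]
  have hcomm : ∀ T : H →L[ℂ] H, (∀ v, X (dg ι T v) = T (X v)) →
      (∀ v, X (dg ι (star T) v) = star T (X v)) →
      (∀ v, Y (dg ι T v) = T (Y v)) → (∀ v, Y (dg ι (star T) v) = star T (Y v)) →
      ∀ v, S (dg ι T v) = dg ι T (S v) := by
    intro T h1 h2 h3 h4 v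
    have gen : ∀ Z : EE ι H →L[ℂ] H, (∀ v, Z (dg ι T v) = T (Z v)) →
        (∀ v, Z (dg ι (star T) v) = star T (Z v)) →
        (adjoint Z ∘L Z) ∘L dg ι T = dg ι T ∘L (adjoint Z ∘L Z) := by
      intro Z hz1 hz2
      have e1 : Z ∘L dg ι T = T ∘L Z := by ext v; exact hz1 v
      have e2 : Z ∘L dg ι (star T) = star T ∘L Z := by ext v; exact hz2 v
      have e3 : dg ι T ∘L adjoint Z = adjoint Z ∘L T := by
        have := congrArg adjoint e2
        rw [adjoint_comp, adjoint_comp, ← star_eq_adjoint (A := dg ι (star T)), star_dg, star_star,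
          ← star_eq_adjoint (A := star T), star_star] at this
        exact this
      rw [comp_assoc, e1, ← comp_assoc, ← e3, comp_assoc]
    have hc : Commute K (dg ι T) := by
      change K * dg ι T = dg ι T * K
      have a1 := gen X h1 h2
      have a2 := gen Y h3 h4
      rw [hK, sub_mul, mul_sub, smul_mul_assoc, mul_smul_comm]
      congr 1
      · congr 1
    have := (hc.cfc_real f).eq
    exact congrArg (fun A : EE ι H →L[ℂ] EE ι H => A v) this
  have hSz : ∀ (k : ι) (ζ : H), S (inc k (e ζ)) = 0 := by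
    intro k ζ
    have h1 := key S hSs hcomm k ζ
    set w : EE ι H := inc k (e ζ)
    have h2 := hKin (S w)
    rw [hKv (S w)] at h2
    have h3 : Q (S w) = 0 := congrArg (fun A : EE ι H →L[ℂ] EE ι H => A w) hQS
    rw [h3, norm_zero] at h2
    have h4 : ‖Y (S w)‖ ^ 2 ≤ C ^ 2 * ‖X (S w)‖ ^ 2 := by
      rw [← mul_pow]; gcongr
    have h5 : S (S w) = 0 := by
      rw [← norm_eq_zero]
      have : ‖S (S w)‖ ^ 2 ≤ 0 := by linarith
      exact pow_eq_zero_iff (two_ne_zero) |>.1 (le_antisymm this (sq_nonneg _))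
    have h6 := hin S hSs w
    have h7 : (S * S) w = 0 := h5
    rw [h7, inner_zero_left, map_zero] at h6
    rw [← norm_eq_zero]
    exact pow_eq_zero_iff (two_ne_zero) |>.1 h6.symm
  have hSe : ∀ v, S (dg ι e v) = 0 := by
    intro v
    rw [← sum_inc (dg ι e v), map_sum]
    exact Finset.sum_eq_zero fun k _ => hSz k _
  have h1 := hKin (dg ι e v)
  rw [hKv, hXe, hYe, hSe, norm_zero] at h1
  have h2 : ‖Y v‖ ^ 2 ≤ (C * ‖X v‖) ^ 2 := by
    rw [mul_pow]
    nlinarith [sq_nonneg ‖Q (dg ι e v)‖]
  exact le_of_sq_le_sq h2 (by positivity)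

end Amp

section Main

variable {H : Type*} [NormedAddCommGroup H] [InnerProductSpace ℂ H] [CompleteSpace H]

/-- The hypotheses of the corner lemma. -/
structure CornerMap (M : VonNeumannAlgebra H) (e : H →L[ℂ] H) (C : ℝ)
    (R : (H →L[ℂ] H) → (H →L[ℂ] H)) : Prop where
  proj : IsStarProjection e
  mem : e ∈ M
  nonneg : 0 ≤ C
  add : ∀ x ∈ M, ∀ y ∈ M, x * e = x → y * e = y → R (x + y) = R x + R y
  mapM : ∀ x ∈ M, x * e = x → R x ∈ M
  mod : ∀ x ∈ M, x * e = x → ∀ a ∈ M, e * a * e = a → R (x * a) = R x * a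
  bd : ∀ x ∈ M, x * e = x → ‖R x‖ ≤ C * ‖x‖

variable {M : VonNeumannAlgebra H} {e : H →L[ℂ] H} {C : ℝ} {R : (H →L[ℂ] H) → (H →L[ℂ] H)}

lemma CornerMap.right (h : CornerMap M e C R) {x : H →L[ℂ] H} (hx : x ∈ M) (hxe : x * e = x) :
    R x * e = R x := by
  have hee : e * e = e := h.proj.isIdempotentElem
  have := h.mod x hx hxe e h.mem (by rw [hee, hee])
  rw [hxe] at this
  exact this.symm

/-- Paschke's inequality. -/
theorem CornerMap.paschke (h : CornerMap M e C R) {x : H →L[ℂ] H} (hx : x ∈ M) (hxe : x * e = x)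
    (ξ : H) : ‖R x ξ‖ ≤ C * ‖x ξ‖ := by
  have hee : e * e = e := h.proj.isIdempotentElem
  have hes : star e = e := h.proj.isSelfAdjoint
  have hC := h.nonneg
  have main : ∀ δ : ℝ, 0 < δ → ‖R x ξ‖ ^ 2 ≤ C ^ 2 * (‖x ξ‖ ^ 2 + δ * ‖ξ‖ ^ 2) := by
    intro δ hδ
    set u : H →L[ℂ] H := star x * x with hu
    have husa : IsSelfAdjoint u := IsSelfAdjoint.star_mul_self x
    have huM : u ∈ M := mul_mem (star_mem hx) hx
    have hu0 : 0 ≤ u := star_mul_self_nonneg x
    have hspec : ∀ t ∈ spectrum ℝ u, 0 ≤ t := fun t ht => spectrum_nonneg_of_nonneg hu0 ht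
    set W := cfc (fun t : ℝ => (Real.sqrt (δ + t))⁻¹) u with hW
    set k := cfc (fun t : ℝ => Real.sqrt (δ + t)) u with hk
    have hWc : ContinuousOn (fun t : ℝ => (Real.sqrt (δ + t))⁻¹) (spectrum ℝ u) := by
      refine ContinuousOn.inv₀ (by fun_prop) (fun t ht => ?_)
      have := hspec t ht
      positivity
    have hkc : ContinuousOn (fun t : ℝ => Real.sqrt (δ + t)) (spectrum ℝ u) := by fun_prop
    have hWM : W ∈ M := cfc_mem M huM _
    have hWk : W * k = 1 := by
      rw [hW, hk, ← cfc_mul _ _ u hWc hkc, ← cfc_one ℝ u]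
      refine cfc_congr fun t ht => ?_
      have := hspec t ht
      simp only [Pi.one_apply]
      exact inv_mul_cancel₀ (by positivity)
    have hkW : k * W = 1 := by
      rw [hW, hk, ← cfc_mul _ _ u hkc hWc, ← cfc_one ℝ u]
      refine cfc_congr fun t ht => ?_
      have := hspec t ht
      simp only [Pi.one_apply]
      exact mul_inv_cancel₀ (by positivity)
    have hks : star k = k := (cfc_predicate (R := ℝ) (p := IsSelfAdjoint) _ u).star_eq
    have hkk : k * k = (δ : ℂ) • (1 : H →L[ℂ] H) + u := by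
      rw [hk, ← cfc_mul _ _ u hkc hkc]
      have : cfc (fun t : ℝ => Real.sqrt (δ + t) * Real.sqrt (δ + t)) u
          = cfc (fun t : ℝ => δ + t) u := by
        refine cfc_congr fun t ht => ?_
        have := hspec t ht
        exact Real.mul_self_sqrt (by positivity)
      rw [this, cfc_const_add (R := ℝ) δ (fun t : ℝ => t) u, cfc_id' ℝ u]
      congr 1
    have hknorm : ∀ z : H, ‖k z‖ ^ 2 = ‖x z‖ ^ 2 + δ * ‖z‖ ^ 2 := by
      intro z
      have e1 : ‖k z‖ ^ 2 = RCLike.re ⟪(k * k) z, z⟫_ℂ := by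
        have : (k * k) z = adjoint k (k z) := by rw [← star_eq_adjoint, hks]; rfl
        rw [this, adjoint_inner_left, inner_self_eq_norm_sq]
      have e2 : u z = adjoint x (x z) := rfl
      rw [e1, hkk, add_apply, inner_add_left, map_add, e2, adjoint_inner_left,
        inner_self_eq_norm_sq, smul_apply, inner_smul_left, one_apply_eq_self,
        Complex.conj_ofReal,
        inner_self_eq_norm_sq_to_K]
      norm_cast
      rw [re_mul_ofReal]
      ring
    have hec : Commute u e := by
      change u * e = e * u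
      rw [hu, mul_assoc, hxe]
      have : e * star x = star x := by
        have := congrArg star hxe
        rwa [star_mul, hes] at this
      rw [← mul_assoc, this]
    have hWe : W * e = e * W := (hec.cfc_real _).eq
    set a := e * W * e with ha
    have haM : a ∈ M := mul_mem (mul_mem h.mem hWM) h.mem
    have haa : e * a * e = a := by
      rw [ha]
      calc e * (e * W * e) * e = (e * e) * W * (e * e) := by noncomm_ring
        _ = _ := by rw [hee]
    have hxa : x * a = x * W := by
      rw [ha]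
      calc x * (e * W * e) = x * e * (W * e) := by noncomm_ring
        _ = x * e * (e * W) := by rw [hWe]
        _ = x * (e * e) * W := by noncomm_ring
        _ = x * e * W := by rw [hee]
        _ = x * W := by rw [hxe]
    have hRa : R x * a = R x * W := by
      have hr := h.right hx hxe
      rw [ha]
      calc R x * (e * W * e) = R x * e * (W * e) := by noncomm_ring
        _ = R x * e * (e * W) := by rw [hWe]
        _ = R x * (e * e) * W := by noncomm_ring
        _ = R x * e * W := by rw [hee]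
        _ = R x * W := by rw [hr]
    have hmod := h.mod x hx hxe a haM haa
    have hxan : x * a * e = x * a := by
      rw [ha]
      calc x * (e * W * e) * e = x * (e * W * (e * e)) := by noncomm_ring
        _ = _ := by rw [hee]
    have hb := h.bd (x * a) (mul_mem hx haM) hxan
    rw [hmod, hRa, hxa] at hb
    have hxW : ‖x * W‖ ≤ 1 := by
      refine opNorm_le_bound _ zero_le_one fun z => ?_
      rw [one_mul]
      have e1 := hknorm (W z)
      have e2 : k (W z) = z := congrArg (fun A : H →L[ℂ] H => A z) hkW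
      rw [e2] at e1
      refine le_of_sq_le_sq ?_ (norm_nonneg _)
      rw [e1]
      have : 0 ≤ δ * ‖W z‖ ^ 2 := by positivity
      change ‖x (W z)‖ ^ 2 ≤ _
      linarith
    have hRW : ‖R x * W‖ ≤ C := hb.trans (by nlinarith)
    have e3 : R x ξ = (R x * W) (k ξ) := by
      have : W (k ξ) = ξ := congrArg (fun A : H →L[ℂ] H => A ξ) hWk
      change _ = R x (W (k ξ))
      rw [this]
    rw [e3, ← hknorm ξ, ← mul_pow]
    have := (R x * W).le_opNorm (k ξ)
    have h2 : ‖R x * W‖ * ‖k ξ‖ ≤ C * ‖k ξ‖ := by gcongr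
    gcongr
    exact this.trans h2
  have h2 : ‖R x ξ‖ ^ 2 ≤ C ^ 2 * ‖x ξ‖ ^ 2 := by
    have hlim : Filter.Tendsto (fun δ : ℝ => C ^ 2 * (‖x ξ‖ ^ 2 + δ * ‖ξ‖ ^ 2))
        (nhdsWithin 0 (Set.Ioi 0)) (nhds (C ^ 2 * (‖x ξ‖ ^ 2 + 0 * ‖ξ‖ ^ 2))) := by
      apply Filter.Tendsto.mono_left _ nhdsWithin_le_nhds
      exact Continuous.tendsto (by fun_prop) 0
    rw [zero_mul, add_zero] at hlim
    exact ge_of_tendsto hlim (Filter.eventually_of_mem self_mem_nhdsWithin fun δ hδ => main δ hδ)
  rw [← mul_pow] at h2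
  exact le_of_sq_le_sq h2 (by positivity)

lemma CornerMap.zero (h : CornerMap M e C R) : R 0 = 0 := by
  have h1 := h.add 0 (zero_mem _) 0 (zero_mem _) (zero_mul _) (zero_mul _)
  rw [add_zero] at h1
  exact left_eq_add.1 h1

lemma CornerMap.sum (h : CornerMap M e C R) {ι : Type*} (s : Finset ι) (x : ι → H →L[ℂ] H)
    (hx : ∀ i ∈ s, x i ∈ M) (hxe : ∀ i ∈ s, x i * e = x i) :
    R (∑ i ∈ s, x i) = ∑ i ∈ s, R (x i) := by
  classical
  induction s using Finset.induction_on with
  | empty => simpa using h.zero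
  | insert i s hi ih =>
    rw [Finset.sum_insert hi, Finset.sum_insert hi, h.add, ih]
    · exact fun j hj => hx j (Finset.mem_insert_of_mem hj)
    · exact fun j hj => hxe j (Finset.mem_insert_of_mem hj)
    · exact hx i (Finset.mem_insert_self _ _)
    · exact sum_mem fun j hj => hx j (Finset.mem_insert_of_mem hj)
    · exact hxe i (Finset.mem_insert_self _ _)
    · rw [Finset.sum_mul]
      exact Finset.sum_congr rfl fun j hj => hxe j (Finset.mem_insert_of_mem hj)

/-- the row inequality -/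
theorem CornerMap.row (h : CornerMap M e C R) {ι : Type*} [Fintype ι] (x : ι → H →L[ℂ] H)
    (hx : ∀ i, x i ∈ M) (hxe : ∀ i, x i * e = x i) (v : ι → H) :
    ‖∑ i, R (x i) (v i)‖ ≤ C * ‖∑ i, x i (v i)‖ := by
  classical
  have hee : e * e = e := h.proj.isIdempotentElem
  have hr : ∀ i, R (x i) * e = R (x i) := fun i => h.right (hx i) (hxe i)
  have key := row_pos (C := C) (rowOp x) (rowOp fun i => R (x i)) e
    (by intro v; rw [rowOp_dg]; simp_rw [hxe])
    (by intro v; rw [rowOp_dg]; simp_rw [hr])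
    (by
      intro S hS hcomm k ζ
      set a : ι → H →L[ℂ] H := fun i =>
        e ∘L (PiLp.proj 2 (fun _ : ι => H) i) ∘L S ∘L (inc k : H →L[ℂ] EE ι H) ∘L e with ha
      have haM : ∀ i, a i ∈ M := by
        intro i
        apply mem_of_commutant
        intro T hT
        have hTc : ∀ y ∈ M, T * y = y * T := fun y hy => commutant_comm M hy hT
        have hTs : ∀ y ∈ M, star T * y = y * star T := by
          intro y hy
          have h1 := hTc (star y) (star_mem hy)
          have h2 := congrArg star h1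
          rw [star_mul, star_mul, star_star] at h2
          exact h2.symm
        have rc : ∀ (y : ι → H →L[ℂ] H) (T' : H →L[ℂ] H), (∀ i, T' * y i = y i * T') →
            ∀ v, rowOp y (dg ι T' v) = T' (rowOp y v) := by
          intro y T' hy v
          rw [rowOp_apply, rowOp_apply, map_sum]
          refine Finset.sum_congr rfl fun j _ => ?_
          rw [dg_apply]
          exact (congrArg (fun A : H →L[ℂ] H => A (v.ofLp j)) (hy j)).symm
        have hc := hcomm T (rc _ _ fun j => hTc _ (hx j)) (rc _ _ fun j => hTs _ (hx j))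
          (rc _ _ fun j => hTc _ (h.mapM _ (hx j) (hxe j)))
          (rc _ _ fun j => hTs _ (h.mapM _ (hx j) (hxe j)))
        have hTe := hTc e h.mem
        ext z
        have hTez : ∀ z, T (e z) = e (T z) := fun z =>
          congrArg (fun A : H →L[ℂ] H => A z) hTe
        change T (e ((S (inc k (e z))).ofLp i)) = e ((S (inc k (e (T z)))).ofLp i)
        rw [hTez, ← hTez z, ← dg_inc T, hc]
        rfl
      have hae : ∀ i, e * a i * e = a i := by
        intro i
        ext z
        have hez : ∀ z, e (e z) = e z := fun z => congrArg (fun A : H →L[ℂ] H => A z) hee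
        change e (e ((S (inc k (e (e z)))).ofLp i)) = e ((S (inc k (e z))).ofLp i)
        rw [hez, hez]
      have e1 : (rowOp x) (S (inc k (e ζ))) = (∑ i, x i * a i) ζ := by
        rw [rowOp_apply, _root_.sum_apply]
        refine Finset.sum_congr rfl fun i _ => ?_
        change _ = x i (e ((S (inc k (e ζ))).ofLp i))
        exact (congrArg (fun A : H →L[ℂ] H => A ((S (inc k (e ζ))).ofLp i)) (hxe i)).symm
      have e2 : (rowOp fun i => R (x i)) (S (inc k (e ζ))) = (R (∑ i, x i * a i)) ζ := by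
        rw [h.sum _ _ (fun i _ => mul_mem (hx i) (haM i)) (fun i _ => by
          rw [← hae i]
          calc x i * (e * a i * e) * e = x i * (e * a i * (e * e)) := by noncomm_ring
            _ = _ := by rw [hee])]
        rw [rowOp_apply, _root_.sum_apply]
        refine Finset.sum_congr rfl fun i _ => ?_
        rw [h.mod _ (hx i) (hxe i) _ (haM i) (hae i)]
        change _ = R (x i) (e ((S (inc k (e ζ))).ofLp i))
        exact (congrArg (fun A : H →L[ℂ] H => A ((S (inc k (e ζ))).ofLp i)) (hr i)).symm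
      rw [e1, e2]
      refine h.paschke (sum_mem fun i _ => mul_mem (hx i) (haM i)) ?_ ζ
      rw [Finset.sum_mul]
      refine Finset.sum_congr rfl fun i _ => ?_
      rw [← hae i]
      calc x i * (e * a i * e) * e = x i * (e * a i * (e * e)) := by noncomm_ring
        _ = _ := by rw [hee])
    h.nonneg (WithLp.toLp 2 v)
  simpa [rowOp_apply] using key

/-- **Corner lemma (Lemma P).** -/
theorem CornerMap.exists_mul (h : CornerMap M e C R) :
    ∃ B ∈ M, ‖B‖ ≤ C ∧ (∀ x ∈ M, x * e = x → R x = B * x) ∧ B * csupp M e = B := by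
  classical
  let I := {x : H →L[ℂ] H // x ∈ M ∧ x * e = x}
  let α : (I →₀ H) →ₗ[ℂ] H := Finsupp.lsum ℂ fun x : I => ((x : H →L[ℂ] H) : H →ₗ[ℂ] H)
  let β : (I →₀ H) →ₗ[ℂ] H := Finsupp.lsum ℂ fun x : I => (R (x : H →L[ℂ] H) : H →ₗ[ℂ] H)
  have hαβ : ∀ v, ‖β v‖ ≤ C * ‖α v‖ := by
    intro v
    have e1 : α v = ∑ x : v.support, (x.1 : H →L[ℂ] H) (v x.1) := by
      simp only [α, Finsupp.lsum_apply, Finsupp.sum]
      exact (Finset.sum_coe_sort v.support fun x : I => (x : H →L[ℂ] H) (v x)).symm
    have e2 : β v = ∑ x : v.support, R (x.1 : H →L[ℂ] H) (v x.1) := by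
      simp only [β, Finsupp.lsum_apply, Finsupp.sum]
      exact (Finset.sum_coe_sort v.support fun x : I => R (x : H →L[ℂ] H) (v x)).symm
    rw [e1, e2]
    exact h.row (fun x : v.support => (x.1 : H →L[ℂ] H)) (fun x => x.1.2.1) (fun x => x.1.2.2)
      (fun x => v x.1)
  obtain ⟨B, hB1, hB2, hB3⟩ := exists_factor α β h.nonneg hαβ
  have hee : e * e = e := h.proj.isIdempotentElem
  have hes : star e = e := h.proj.isSelfAdjoint
  have hBx : ∀ x ∈ M, x * e = x → ∀ z, B (x z) = R x z := by
    intro x hx hxe z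
    have := hB1 (Finsupp.single ⟨x, hx, hxe⟩ z)
    simpa [α, β] using this
  have hBz : ∀ z, (∀ x ∈ M, x * e = x → ∀ ζ, ⟪x ζ, z⟫_ℂ = 0) → B z = 0 := by
    intro z hz
    apply hB3
    intro v
    have e1 : α v = ∑ x ∈ v.support, (x : H →L[ℂ] H) (v x) := by
      simp only [α, Finsupp.lsum_apply, Finsupp.sum]; rfl
    rw [e1, sum_inner]
    exact Finset.sum_eq_zero fun x _ => hz _ x.2.1 x.2.2 _
  -- the central support
  set q := csupp M e with hq
  have hqM : q ∈ M := csupp_mem M e h.mem
  have hqp : IsStarProjection q := csupp_proj M e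
  have hqe : q * e = e := csupp_mul_self M e
  have hqc : ∀ y ∈ M, q * y = y * q := fun y hy => csupp_comm M e h.mem y (Or.inl hy)
  have hBq : B * q = B := by
    ext z
    change B (q z) = B z
    have h1 : B (z - q z) = 0 := by
      apply hBz
      intro x hx hxe ζ
      have h2 : q (x ζ) = x ζ := by
        have : q * x = x := by
          rw [hqc x hx, ← hxe, mul_assoc, ← hqc e h.mem, hqe]
        exact congrArg (fun A : H →L[ℂ] H => A ζ) this
      have h3 : ⟪q (x ζ), z⟫_ℂ = ⟪x ζ, q z⟫_ℂ := by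
        have h4 : adjoint q = q := hqp.isSelfAdjoint
        rw [← adjoint_inner_right, h4]
      rw [inner_sub_right, ← h3, h2, sub_self]
    rw [map_sub, sub_eq_zero] at h1
    exact h1.symm
  have hBM : B ∈ M := by
    apply mem_of_commutant
    intro T hT
    have hTc : ∀ y ∈ M, T * y = y * T := fun y hy => commutant_comm M hy hT
    have hTz : ∀ y ∈ M, ∀ z, T (y z) = y (T z) := fun y hy z =>
      congrArg (fun A : H →L[ℂ] H => A z) (hTc y hy)
    have hTs : ∀ y ∈ M, ∀ z, star T (y z) = y (star T z) := by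
      intro y hy z
      have h1 := hTc (star y) (star_mem hy)
      have h2 := congrArg star h1
      rw [star_mul, star_mul, star_star] at h2
      exact (congrArg (fun A : H →L[ℂ] H => A z) h2).symm
    have hcl : ∀ z, q z = z → T (B z) = B (T z) := by
      intro z hz
      rw [hq, csupp_eq_self_iff] at hz
      have hz' : z ∈ closure ((spanP M e : Submodule ℂ H) : Set H) := hz
      have hclo : IsClosed {z : H | T (B z) = B (T z)} := isClosed_eq (by fun_prop) (by fun_prop)
      refine closure_minimal ?_ hclo hz'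
      intro y hy
      refine Submodule.span_induction (p := fun y _ => T (B y) = B (T y)) ?_ ?_ ?_ ?_ hy
      · rintro _ ⟨x, hx, t, rfl⟩
        have hxeM : x * e ∈ M := mul_mem hx h.mem
        have hxee : x * e * e = x * e := by rw [mul_assoc, hee]
        have e1 : B (x (e t)) = R (x * e) t := hBx (x * e) hxeM hxee t
        have e2 : T (x (e t)) = (x * e) (T t) := hTz (x * e) hxeM t
        rw [e1, e2, hBx _ hxeM hxee, hTz _ (h.mapM _ hxeM hxee)]
      · simp
      · intro a b _ _ ha hb
        simp only [map_add, ha, hb]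
      · intro c a _ ha
        simp only [map_smul, ha]
    ext z
    change T (B z) = B (T z)
    have hqq : q (q z) = q z := congrArg (fun A : H →L[ℂ] H => A z) hqp.isIdempotentElem
    have hBqz : ∀ z, B (q z) = B z := fun z => congrArg (fun A : H →L[ℂ] H => A z) hBq
    rw [← hBqz z, hcl _ hqq, hTz q hqM, hBqz]
  refine ⟨B, hBM, hB2, ?_, hBq⟩
  intro x hx hxe
  ext z
  exact (hBx x hx hxe z).symm

/-- uniqueness in the corner lemma -/
theorem corner_unique (M : VonNeumannAlgebra H) (e : H →L[ℂ] H) {B B' : H →L[ℂ] H}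
    (hB : B * csupp M e = B) (hB' : B' * csupp M e = B')
    (h : ∀ x ∈ M, B * (x * e) = B' * (x * e)) : B = B' := by
  ext z
  have h1 : ∀ z, csupp M e z = z → B z = B' z := by
    intro z hz
    rw [csupp_eq_self_iff] at hz
    have hz' : z ∈ closure ((spanP M e : Submodule ℂ H) : Set H) := hz
    have hclo : IsClosed {z : H | B z = B' z} := isClosed_eq (by fun_prop) (by fun_prop)
    refine closure_minimal ?_ hclo hz'
    intro y hy
    refine Submodule.span_induction (p := fun y _ => B y = B' y) ?_ ?_ ?_ ?_ hy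
    · rintro _ ⟨x, hx, t, rfl⟩
      exact congrArg (fun A : H →L[ℂ] H => A t) (h x hx)
    · simp
    · intro a b _ _ ha hb
      simp only [map_add, ha, hb]
    · intro c a _ ha
      simp only [map_smul, ha]
  have hqq : csupp M e (csupp M e z) = csupp M e z :=
    congrArg (fun A : H →L[ℂ] H => A z) (csupp_proj M e).isIdempotentElem
  have e1 : B (csupp M e z) = B z := congrArg (fun A : H →L[ℂ] H => A z) hB
  have e2 : B' (csupp M e z) = B' z := congrArg (fun A : H →L[ℂ] H => A z) hB'
  rw [← e1, ← e2, h1 _ hqq]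

end Main

end

end Crest.Agent.R121
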