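import Mathlib
import Crest.Agent.R121.AvgOp
import Crest.Agent.R121.CornerP

/-!
# Row 121: from right modularity on a corner to the operator `ρ : End(M) → M`

`corner_rho`: a family `Φ_T : Me → M` (linear in `T`, bounded by `C ‖T‖`, `Φ_{bT} = b Φ_T`,
`Φ_{T(b·)}(y) = Φ_T(b y)`, `Φ_{d·}(y) = d y`), which is right `eMe`-modular, is of the form
`Φ_T(y) = ρ(T) y` with `ρ` linear, `‖ρ(T)‖ ≤ C ‖T‖`, `ρ(bT) = b ρ(T)`, `ρ(T(b·)) = ρ(T) b`,
`ρ(d·) = d c(e)`.
-/

set_option autoImplicit false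
set_option linter.unusedSectionVars false

namespace Crest.Agent.R121

open scoped InnerProductSpace Topology
open ContinuousLinearMap Filter Crest.Agent.R124

noncomputable section

universe u

variable {H : Type u} [NormedAddCommGroup H] [InnerProductSpace ℂ H] [CompleteSpace H]
variable {M : VonNeumannAlgebra H}

/-- central support, as an element of `M` -/
def csuppA (M : VonNeumannAlgebra H) (e : M.toStarSubalgebra) : M.toStarSubalgebra :=
  ⟨csupp M (e : H →L[ℂ] H), csupp_mem M _ e.2⟩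

@[simp] lemma coe_csuppA (e : M.toStarSubalgebra) :
    ((csuppA M e : M.toStarSubalgebra) : H →L[ℂ] H) = csupp M (e : H →L[ℂ] H) := rfl

lemma csuppA_comm (e x : M.toStarSubalgebra) : csuppA M e * x = x * csuppA M e :=
  Subtype.ext (csupp_comm M _ e.2 _ (Or.inl x.2))

lemma csuppA_star (e : M.toStarSubalgebra) : star (csuppA M e) = csuppA M e :=
  Subtype.ext (csupp_proj M _).isSelfAdjoint

lemma csuppA_mul_csuppA (e : M.toStarSubalgebra) : csuppA M e * csuppA M e = csuppA M e :=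
  Subtype.ext (csupp_proj M _).isIdempotentElem

lemma csuppA_mul_self (e : M.toStarSubalgebra) : csuppA M e * e = e :=
  Subtype.ext (csupp_mul_self M _)

/-- Corner lemma, for families of maps. -/
theorem corner_rho {e : M.toStarSubalgebra} (he : star e = e) (hee : e * e = e) {C : ℝ}
    (hC : 0 ≤ C) (Φ : EndA M → M.toStarSubalgebra → M.toStarSubalgebra)
    (add_right : ∀ T x y, x * e = x → y * e = y → Φ T (x + y) = Φ T x + Φ T y)
    (add_left : ∀ T T' y, y * e = y → Φ (T + T') y = Φ T y + Φ T' y)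
    (smul_left : ∀ (c : ℂ) T y, y * e = y → Φ (c • T) y = c • Φ T y)
    (bd : ∀ T y, y * e = y → ‖Φ T y‖ ≤ C * ‖T‖ * ‖y‖)
    (left : ∀ b T y, y * e = y → Φ (Lm b ∘L T) y = b * Φ T y)
    (pre : ∀ b T y, y * e = y → Φ (T ∘L Lm b) y = Φ T (b * y))
    (base : ∀ d y, y * e = y → Φ (Lm d) y = d * y)
    (mod : ∀ T y a, y * e = y → e * a * e = a → Φ T (y * a) = Φ T y * a) :
    ∃ ρ : EndA M →ₗ[ℂ] M.toStarSubalgebra, (∀ T, ‖ρ T‖ ≤ C * ‖T‖) ∧
      (∀ b T, ρ (Lm b ∘L T) = b * ρ T) ∧ (∀ b T, ρ (T ∘L Lm b) = ρ T * b) ∧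
      (∀ d, ρ (Lm d) = d * csuppA M e) ∧ (∀ T y, y * e = y → Φ T y = ρ T * y) ∧
      (∀ T, ρ T * csuppA M e = ρ T) := by
  classical
  have heP : IsStarProjection (e : H →L[ℂ] H) :=
    ⟨congrArg Subtype.val hee, congrArg Subtype.val he⟩
  have h0 : ∀ T, CornerMap M (e : H →L[ℂ] H) (C * ‖T‖)
      (fun x => if h : x ∈ M then ((Φ T ⟨x, h⟩ : M.toStarSubalgebra) : H →L[ℂ] H) else 0) := by
    intro T
    refine ⟨heP, e.2, by positivity, ?_, ?_, ?_, ?_⟩
    · intro x hx y hy hxe hye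
      rw [dif_pos hx, dif_pos hy, dif_pos (add_mem hx hy)]
      exact congrArg Subtype.val (add_right T ⟨x, hx⟩ ⟨y, hy⟩ (Subtype.ext hxe) (Subtype.ext hye))
    · intro x hx hxe
      rw [dif_pos hx]
      exact (Φ T ⟨x, hx⟩).2
    · intro x hx hxe a ha hea
      rw [dif_pos hx, dif_pos (mul_mem hx ha)]
      exact congrArg Subtype.val (mod T ⟨x, hx⟩ ⟨a, ha⟩ (Subtype.ext hxe) (Subtype.ext hea))
    · intro x hx hxe
      rw [dif_pos hx]
      exact bd T ⟨x, hx⟩ (Subtype.ext hxe)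
  have h1 : ∀ T, ∃ B : M.toStarSubalgebra, ‖B‖ ≤ C * ‖T‖ ∧
      (∀ y, y * e = y → Φ T y = B * y) ∧ B * csuppA M e = B := by
    intro T
    obtain ⟨B, hB, hBn, hBx, hBc⟩ := (h0 T).exists_mul
    refine ⟨⟨B, hB⟩, hBn, fun y hy => ?_, Subtype.ext hBc⟩
    have := hBx y.1 y.2 (congrArg Subtype.val hy)
    have hy2 : (y : H →L[ℂ] H) ∈ M := y.2
    rw [dif_pos hy2] at this
    exact Subtype.ext this
  choose ρ hρn hρ hρc using h1
  have huniq : ∀ B B' : M.toStarSubalgebra, B * csuppA M e = B → B' * csuppA M e = B' →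
      (∀ y, y * e = y → B * y = B' * y) → B = B' := by
    intro B B' hB hB' h
    refine Subtype.ext (corner_unique M (e : H →L[ℂ] H) (congrArg Subtype.val hB)
      (congrArg Subtype.val hB') fun x hx => ?_)
    have := h (⟨x, hx⟩ * e) (by rw [mul_assoc, hee])
    exact congrArg Subtype.val this
  refine ⟨{ toFun := ρ, map_add' := ?_, map_smul' := ?_ }, hρn, ?_, ?_, ?_, hρ, hρc⟩
  · intro T T'
    refine huniq _ _ (hρc _) (by rw [add_mul, hρc, hρc]) fun y hy => ?_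
    rw [← hρ _ y hy, add_left T T' y hy, hρ _ y hy, hρ _ y hy, add_mul]
  · intro c T
    refine huniq _ _ (hρc _) (by rw [RingHom.id_apply, smul_mul_assoc, hρc]) fun y hy => ?_
    rw [← hρ _ y hy, smul_left c T y hy, hρ _ y hy, RingHom.id_apply, smul_mul_assoc]
  · intro b T
    change ρ _ = b * ρ T
    refine huniq _ _ (hρc _) (by rw [mul_assoc, hρc]) fun y hy => ?_
    rw [← hρ _ y hy, left b T y hy, hρ _ y hy, mul_assoc]
  · intro b T
    change ρ _ = ρ T * b
    refine huniq _ _ (hρc _) (by rw [mul_assoc, ← csuppA_comm, ← mul_assoc, hρc]) fun y hy => ?_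
    rw [← hρ _ y hy, pre b T y hy, hρ T (b * y) (by rw [mul_assoc, hy]), mul_assoc]
  · intro d
    change ρ _ = d * csuppA M e
    refine huniq _ _ (hρc _) (by rw [mul_assoc, csuppA_mul_csuppA]) fun y hy => ?_
    have h2 : csuppA M e * y = y := by
      rw [← hy, ← mul_assoc, csuppA_comm, mul_assoc, csuppA_mul_self]
    rw [← hρ _ y hy, base d y hy, mul_assoc, h2]

/-- Corner lemma, for averaging operators which become right modular on the corner. -/
theorem IsAvg.corner_rho {Λ : EndA M →ₗ[ℂ] EndA M} (h : IsAvg Λ) {e : M.toStarSubalgebra}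
    (he : star e = e) (hee : e * e = e)
    (mod : ∀ T y a, y * e = y → e * a * e = a → Λ T (y * a) = Λ T y * a) :
    ∃ ρ : EndA M →ₗ[ℂ] M.toStarSubalgebra, (∀ T, ‖ρ T‖ ≤ ‖T‖) ∧
      (∀ b T, ρ (Lm b ∘L T) = b * ρ T) ∧ (∀ b T, ρ (T ∘L Lm b) = ρ T * b) ∧
      (∀ d, ρ (Lm d) = d * csuppA M e) ∧ (∀ T y, y * e = y → Λ T y = ρ T * y) ∧
      (∀ T, ρ T * csuppA M e = ρ T) := by
  obtain ⟨ρ, h1, h2, h3, h4, h5, h6⟩ := R121.corner_rho he hee zero_le_one (fun T y => Λ T y)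
    (fun T x y _ _ => map_add _ _ _) (fun T T' y _ => by rw [map_add]; rfl)
    (fun c T y _ => by rw [map_smul]; rfl)
    (fun T y _ => by rw [one_mul]; exact (Λ T).le_of_opNorm_le (h.norm T) y)
    (fun b T y _ => by rw [h.left]; rfl) (fun b T y _ => by rw [h.right]; rfl)
    (fun d y _ => by rw [h.unit]; rfl) mod
  exact ⟨ρ, fun T => by simpa using h1 T, h2, h3, h4, h5, h6⟩

end

end Crest.Agent.R121
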