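import Mathlib
import Crest.Agent.R121.Defs
import Crest.Agent.R121.CornerRho

/-!
# Row 121: Corner (frozen interface form of Lemma P)
-/

set_option autoImplicit false
set_option linter.unusedSectionVars false

namespace Crest.Agent.R121

open scoped InnerProductSpace Topology
open ContinuousLinearMap Filter Crest.Agent.R124

noncomputable section

variable {H : Type*} [NormedAddCommGroup H] [InnerProductSpace ℂ H] [CompleteSpace H]
variable {M : VonNeumannAlgebra H}

lemma spanP_eq (e : Al M) : (spanP M (e : H →L[ℂ] H)) =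
    (Submodule.span ℂ {w : H | ∃ x : Al M, ∃ η : H,
      w = (x : H →L[ℂ] H) ((e : H →L[ℂ] H) η)} : Submodule ℂ H) := by
  unfold spanP
  congr 1
  ext w
  constructor
  · rintro ⟨x, hx, t, rfl⟩
    exact ⟨⟨x, hx⟩, t, rfl⟩
  · rintro ⟨x, t, rfl⟩
    exact ⟨x, x.2, t, rfl⟩

lemma mul_csupp_of_mul (e : Al M) {z : Al M} (hzc : ∀ x : Al M, z * x = x * z) (hze : z * e = e) :
    z * csuppA M e = csuppA M e := by
  apply Subtype.ext
  ext w
  change (z : H →L[ℂ] H) (csupp M (e : H →L[ℂ] H) w) = csupp M (e : H →L[ℂ] H) w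
  have h0 := csupp_apply_mem M (e : H →L[ℂ] H) w
  have hclo : IsClosed {y : H | (z : H →L[ℂ] H) y = y} := isClosed_eq (by fun_prop) (by fun_prop)
  refine closure_minimal ?_ hclo h0
  intro y hy
  refine Submodule.span_induction (p := fun y _ => (z : H →L[ℂ] H) y = y) ?_ ?_ ?_ ?_ hy
  · rintro _ ⟨x, hx, t, rfl⟩
    have h1 : z * ((⟨x, hx⟩ : Al M) * e) = (⟨x, hx⟩ : Al M) * e := by
      rw [← mul_assoc, hzc, mul_assoc, hze]
    exact congrArg (fun A : Al M => (A : H →L[ℂ] H) t) h1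
  · simp
  · intro a b _ _ ha hb
    simp only [map_add, ha, hb]
  · intro c a _ ha
    simp only [map_smul, ha]

lemma IsCS.eq_csupp {e z : Al M} (h : IsCS e z) : z = csuppA M e := by
  obtain ⟨⟨hz, hzc⟩, hze, hcl⟩ := h
  have h1 : z * csuppA M e = csuppA M e := mul_csupp_of_mul e hzc hze
  have h2 : csuppA M e * z = z := by
    apply Subtype.ext
    ext w
    change csupp M (e : H →L[ℂ] H) ((z : H →L[ℂ] H) w) = (z : H →L[ℂ] H) w
    rw [csupp_eq_self_iff]
    have := hcl w
    rw [← spanP_eq] at this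
    exact this
  rw [← h2, csuppA_comm, h1]

lemma isCS_csuppA {e : Al M} : IsCS e (csuppA M e) := by
  refine ⟨⟨⟨csuppA_mul_csuppA e, csuppA_star e⟩, csuppA_comm e⟩, csuppA_mul_self e, fun ξ => ?_⟩
  rw [← spanP_eq]
  exact csupp_apply_mem M (e : H →L[ℂ] H) ξ

/-- **Lemma P**, frozen interface form. -/
theorem rho_of_cavg {e q : Al M} (he : IsStarProjection e) (hq : IsCS e q)
    {S : En M → Al M → Al M} (hS : IsCAvg e S) : ∃ ρ : En M → Al M, IsRho (bdS M) q 1 ρ := by
  have hes : star e = e := he.isSelfAdjoint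
  have hee : e * e = e := he.isIdempotentElem
  obtain ⟨ρ, h1, h2, h3, h4, -, h6⟩ := corner_rho (M := M) hes hee zero_le_one S
    (fun T x y hx hy => hS.add T x y hx hy) (fun T T' y hy => hS.addT T T' y hy)
    (fun c T y hy => hS.smulT c T y hy) (fun T y hy => by rw [one_mul]; exact hS.bound T y hy)
    (fun b T y hy => hS.lmul b T y hy) (fun b T y hy => hS.comp b T y hy)
    (fun d y hy => hS.mul d y hy) (fun T y a hy hea => by
      have e1 : e * (e * a * e) = e * a * e := by rw [← mul_assoc, ← mul_assoc, hee]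
      have e2 : e * a * e * e = e * a * e := by rw [mul_assoc, hee]
      rw [hea] at e1 e2
      exact hS.right T y a hy e1 e2)
  refine ⟨fun T => ρ T, zero_le_one, ?_, fun _ _ => map_add ρ _ _, fun c _ _ _ => map_smul ρ c _,
    fun a K T _ => h2 a T, fun a K T _ => h3 a T, fun d => by rw [h4, hq.eq_csupp]⟩
  intro K T hT
  rw [one_mul] at *
  exact (by simpa using h1 T : ‖ρ T‖ ≤ ‖T‖).trans hT

/-- `IsRho` from the output of `corner_rho` (`C = 1`) -/
lemma isRho_of {z : Al M} {ρ : EndA M →ₗ[ℂ] M.toStarSubalgebra} (h1 : ∀ T, ‖ρ T‖ ≤ ‖T‖)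
    (h2 : ∀ b T, ρ (Lm b ∘L T) = b * ρ T) (h3 : ∀ b T, ρ (T ∘L Lm b) = ρ T * b)
    (h4 : ∀ d, ρ (Lm d) = d * z) : IsRho (bdS M) z 1 (fun T => ρ T) :=
  ⟨zero_le_one, fun {K T} hT => by rw [one_mul]; exact (h1 T).trans hT,
    fun _ _ => map_add ρ _ _, fun c _ _ _ => map_smul ρ c _,
    fun a K T _ => h2 a T, fun a K T _ => h3 a T, h4⟩

end

end Crest.Agent.R121
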