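import Crest.Agent.R121.DichC

/-!
# Row 121, module DICH: the local dichotomy

Every nonzero central projection `z` of a von Neumann algebra dominates either a nonzero projection
`f` such that the corner `f M f` carries a faithful vector `C`-trace, or a nonzero properly infinite
central projection.
-/

set_option autoImplicit false
set_option linter.unusedSectionVars false

namespace Crest.Agent.R121

open Crest.Agent.R124
open scoped InnerProductSpace

universe u

variable {K : Type u} [NormedAddCommGroup K] [InnerProductSpace ℂ K] [CompleteSpace K]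

/-- The corner `f M f` has a faithful vector `C`-trace: `‖x* ξ‖² ≤ C ‖x ξ‖²` for `x ∈ f M f`. -/
def CTr (M : VonNeumannAlgebra K) (f : K →L[ℂ] K) (ξ : K) (C : ℝ) : Prop :=
  0 ≤ C ∧ f ξ = ξ ∧
    (∀ x ∈ M, f * x = x → x * f = x → ‖star x ξ‖ ^ 2 ≤ C * ‖x ξ‖ ^ 2) ∧
    (∀ x ∈ M, x * f = x → x ξ = 0 → x = 0)

theorem infinite_to_PI (M : VonNeumannAlgebra K) {u g : K →L[ℂ] K} (huM : u ∈ M) (hgM : g ∈ M)
    (hg : IsStarProjection g) (huu : star u * u = g) (hgu : g * (u * star u) = u * star u)
    (hne : u * star u ≠ g)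
    {z : K →L[ℂ] K} (hzM : z ∈ M) (hz : IsStarProjection z) (hzc : ∀ x ∈ M, z * x = x * z)
    (hzg : z * g = g) :
    ∃ c ∈ M, IsStarProjection c ∧ (∀ x ∈ M, c * x = x * c) ∧ c ≠ 0 ∧ z * c = c ∧ PIc M c := by
  have hgs : star g = g := hg.isSelfAdjoint
  have hgg : g * g = g := hg.isIdempotentElem
  have hug : u * g = u := by
    have h1 : star (u * g - u) * (u * g - u) = 0 := by
      rw [star_sub, star_mul, hgs]
      calc (g * star u - star u) * (u * g - u)
          = g * (star u * u) * g - g * (star u * u) - (star u * u) * g + star u * u := by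
            noncomm_ring
        _ = 0 := by rw [huu, hgg, hgg]; abel
    have h2 := CStarRing.star_mul_self_eq_zero_iff _ |>.1 h1
    rwa [sub_eq_zero] at h2
  have hgu' : g * u = u := by
    calc g * u = g * (u * g) := by rw [hug]
      _ = g * (u * star u) * u := by rw [← huu]; noncomm_ring
      _ = u * (star u * u) := by rw [hgu, mul_assoc]
      _ = u := by rw [huu, hug]
  set e₀ : K →L[ℂ] K := g - u * star u with he₀
  have hes : star e₀ = e₀ := by rw [he₀, star_sub, star_mul, star_star, hgs]
  have hsug : star u * g = star u := by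
    have := congrArg star hgu'
    rwa [star_mul, hgs] at this
  have hee : e₀ * e₀ = e₀ := by
    rw [he₀]
    calc (g - u * star u) * (g - u * star u)
        = g * g - (g * u) * star u - u * (star u * g) + u * (star u * u) * star u := by
          noncomm_ring
      _ = _ := by rw [hgg, hgu', hsug, huu, hug]; abel
  have he0 : e₀ ≠ 0 := by
    intro h; rw [he₀, sub_eq_zero] at h; exact hne h.symm
  have he₀M : e₀ ∈ M := sub_mem hgM (mul_mem huM (star_mem huM))
  have heu : e₀ * u = 0 := by
    rw [he₀, sub_mul, hgu', mul_assoc, huu, hug, sub_self]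
  have hge : g * e₀ = e₀ := by rw [he₀, mul_sub, hgg, hgu]
  have hze : z * e₀ = e₀ := by rw [← hge, ← mul_assoc, hzg]
  have hsu : ∀ n : ℕ, star (u ^ n) * u ^ n * e₀ = e₀ := by
    intro n
    induction n with
    | zero => simp
    | succ n ih =>
      calc star (u ^ (n + 1)) * u ^ (n + 1) * e₀
          = star (u ^ n) * (star u * u) * (u ^ n * e₀) := by
            rw [pow_succ' u n, star_mul]; noncomm_ring
        _ = star (u ^ n) * (g * (u ^ n * e₀)) := by rw [huu]; noncomm_ring
        _ = star (u ^ n) * (u ^ n * e₀) := by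
            congr 1
            cases n with
            | zero => rw [pow_zero, one_mul, hge]
            | succ m => rw [pow_succ', mul_assoc, ← mul_assoc, hgu']
        _ = e₀ := by rw [← mul_assoc, ih]
  have hcross : ∀ n k : ℕ, e₀ * star (u ^ n) * (u ^ (n + (k + 1)) * e₀) = 0 := by
    intro n k
    have h1 : star (u ^ n) * u ^ n * (u ^ (k + 1) * e₀) = u ^ (k + 1) * e₀ := by
      clear hze
      induction n with
      | zero => simp
      | succ n ih =>
        calc star (u ^ (n + 1)) * u ^ (n + 1) * (u ^ (k + 1) * e₀)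
            = star (u ^ n) * (star u * u) * (u ^ n * (u ^ (k + 1) * e₀)) := by
              rw [pow_succ' u n, star_mul]; noncomm_ring
          _ = star (u ^ n) * (g * (u ^ (n + (k + 1)) * e₀)) := by
              rw [huu, pow_add u n (k + 1)]; simp only [mul_assoc]
          _ = star (u ^ n) * (u ^ (n + (k + 1)) * e₀) := by
              congr 1
              rw [← add_assoc, pow_succ', mul_assoc, ← mul_assoc, hgu']
          _ = star (u ^ n) * u ^ n * (u ^ (k + 1) * e₀) := by rw [pow_add]; noncomm_ring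
          _ = _ := ih
    calc e₀ * star (u ^ n) * (u ^ (n + (k + 1)) * e₀)
        = e₀ * (star (u ^ n) * u ^ n * (u ^ (k + 1) * e₀)) := by rw [pow_add]; noncomm_ring
      _ = (e₀ * u) * (u ^ k * e₀) := by rw [h1, pow_succ']; noncomm_ring
      _ = 0 := by rw [heu, zero_mul]
  set t : ℕ → K →L[ℂ] K := fun n => u ^ n * e₀ with ht
  have htt : ∀ n, star (t n) * t n = e₀ := by
    intro n
    simp only [ht, star_mul, hes]
    calc e₀ * star (u ^ n) * (u ^ n * e₀) = e₀ * (star (u ^ n) * u ^ n * e₀) := by noncomm_ring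
      _ = e₀ := by rw [hsu, hee]
  have hlt : ∀ n m, n < m → star (t n) * t m = 0 := by
    intro n m hnm
    obtain ⟨k, rfl⟩ := Nat.exists_eq_add_of_lt hnm
    simp only [ht, star_mul, hes]
    exact hcross n k
  have htne : ∀ n m, n ≠ m → star (t n) * t m = 0 := by
    intro n m hnm
    rcases lt_or_gt_of_ne hnm with h | h
    · exact hlt n m h
    · have := congrArg star (hlt m n h)
      rwa [star_mul, star_star, star_zero] at this
  have hinj : Function.Injective t := by
    intro n m hnm
    by_contra hne'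
    have h1 := htne n m hne'
    rw [← hnm, htt] at h1
    exact he0 h1
  refine main_PI M ⟨hee, hes⟩ he₀M he0 (Set.range t) (Set.infinite_range_of_injective hinj) ?_ ?_
    hzM hz hzc hze
  · rintro _ ⟨n, rfl⟩
    exact ⟨mul_mem (pow_mem huM n) he₀M, htt n⟩
  · rintro _ ⟨n, rfl⟩ _ ⟨m, rfl⟩ hne'
    exact htne n m (fun h => hne' (by rw [h]))

/-- **Local dichotomy.** -/
theorem dichotomy (M : VonNeumannAlgebra K) {z : K →L[ℂ] K} (hzM : z ∈ M)
    (hz : IsStarProjection z) (hzc : ∀ x ∈ M, z * x = x * z) (hz0 : z ≠ 0) :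
    (∃ f ∈ M, IsStarProjection f ∧ f ≠ 0 ∧ z * f = f ∧ ∃ (ξ : K) (C : ℝ), CTr M f ξ C) ∨
    (∃ c ∈ M, IsStarProjection c ∧ (∀ x ∈ M, c * x = x * c) ∧ c ≠ 0 ∧ z * c = c ∧ PIc M c) := by
  have hzz : z * z = z := hz.isIdempotentElem
  obtain ⟨ζ, hζ⟩ : ∃ ζ, z ζ ≠ 0 := by
    by_contra hcon
    push Not at hcon
    exact hz0 (ContinuousLinearMap.ext hcon)
  set ξ : K := z ζ with hξ
  have hzξ : z ξ = ξ := congrArg (fun R : K →L[ℂ] K => R ζ) hzz
  have hzvs : z * vs M ξ = vs M ξ := by
    have h1 : (1 - z) ξ = 0 := by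
      change ξ - z ξ = 0
      rw [hzξ, sub_self]
    have := mul_vs_eq_zero M (sub_mem (one_mem M) hzM) h1
    rw [sub_mul, one_mul, sub_eq_zero] at this
    exact this.symm
  rcases corner_or_infinite M hζ with ⟨f, hfM, hf, hf0, hvf, C, hC, hCt⟩ |
      ⟨u, huM, g, hgM, hg, huu, hgu, hne, hvg⟩
  · left
    have hfs : star f = f := hf.isSelfAdjoint
    have hff : f * f = f := hf.isIdempotentElem
    refine ⟨f, hfM, hf, hf0, by rw [← hvf, ← mul_assoc, hzvs], f ξ, C, hC, ?_, ?_, ?_⟩
    · exact congrArg (fun R : K →L[ℂ] K => R ξ) hff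
    · intro x hx hfx hxf
      have h1 : star x * f = star x := by
        have := congrArg star hfx
        rwa [star_mul, hfs] at this
      have e1 : star x (f ξ) = star x ξ := congrArg (fun R : K →L[ℂ] K => R ξ) h1
      have e2 : x (f ξ) = x ξ := congrArg (fun R : K →L[ℂ] K => R ξ) hxf
      rw [e1, e2]
      exact hCt x hx hfx hxf
    · intro x hx hxf hx0
      have e2 : x (f ξ) = x ξ := congrArg (fun R : K →L[ℂ] K => R ξ) hxf
      rw [e2] at hx0
      have h1 := mul_vs_eq_zero M hx hx0
      rw [← hxf, ← hvf, ← mul_assoc, h1, zero_mul]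
  · right
    exact infinite_to_PI M huM hgM hg huu hgu hne hzM hz hzc (by rw [← hvg, ← mul_assoc, hzvs])

end Crest.Agent.R121
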