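import Crest.Agent.R121.DichLC

/-!
# Row 121, module DICH, part 2: polar decomposition with the equation, vector supports,
# C-traces on a corner or an infinite projection
-/

set_option autoImplicit false
set_option linter.unusedSectionVars false
set_option linter.style.haveILetI false

namespace Crest.Agent.R121

open Crest.Agent.R124
open scoped InnerProductSpace

universe u

variable {K : Type u} [NormedAddCommGroup K] [InnerProductSpace ℂ K] [CompleteSpace K]

/-- Polar decomposition: the partial isometry part of `v`. -/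
theorem exists_polar' (v : K →L[ℂ] K) : ∃ u : K →L[ℂ] K,
    u * star u * u = u ∧ (∀ η, v η = 0 → u η = 0) ∧
    (∀ η, u η ∈ closure (Set.range v)) ∧ (v ≠ 0 → u ≠ 0) ∧
    (∀ T : K →L[ℂ] K, T * v = v * T → T * star v = star v * T → T * u = u * T) ∧
    (∀ ξ, u (CFC.abs v ξ) = v ξ) := by
  set a : K →L[ℂ] K := CFC.abs v with ha
  have hasa : star a = a := (CFC.abs_nonneg v).isSelfAdjoint.star_eq
  have hadj : ContinuousLinearMap.adjoint a = a := hasa
  have hnorm : ∀ ξ, ‖a ξ‖ = ‖v ξ‖ := norm_abs_apply v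
  set V0 : Submodule ℂ K := (LinearMap.range (a : K →ₗ[ℂ] K)).topologicalClosure with hV0
  haveI : CompleteSpace V0 := (Submodule.isClosed_topologicalClosure _).completeSpace_coe
  have hV0c : (V0 : Set K) = closure (Set.range a) := by
    rw [hV0, Submodule.topologicalClosure_coe]
    rfl
  have hmem : ∀ ξ, a ξ ∈ V0 := fun ξ =>
    Submodule.le_topologicalClosure _ (LinearMap.mem_range_self (a : K →ₗ[ℂ] K) ξ)
  set a' : K →ₗ[ℂ] V0 := LinearMap.codRestrict V0 (a : K →ₗ[ℂ] K) hmem with ha'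
  have ha'_coe : ∀ ξ, ((a' ξ : V0) : K) = a ξ := fun ξ => rfl
  have hdense : DenseRange a' := by
    intro y
    have hy : (y : K) ∈ closure (Set.range a) := hV0c ▸ y.2
    rw [mem_closure_iff_seq_limit] at hy ⊢
    obtain ⟨s, hs, hlim⟩ := hy
    choose t ht using hs
    refine ⟨fun n => a' (t n), fun n => ⟨t n, rfl⟩, ?_⟩
    rw [tendsto_subtype_rng]
    simpa [ha'_coe, ht] using! hlim
  have hbd : ∀ ξ, ‖(v : K →ₗ[ℂ] K) ξ‖ ≤ 1 * ‖a' ξ‖ := by
    intro ξ
    rw [one_mul]
    change ‖v ξ‖ ≤ ‖((a' ξ : V0) : K)‖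
    rw [ha'_coe, hnorm]
  set U0 : V0 →L[ℂ] K := (v : K →ₗ[ℂ] K).extendOfNorm a' with hU0
  have hU0a : ∀ ξ, U0 (a' ξ) = v ξ := fun ξ =>
    LinearMap.extendOfNorm_eq hdense ⟨1, hbd⟩ ξ
  have hU0n : ∀ y : V0, ‖U0 y‖ = ‖y‖ := by
    intro y
    refine hdense.induction_on (p := fun y => ‖U0 y‖ = ‖y‖) y
      (isClosed_eq (by fun_prop) (by fun_prop)) ?_
    intro ξ
    rw [hU0a]
    change ‖v ξ‖ = ‖((a' ξ : V0) : K)‖
    rw [ha'_coe, hnorm]
  set u : K →L[ℂ] K := U0.comp V0.orthogonalProjectionOnto with hu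
  have hua : ∀ ξ, u (a ξ) = v ξ := by
    intro ξ
    have : V0.orthogonalProjectionOnto (a ξ) = a' ξ := by
      have := Submodule.orthogonalProjectionOnto_mem_subspace_eq_self (K := V0) (a' ξ)
      rw [← this]; rfl
    change U0 (V0.orthogonalProjectionOnto (a ξ)) = v ξ
    rw [this, hU0a]
  have hun : ∀ ξ, ‖u ξ‖ = ‖V0.starProjection ξ‖ := by
    intro ξ
    change ‖U0 (V0.orthogonalProjectionOnto ξ)‖ = _
    rw [hU0n]
    rfl
  -- kernel
  have hker : ∀ η, v η = 0 → V0.starProjection η = 0 := by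
    intro η hη
    have haη : a η = 0 := by
      rw [← norm_eq_zero, hnorm, hη, norm_zero]
    rw [Submodule.starProjection_apply_eq_zero_iff, Submodule.mem_orthogonal]
    intro y hy
    have hy' : y ∈ closure (Set.range a) := hV0c ▸ hy
    have hcl : IsClosed {z : K | ⟪z, η⟫_ℂ = 0} := isClosed_eq (by fun_prop) continuous_const
    refine closure_minimal ?_ hcl hy'
    rintro _ ⟨ξ, rfl⟩
    change ⟪a ξ, η⟫_ℂ = 0
    rw [← hadj, ContinuousLinearMap.adjoint_inner_left, haη, inner_zero_right]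
  have hukill : ∀ η, v η = 0 → u η = 0 := by
    intro η hη
    rw [← norm_eq_zero, hun, hker η hη, norm_zero]
  have huP : ∀ ξ, u (V0.starProjection ξ) = u ξ := by
    intro ξ
    have h1 : ‖u (V0.starProjection ξ - ξ)‖ = 0 := by
      rw [hun]
      have h2 : V0.starProjection (V0.starProjection ξ) = V0.starProjection ξ :=
        Submodule.starProjection_eq_self_iff.2 (Submodule.starProjection_apply_mem _ _)
      rw [map_sub, h2, sub_self, norm_zero]
    rw [norm_eq_zero, map_sub, sub_eq_zero] at h1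
    exact h1
  have hstar : star u * u = V0.starProjection := by
    have h1 : ((star u * u : K →L[ℂ] K) : K →ₗ[ℂ] K) = (V0.starProjection : K →ₗ[ℂ] K) := by
      rw [← ext_inner_map]
      intro ξ
      have e1 : ⟪((star u * u : K →L[ℂ] K) : K →ₗ[ℂ] K) ξ, ξ⟫_ℂ = ⟪u ξ, u ξ⟫_ℂ := by
        calc ⟪((star u * u : K →L[ℂ] K) : K →ₗ[ℂ] K) ξ, ξ⟫_ℂ
            = ⟪ContinuousLinearMap.adjoint u (u ξ), ξ⟫_ℂ := rfl
          _ = ⟪u ξ, u ξ⟫_ℂ := by rw [ContinuousLinearMap.adjoint_inner_left]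
      have e2 : ⟪(V0.starProjection : K →ₗ[ℂ] K) ξ, ξ⟫_ℂ
          = ⟪V0.starProjection ξ, V0.starProjection ξ⟫_ℂ := by
        have h2 : V0.starProjection (V0.starProjection ξ) = V0.starProjection ξ :=
          Submodule.starProjection_eq_self_iff.2 (Submodule.starProjection_apply_mem _ _)
        calc ⟪V0.starProjection ξ, ξ⟫_ℂ = ⟪V0.starProjection (V0.starProjection ξ), ξ⟫_ℂ := by
              rw [h2]
          _ = _ := Submodule.inner_starProjection_left_eq_right _ _ _
      rw [e1, e2, inner_self_eq_norm_sq_to_K, inner_self_eq_norm_sq_to_K, hun]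
    exact ContinuousLinearMap.coe_injective h1
  refine ⟨u, ?_, hukill, ?_, ?_, ?_, hua⟩
  · rw [mul_assoc, hstar]
    ext ξ
    exact huP ξ
  · intro η
    change U0 (V0.orthogonalProjectionOnto η) ∈ _
    refine hdense.induction_on (p := fun y => U0 y ∈ closure (Set.range v)) _
      (isClosed_closure.preimage U0.continuous) ?_
    intro ξ
    rw [hU0a]
    exact subset_closure ⟨ξ, rfl⟩
  · intro hv hu0
    apply hv
    ext ξ
    rw [← hua, hu0]
    rfl
  · intro T hT1 hT2
    have hTa : T * a = a * T := by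
      have h1 : Commute v T := hT1.symm
      have h2 : Commute v (star T) := by
        have := congrArg star hT2
        simp only [star_mul, star_star] at this
        exact this
      exact (h1.cfcAbs_left h2).symm
    ext ξ
    change T (u ξ) = u (T ξ)
    -- on the subspace
    have hV : ∀ y : V0, T (U0 y) = u (T (y : K)) := by
      intro y
      refine hdense.induction_on (p := fun y : V0 => T (U0 y) = u (T (y : K))) y
        (isClosed_eq (by fun_prop) (by fun_prop)) ?_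
      intro ζ
      rw [hU0a, ha'_coe]
      have e1 : T (a ζ) = a (T ζ) := congrArg (fun S : K →L[ℂ] K => S ζ) hTa
      have e2 : T (v ζ) = v (T ζ) := congrArg (fun S : K →L[ℂ] K => S ζ) hT1
      rw [e1, hua, e2]
    have h1 : T (u ξ) = u (T (V0.starProjection ξ)) := hV _
    have h2 : v (ξ - V0.starProjection ξ) = 0 := by
      have h3 : ‖a (ξ - V0.starProjection ξ)‖ = 0 := by
        have h4 : ⟪a (ξ - V0.starProjection ξ), a (ξ - V0.starProjection ξ)⟫_ℂ = 0 := by
          conv_lhs => rw [← hadj]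
          rw [ContinuousLinearMap.adjoint_inner_left, hadj]
          exact Submodule.starProjection_inner_eq_zero _ _ (hmem _)
        rw [inner_self_eq_zero] at h4
        rw [h4, norm_zero]
      rw [← norm_eq_zero, ← hnorm, h3]
    have h5 : u (T (ξ - V0.starProjection ξ)) = 0 := by
      apply hukill
      have e2 : T (v (ξ - V0.starProjection ξ)) = v (T (ξ - V0.starProjection ξ)) :=
        congrArg (fun S : K →L[ℂ] K => S (ξ - V0.starProjection ξ)) hT1
      rw [← e2, h2, map_zero]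
    rw [map_sub, map_sub, sub_eq_zero] at h5
    rw [h1, h5]


/-- polar decomposition inside a von Neumann algebra -/
theorem polarM (M : VonNeumannAlgebra K) {v : K →L[ℂ] K} (hv : v ∈ M) : ∃ u ∈ M,
    u * star u * u = u ∧ u * CFC.abs v = v ∧ (∀ g : K →L[ℂ] K, g * v = 0 → g * u = 0) ∧
    (∀ g : K →L[ℂ] K, v * g = 0 → u * g = 0) := by
  obtain ⟨u, h1, h2, h3, -, h5, h6⟩ := exists_polar' v
  refine ⟨u, mem_of_commutant M u fun T hT =>
    h5 T (commutant_comm M hv hT) (commutant_comm M (star_mem hv) hT), h1, ?_, ?_, ?_⟩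
  · ext ξ; exact h6 ξ
  · intro g hg
    ext ξ
    have hcl : IsClosed {z : K | g z = 0} := isClosed_eq (by fun_prop) continuous_const
    refine closure_minimal ?_ hcl (h3 ξ)
    rintro _ ⟨ζ, rfl⟩
    exact congrArg (fun R : K →L[ℂ] K => R ζ) hg
  · intro g hg
    ext ξ
    exact h2 _ (congrArg (fun R : K →L[ℂ] K => R ξ) hg)


/-! ### vector supports -/

/-- span of `M' ξ` -/
def vspan (M : VonNeumannAlgebra K) (ξ : K) : Submodule ℂ K :=
  Submodule.span ℂ {w : K | ∃ T ∈ M.commutant, w = T ξ}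

/-- support projection in `M` of the vector `ξ` -/
noncomputable def vs (M : VonNeumannAlgebra K) (ξ : K) : K →L[ℂ] K :=
  haveI : CompleteSpace (vspan M ξ).topologicalClosure :=
    (Submodule.isClosed_topologicalClosure _).completeSpace_coe
  (vspan M ξ).topologicalClosure.starProjection

lemma vs_proj (M : VonNeumannAlgebra K) (ξ : K) : IsStarProjection (vs M ξ) := by
  have : CompleteSpace (vspan M ξ).topologicalClosure :=
    (Submodule.isClosed_topologicalClosure _).completeSpace_coe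
  exact isStarProjection_starProjection

lemma vs_self (M : VonNeumannAlgebra K) (ξ : K) : vs M ξ ξ = ξ := by
  have : CompleteSpace (vspan M ξ).topologicalClosure :=
    (Submodule.isClosed_topologicalClosure _).completeSpace_coe
  exact Submodule.starProjection_eq_self_iff.2
    (Submodule.le_topologicalClosure _ (Submodule.subset_span ⟨1, one_mem _, rfl⟩))

lemma vs_apply_mem (M : VonNeumannAlgebra K) (ξ t : K) :
    vs M ξ t ∈ closure ((vspan M ξ : Submodule ℂ K) : Set K) := by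
  have : CompleteSpace (vspan M ξ).topologicalClosure :=
    (Submodule.isClosed_topologicalClosure _).completeSpace_coe
  have h := Submodule.starProjection_apply_mem (vspan M ξ).topologicalClosure t
  have h2 : vs M ξ t ∈ ((vspan M ξ).topologicalClosure : Set K) := h
  rwa [Submodule.topologicalClosure_coe] at h2

lemma mul_vs_eq_zero' (M : VonNeumannAlgebra K) {ξ : K} {B : K →L[ℂ] K}
    (h : ∀ T ∈ M.commutant, B (T ξ) = 0) : B * vs M ξ = 0 := by
  ext t
  change B (vs M ξ t) = 0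
  have hcl : IsClosed {z : K | B z = 0} := isClosed_eq (by fun_prop) continuous_const
  refine closure_minimal ?_ hcl (vs_apply_mem M ξ t)
  intro w hw
  refine Submodule.span_induction (p := fun y _ => B y = 0) ?_ ?_ ?_ ?_ hw
  · rintro _ ⟨T, hT, rfl⟩; exact h T hT
  · exact map_zero B
  · intro a b _ _ ha hb; rw [map_add, ha, hb, add_zero]
  · intro c a _ ha; rw [map_smul, ha, smul_zero]

lemma mul_vs_eq_zero (M : VonNeumannAlgebra K) {ξ : K} {x : K →L[ℂ] K} (hx : x ∈ M)
    (h : x ξ = 0) : x * vs M ξ = 0 := by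
  apply mul_vs_eq_zero' M
  intro T hT
  have := congrArg (fun R : K →L[ℂ] K => R ξ) (commutant_comm M hx hT)
  change T (x ξ) = x (T ξ) at this
  rw [← this, h, map_zero]

lemma vs_mem (M : VonNeumannAlgebra K) (ξ : K) : vs M ξ ∈ M := by
  apply mem_of_commutant
  have hs : star (vs M ξ) = vs M ξ := (vs_proj M ξ).isSelfAdjoint
  have hfix : ∀ T ∈ M.commutant, vs M ξ (T ξ) = T ξ := by
    intro T hT
    have : CompleteSpace (vspan M ξ).topologicalClosure :=
      (Submodule.isClosed_topologicalClosure _).completeSpace_coe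
    exact Submodule.starProjection_eq_self_iff.2
      (Submodule.le_topologicalClosure _ (Submodule.subset_span ⟨T, hT, rfl⟩))
  have key : ∀ T ∈ M.commutant, (1 - vs M ξ) * T * vs M ξ = 0 := by
    intro T hT
    apply mul_vs_eq_zero' M
    intro T' hT'
    have h1 := hfix (T * T') (mul_mem hT hT')
    change T (T' ξ) - vs M ξ (T (T' ξ)) = 0
    rw [sub_eq_zero]
    exact h1.symm
  intro T hT
  have h1 := key T hT
  have h2 := congrArg star (key (star T) (star_mem hT))
  rw [star_mul, star_mul, star_star, star_sub, star_one, hs, star_zero] at h2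
  rw [sub_mul, one_mul, sub_mul, sub_eq_zero] at h1
  rw [mul_sub, mul_one, mul_sub, sub_eq_zero, ← mul_assoc] at h2
  exact h1.trans h2.symm

/-! ### Zorn -/

lemma zorn_pair {X : Type*} (Pr : X → Prop) (R : X → X → Prop) (S₀ : Set X)
    (h0 : ∀ w ∈ S₀, Pr w) (h0' : ∀ w ∈ S₀, ∀ w' ∈ S₀, w ≠ w' → R w w') :
    ∃ S : Set X, S₀ ⊆ S ∧ (∀ w ∈ S, Pr w) ∧ (∀ w ∈ S, ∀ w' ∈ S, w ≠ w' → R w w') ∧
      ∀ v, Pr v → (∀ w ∈ S, R v w ∧ R w v) → v ∈ S := by
  obtain ⟨S, hS0, hS⟩ := zorn_subset_nonempty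
    {S : Set X | (∀ w ∈ S, Pr w) ∧ ∀ w ∈ S, ∀ w' ∈ S, w ≠ w' → R w w'} (by
      intro c hc hchain _
      refine ⟨⋃₀ c, ⟨?_, ?_⟩, fun s hs => Set.subset_sUnion_of_mem hs⟩
      · rintro w ⟨s, hs, hw⟩
        exact (hc hs).1 w hw
      · rintro w ⟨s, hs, hw⟩ w' ⟨s', hs', hw'⟩ hne
        rcases hchain.total hs hs' with h | h
        · exact (hc hs').2 w (h hw) w' hw' hne
        · exact (hc hs).2 w hw w' (h hw') hne) S₀ ⟨h0, h0'⟩
  refine ⟨S, hS0, hS.prop.1, hS.prop.2, ?_⟩
  intro v hv hR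
  have hins : insert v S ∈ {S : Set X | (∀ w ∈ S, Pr w) ∧ ∀ w ∈ S, ∀ w' ∈ S, w ≠ w' → R w w'} := by
    refine ⟨?_, ?_⟩
    · rintro w (rfl | hw)
      · exact hv
      · exact hS.prop.1 w hw
    · rintro w (rfl | hw) w' (rfl | hw') hne
      · exact absurd rfl hne
      · exact (hR w' hw').1
      · exact (hR w hw).2
      · exact hS.prop.2 w hw w' hw' hne
  exact hS.le_of_ge hins (Set.subset_insert _ _) (Set.mem_insert _ _)

/-! ### norms of strong sums -/

lemma re_star_mul_self (x : K →L[ℂ] K) (η : K) : (⟪(star x * x) η, η⟫_ℂ).re = ‖x η‖ ^ 2 := by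
  have : ⟪(star x * x) η, η⟫_ℂ = ⟪x η, x η⟫_ℂ := by
    change ⟪ContinuousLinearMap.adjoint x (x η), η⟫_ℂ = _
    rw [ContinuousLinearMap.adjoint_inner_left]
  rw [this]
  exact inner_self_eq_norm_sq (𝕜 := ℂ) _

lemma norm_sq_of_fix {u : K →L[ℂ] K} {η : K} (h : (star u * u) η = η) : ‖u η‖ ^ 2 = ‖η‖ ^ 2 := by
  rw [← re_star_mul_self, h]
  exact inner_self_eq_norm_sq (𝕜 := ℂ) _

section sums
variable {S : Set (K →L[ℂ] K)} {W : K →L[ℂ] K}
  (hW : ∀ ξ, HasSum (fun w : S => (w : K →L[ℂ] K) ξ) (W ξ)) (hS : OrthSys S)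
include hW hS

lemma star_sum_mul {w : K →L[ℂ] K} (hw : w ∈ S) : star W * w = star w * w := by
  have := congrArg star (star_mul_sum hW hS hw)
  simpa only [star_mul, star_star] using this

lemma mul_star_sum {w : K →L[ℂ] K} (hw : w ∈ S) : w * star W = w * star w := by
  have := congrArg star (sum_mul_star hW hS hw)
  simpa only [star_mul, star_star] using this

lemma hasSum_norm_sq (ξ : K) : HasSum (fun w : S => ‖(w : K →L[ℂ] K) ξ‖ ^ 2) (‖W ξ‖ ^ 2) := by
  have h1 := (hW ξ).mapL (innerSL ℂ (W ξ))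
  have h2 := h1.mapL Complex.reCLM
  have e1 : Complex.reCLM ((innerSL ℂ (W ξ)) (W ξ)) = ‖W ξ‖ ^ 2 := by
    change (⟪W ξ, W ξ⟫_ℂ).re = _
    exact inner_self_eq_norm_sq (𝕜 := ℂ) _
  rw [e1] at h2
  convert h2 using 1
  funext w
  change ‖(w : K →L[ℂ] K) ξ‖ ^ 2 = (⟪W ξ, (w : K →L[ℂ] K) ξ⟫_ℂ).re
  have e2 : ⟪W ξ, (w : K →L[ℂ] K) ξ⟫_ℂ = ⟪(star (w : K →L[ℂ] K) * w) ξ, ξ⟫_ℂ := by
    rw [← star_mul_sum hW hS w.2]
    change _ = ⟪ContinuousLinearMap.adjoint (w : K →L[ℂ] K) (W ξ), ξ⟫_ℂ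
    rw [ContinuousLinearMap.adjoint_inner_left]
  rw [e2, re_star_mul_self]

lemma hasSum_norm_sq_star (ξ : K) :
    HasSum (fun w : S => ‖star (w : K →L[ℂ] K) ξ‖ ^ 2) (‖star W ξ‖ ^ 2) := by
  have h1 := (hW (star W ξ)).mapL (innerSL ℂ ξ)
  have h2 := h1.mapL Complex.reCLM
  have e0 : ∀ w : K →L[ℂ] K, (⟪ξ, w (star w ξ)⟫_ℂ).re = ‖star w ξ‖ ^ 2 := by
    intro w
    rw [← re_star_mul_self, star_star, ← inner_conj_symm, Complex.conj_re]
    rfl
  have e1 : Complex.reCLM ((innerSL ℂ ξ) (W (star W ξ))) = ‖star W ξ‖ ^ 2 := e0 W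
  rw [e1] at h2
  convert h2 using 1
  funext w
  change ‖star (w : K →L[ℂ] K) ξ‖ ^ 2 = (⟪ξ, (w : K →L[ℂ] K) (star W ξ)⟫_ℂ).re
  have e3 : (w : K →L[ℂ] K) (star W ξ) = (w : K →L[ℂ] K) (star (w : K →L[ℂ] K) ξ) :=
    congrArg (fun R : K →L[ℂ] K => R ξ) (mul_star_sum hW hS w.2)
  rw [e3, e0]

end sums

/-- strong sums of orthogonal projections are projections -/
lemma sum_proj {S : Set (K →L[ℂ] K)} {G : K →L[ℂ] K} (hS : OrthSys S)
    (hp : ∀ q ∈ S, IsStarProjection q)
    (hG : ∀ ξ, HasSum (fun w : S => (w : K →L[ℂ] K) ξ) (G ξ)) :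
    IsStarProjection G ∧ ∀ q ∈ S, q * G = q ∧ G * q = q := by
  have h1 : ∀ q ∈ S, q * G = q := by
    intro q hq
    have := star_mul_sum hG hS hq
    rwa [(hp q hq).isSelfAdjoint.star_eq, (hp q hq).isIdempotentElem.eq] at this
  have h2 : ∀ q ∈ S, G * q = q := by
    intro q hq
    have := sum_mul_star hG hS hq
    rwa [(hp q hq).isSelfAdjoint.star_eq, (hp q hq).isIdempotentElem.eq] at this
  have h3 : ∀ q ∈ S, star G * q = q := by
    intro q hq
    have := congrArg star (h1 q hq)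
    rwa [star_mul, (hp q hq).isSelfAdjoint.star_eq] at this
  have h4 : star G * G = G := by
    have := sum_mul_eq_zero hG (star G - 1) fun w hw => by
      rw [sub_mul, one_mul, h3 w hw, sub_self]
    rw [sub_mul, one_mul, sub_eq_zero] at this
    exact this
  have h5 : star G = G := by
    have := congrArg star h4
    rw [star_mul, star_star, h4] at this
    exact this.symm
  refine ⟨⟨?_, h5⟩, fun q hq => ⟨h1 q hq, h2 q hq⟩⟩
  have h6 := h4
  rw [h5] at h6
  exact h6

end Crest.Agent.R121
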