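import Crest.Agent.R121.DichA

/-!
# Row 121, module DICH, part 3: C-trace on a corner or an infinite projection
-/

set_option autoImplicit false
set_option linter.unusedSectionVars false

namespace Crest.Agent.R121

open Crest.Agent.R124
open scoped InnerProductSpace

universe u

variable {K : Type u} [NormedAddCommGroup K] [InnerProductSpace ℂ K] [CompleteSpace K]

lemma abs_mem (M : VonNeumannAlgebra K) {x : K →L[ℂ] K} (hx : x ∈ M) :
    star x * x ∈ M := mul_mem (star_mem hx) hx

/-- Comparison for off-diagonal elements, from the comparison for partial isometries. -/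
lemma offdiag (M : VonNeumannAlgebra K) (p q' : K →L[ℂ] K) (hq's : star q' = q') (ξ : K)
    (h : ∀ v ∈ M, v * star v * v = v → p * v = v → v * q' = v → ‖star v ξ‖ ^ 2 ≤ ‖v ξ‖ ^ 2)
    {x : K →L[ℂ] K} (hx : x ∈ M) (hpx : p * x = x) (hxq : x * q' = x) :
    ‖star x ξ‖ ^ 2 ≤ ‖x ξ‖ ^ 2 := by
  obtain ⟨u, huM, hupi, hux, hl, -⟩ := polarM M hx
  set m : K →L[ℂ] K := CFC.abs x with hm
  have hms : star m = m := (CFC.abs_nonneg x).isSelfAdjoint.star_eq
  have hmm : m * m = star x * x := CFC.abs_mul_abs x
  have ha : 0 ≤ star x * x := star_mul_self_nonneg x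
  have haM : star x * x ∈ M := abs_mem M hx
  -- u* u acts as identity on m
  have hum : star u * u * m = m := by
    have h1 : star ((1 - star u * u) * m) * ((1 - star u * u) * m) = 0 := by
      have e0 : star (1 - star u * u) = 1 - star u * u := by
        rw [star_sub, star_one, star_mul, star_star]
      have e1 : (1 - star u * u) * (1 - star u * u) = 1 - star u * u := by
        have : star u * u * (star u * u) = star u * u := by
          calc star u * u * (star u * u) = star u * (u * star u * u) := by noncomm_ring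
            _ = _ := by rw [hupi]
        rw [sub_mul, one_mul, mul_sub, mul_one, this, sub_self, sub_zero]
      have e2 : m * star u * (u * m) = m * m := by
        have : star x * x = m * star u * (u * m) := by
          conv_lhs => rw [← hux]
          rw [star_mul, hms]
        rw [← this, hmm]
      calc star ((1 - star u * u) * m) * ((1 - star u * u) * m)
          = m * ((1 - star u * u) * (1 - star u * u)) * m := by
            rw [star_mul, hms, e0]; noncomm_ring
        _ = m * m - m * star u * (u * m) := by rw [e1]; noncomm_ring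
        _ = 0 := by rw [e2, sub_self]
    have h2 := CStarRing.star_mul_self_eq_zero_iff _ |>.1 h1
    rw [sub_mul, one_mul, sub_eq_zero] at h2
    exact h2.symm
  have hpu : p * u = u := by
    have := hl (1 - p) (by rw [sub_mul, one_mul, hpx, sub_self])
    rw [sub_mul, one_mul, sub_eq_zero] at this
    exact this.symm
  have hxx : x * (1 - q') = 0 := by rw [mul_sub, mul_one, hxq, sub_self]
  have h1 : (⟪(star x * x) (star u ξ), star u ξ⟫_ℂ).re ≤ 1 * (⟪(star x * x) ξ, ξ⟫_ℂ).re := by
    refine layer_cake M ha haM _ _ zero_le_one ?_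
    intro q hqM hq hsup
    have hqs : star q = q := hq.isSelfAdjoint
    have hqq : q * q = q := hq.isIdempotentElem
    have huq : star u * u * q = q := by
      have : (1 - star u * u) * (star x * x) = 0 := by
        rw [← hmm, sub_mul, one_mul, ← mul_assoc, hum, sub_self]
      have := hsup _ this
      rw [sub_mul, one_mul, sub_eq_zero] at this
      exact this.symm
    have hq'q : q * q' = q := by
      have : (1 - q') * (star x * x) = 0 := by
        have e := congrArg star hxx
        rw [star_mul, star_sub, star_one, hq's, star_zero] at e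
        rw [← mul_assoc, e, zero_mul]
      have := congrArg star (hsup _ this)
      rw [star_mul, star_sub, star_one, hq's, hqs, star_zero, mul_sub, mul_one, sub_eq_zero] at this
      exact this.symm
    have hv := h (u * q) (mul_mem huM hqM) (by
      rw [star_mul, hqs]
      calc u * q * (q * star u) * (u * q) = u * (q * q) * (star u * u * q) := by noncomm_ring
        _ = u * q := by rw [hqq, huq, mul_assoc, hqq]) (by rw [← mul_assoc, hpu])
      (by rw [mul_assoc, hq'q])
    have e1 : star (u * q) ξ = q (star u ξ) := by rw [star_mul, hqs]; rfl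
    have e2 : ‖(u * q) ξ‖ ^ 2 = ‖q ξ‖ ^ 2 := by
      change ‖u (q ξ)‖ ^ 2 = _
      exact norm_sq_of_fix (congrArg (fun R : K →L[ℂ] K => R ξ) huq)
    rw [e1, e2] at hv
    rw [one_mul]
    exact hv
  rw [one_mul, re_star_mul_self] at h1
  rw [re_star_mul_self] at h1
  have h3 : ‖x (star u ξ)‖ = ‖star x ξ‖ := by
    have e1 : ‖x (star u ξ)‖ ^ 2 = ‖m (star u ξ)‖ ^ 2 := by
      rw [← re_star_mul_self, ← hmm, ← re_star_mul_self m, hms]
    have e2 : m (star u ξ) = star x ξ := by
      have : star x = m * star u := by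
        conv_lhs => rw [← hux]
        rw [star_mul, hms]
      rw [this]; rfl
    rw [e2] at e1
    exact (sq_eq_sq₀ (norm_nonneg _) (norm_nonneg _)).1 e1
  rw [h3] at h1
  exact h1

/-- Either a C-trace on a corner under the support of `ξ` or an infinite projection. -/
theorem corner_or_infinite (M : VonNeumannAlgebra K) {ξ : K} (hξ : ξ ≠ 0) :
    (∃ f ∈ M, IsStarProjection f ∧ f ≠ 0 ∧ vs M ξ * f = f ∧
      ∃ C : ℝ, 0 ≤ C ∧ ∀ x ∈ M, f * x = x → x * f = x → ‖star x ξ‖ ^ 2 ≤ C * ‖x ξ‖ ^ 2) ∨
    (∃ u ∈ M, ∃ g ∈ M, IsStarProjection g ∧ star u * u = g ∧ g * (u * star u) = u * star u ∧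
      u * star u ≠ g ∧ vs M ξ * g = g) := by
  set e := vs M ξ with he
  have hep : IsStarProjection e := vs_proj M ξ
  have heM : e ∈ M := vs_mem M ξ
  have heξ : e ξ = ξ := vs_self M ξ
  have hee : e * e = e := hep.isIdempotentElem
  have hes : star e = e := hep.isSelfAdjoint
  have he0 : e ≠ 0 := by
    intro h; rw [h] at heξ; exact hξ heξ.symm
  obtain ⟨S, -, hPr, hR, hmax⟩ := zorn_pair
    (fun w : K →L[ℂ] K => w * star w * w = w ∧ w ∈ M ∧ e * w = w ∧ w * e = w ∧
      ‖w ξ‖ ^ 2 < ‖star w ξ‖ ^ 2)
    (fun w w' => star w * w' = 0 ∧ w * star w' = 0) ∅ (by simp) (by simp)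
  have hS : OrthSys S := ⟨fun w hw => (hPr w hw).1, fun w hw w' hw' hne => (hR w hw w' hw' hne).1,
    fun w hw w' hw' hne => (hR w hw w' hw' hne).2⟩
  obtain ⟨W, hW⟩ := hS.exists_sum
  have hWM : W ∈ M := mem_of_commutant M W fun T hT =>
    sum_mul_comm hW T fun w hw => commutant_comm M (hPr w hw).2.1 hT
  have heW : e * W = W := by
    have := sum_mul_eq_zero hW (1 - e) fun w hw => by
      rw [sub_mul, one_mul, (hPr w hw).2.2.1, sub_self]
    rw [sub_mul, one_mul, sub_eq_zero] at this
    exact this.symm
  have hWe : W * e = W := by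
    have := mul_sum_eq_zero hW (1 - e) fun w hw => by
      rw [mul_sub, mul_one, (hPr w hw).2.2.2.1, sub_self]
    rw [mul_sub, mul_one, sub_eq_zero] at this
    exact this.symm
  have hWpi : W * star W * W = W := sum_mul_star_mul_sum hW hS
  have hWpi' : star W * W * star W = star W := by
    have := congrArg star hWpi
    rwa [star_mul, star_mul, star_star, ← mul_assoc] at this
  have hesW : e * star W = star W := by
    have := congrArg star hWe
    rwa [star_mul, hes] at this
  have hsWe : star W * e = star W := by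
    have := congrArg star heW
    rwa [star_mul, hes] at this
  set P : K →L[ℂ] K := W * star W with hP
  set Q : K →L[ℂ] K := star W * W with hQ
  have hPs : star P = P := by rw [hP, star_mul, star_star]
  have hQs : star Q = Q := by rw [hQ, star_mul, star_star]
  have hPP : P * P = P := by
    rw [hP, ← mul_assoc, hWpi]
  have hQQ : Q * Q = Q := by
    rw [hQ, ← mul_assoc, hWpi']
  have heP : e * P = P := by rw [hP, ← mul_assoc, heW]
  have hPe : P * e = P := by rw [hP, mul_assoc, hsWe]
  have heQ : e * Q = Q := by rw [hQ, ← mul_assoc, hesW]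
  have hQe : Q * e = Q := by rw [hQ, mul_assoc, hWe]
  have hPM : P ∈ M := mul_mem hWM (star_mem hWM)
  have hQM : Q ∈ M := mul_mem (star_mem hWM) hWM
  -- (I1)
  have hI1 : ∀ x ∈ M, (e - P) * x = x → x * (e - Q) = x → ‖star x ξ‖ ^ 2 ≤ ‖x ξ‖ ^ 2 := by
    intro x hx h1 h2
    refine offdiag M (e - P) (e - Q) (by rw [star_sub, hes, hQs]) ξ ?_ hx h1 h2
    intro v hv hvpi hpv hvq
    by_contra hcon
    push Not at hcon
    have hev : e * v = v := by
      rw [← hpv, ← mul_assoc, mul_sub, hee, heP]
    have hve : v * e = v := by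
      rw [← hvq, mul_assoc, sub_mul, hee, hQe]
    have hwP : ∀ w ∈ S, (e - P) * w = 0 := by
      intro w hw
      rw [sub_mul, (hPr w hw).2.2.1, hP, mul_assoc, star_sum_mul hW hS hw, ← mul_assoc,
        sum_mul_star hW hS hw, hS.pi w hw, sub_self]
    have hwQ : ∀ w ∈ S, w * (e - Q) = 0 := by
      intro w hw
      rw [mul_sub, (hPr w hw).2.2.2.1, hQ, ← mul_assoc, mul_star_sum hW hS hw, mul_assoc w (star w),
        star_mul_sum hW hS hw, ← mul_assoc, hS.pi w hw, sub_self]
    have hsv : star v * (e - P) = star v := by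
      have := congrArg star hpv
      rwa [star_mul, star_sub, hes, hPs] at this
    have hsv2 : (e - Q) * star v = star v := by
      have := congrArg star hvq
      rwa [star_mul, star_sub, hes, hQs] at this
    have hvS : v ∈ S := by
      refine hmax v ⟨hvpi, hv, hev, hve, hcon⟩ ?_
      intro w hw
      have a1 : star v * w = 0 := by rw [← hsv, mul_assoc, hwP w hw, mul_zero]
      have a2 : w * star v = 0 := by rw [← hsv2, ← mul_assoc, hwQ w hw, zero_mul]
      refine ⟨⟨a1, ?_⟩, ?_, a2⟩
      · have := congrArg star a2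
        rwa [star_mul, star_star, star_zero] at this
      · have := congrArg star a1
        rwa [star_mul, star_star, star_zero] at this
    have hv0 : v = 0 := by
      have := hwP v hvS
      rw [hpv] at this
      exact this
    rw [hv0] at hcon
    simp at hcon
  by_cases hcase : ∀ x ∈ M, (e - P) * x * (e - Q) = 0
  · -- infinite projection
    right
    have hSne : S.Nonempty := by
      by_contra hne
      rw [Set.not_nonempty_iff_eq_empty] at hne
      have hW0 : W = 0 := by
        have := sum_mul_eq_zero hW (1 : K →L[ℂ] K) (fun w hw => by rw [hne] at hw; exact absurd hw (Set.notMem_empty _))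
        rwa [one_mul] at this
      have := hcase 1 (one_mem M)
      rw [hP, hQ, hW0] at this
      simp only [star_zero, mul_zero, sub_zero, mul_one, hee] at this
      exact he0 this
    obtain ⟨w₀, hw₀⟩ := hSne
    have hlt : ‖W ξ‖ ^ 2 < ‖star W ξ‖ ^ 2 :=
      hasSum_lt (f := fun w : S => ‖(w : K →L[ℂ] K) ξ‖ ^ 2)
        (g := fun w : S => ‖star (w : K →L[ℂ] K) ξ‖ ^ 2) (i := ⟨w₀, hw₀⟩)
        (fun w => ((hPr w w.2).2.2.2.2).le) (hPr w₀ hw₀).2.2.2.2
        (hasSum_norm_sq hW hS ξ) (hasSum_norm_sq_star hW hS ξ)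
    have hQne : e - Q ≠ 0 := by
      intro h0
      rw [sub_eq_zero] at h0
      have h1 : ‖W ξ‖ ^ 2 = ‖ξ‖ ^ 2 := norm_sq_of_fix (by
        change Q ξ = ξ
        rw [← h0, heξ])
      have h2 : ‖star W ξ‖ ^ 2 = ‖P ξ‖ ^ 2 := by
        rw [← re_star_mul_self, star_star, ← re_inner_proj ⟨hPP, hPs⟩]
      have h3 := norm_proj_le (q := P) ⟨hPP, hPs⟩ ξ
      rw [h1, h2] at hlt
      exact absurd h3 (not_le.2 hlt)
    set d : K →L[ℂ] K := e - Q with hd
    have hdM : d ∈ M := sub_mem heM hQM
    set c : K →L[ℂ] K := csupp M d with hc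
    have hcM : c ∈ M := csupp_mem M d hdM
    have hcp : IsStarProjection c := csupp_proj M d
    have hcc : c * c = c := hcp.isIdempotentElem
    have hcs : star c = c := hcp.isSelfAdjoint
    have hccomm : ∀ x ∈ M, c * x = x * c := fun x hx => csupp_comm M d hdM x (Or.inl hx)
    have hcd : c * d = d := csupp_mul_self M d
    have hPc : (e - P) * c = 0 := by
      ext t
      change (e - P) (c t) = 0
      have hcl : IsClosed {z : K | (e - P) z = 0} := isClosed_eq (by fun_prop) continuous_const
      have hmem := csupp_apply_mem M d t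
      have hmem' : c t ∈ closure ((spanP M d : Submodule ℂ K) : Set K) := hmem
      refine closure_minimal ?_ hcl hmem'
      intro w hw
      refine Submodule.span_induction (p := fun y _ => (e - P) y = 0) ?_ ?_ ?_ ?_ hw
      · rintro _ ⟨x, hx, s, rfl⟩
        exact congrArg (fun R : K →L[ℂ] K => R s) (hcase x hx)
      · exact map_zero _
      · intro a b _ _ ha hb; rw [map_add, ha, hb, add_zero]
      · intro r a _ ha; rw [map_smul, ha, smul_zero]
    have hPc' : P * c = c * e := by
      rw [sub_mul, sub_eq_zero] at hPc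
      rw [← hPc, hccomm e heM]
    refine ⟨star W * c, mul_mem (star_mem hWM) hcM, c * e, mul_mem hcM heM, ?_, ?_, ?_, ?_, ?_⟩
    · refine ⟨?_, ?_⟩
      · change c * e * (c * e) = c * e
        calc c * e * (c * e) = c * (e * c) * e := by noncomm_ring
          _ = (c * c) * (e * e) := by rw [← hccomm e heM]; noncomm_ring
          _ = _ := by rw [hcc, hee]
      · rw [IsSelfAdjoint, star_mul, hcs, hes, hccomm e heM]
    · rw [star_mul, star_star, hcs]
      calc c * W * (star W * c) = c * (P * c) := by rw [hP]; noncomm_ring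
        _ = (c * c) * e := by rw [hPc', ← mul_assoc]
        _ = _ := by rw [hcc]
    · have e1 : star W * c * star (star W * c) = c * Q := by
        rw [star_mul, star_star, hcs]
        calc star W * c * (c * W) = star W * (c * c) * W := by noncomm_ring
          _ = star W * c * W := by rw [hcc]
          _ = c * star W * W := by rw [hccomm (star W) (star_mem hWM)]
          _ = c * Q := by rw [hQ, mul_assoc]
      rw [e1]
      calc c * e * (c * Q) = c * (e * c) * Q := by noncomm_ring
        _ = (c * c) * (e * Q) := by rw [← hccomm e heM]; noncomm_ring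
        _ = _ := by rw [hcc, heQ]
    · have e1 : star W * c * star (star W * c) = c * Q := by
        rw [star_mul, star_star, hcs]
        calc star W * c * (c * W) = star W * (c * c) * W := by noncomm_ring
          _ = star W * c * W := by rw [hcc]
          _ = c * star W * W := by rw [hccomm (star W) (star_mem hWM)]
          _ = c * Q := by rw [hQ, mul_assoc]
      rw [e1]
      intro h0
      apply hQne
      have : c * d = 0 := by rw [hd, mul_sub, h0, sub_self]
      rw [← hcd, this]
    · rw [← mul_assoc, ← hccomm e heM, mul_assoc, hee]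
  · -- corner with a C-trace
    left
    push Not at hcase
    obtain ⟨x₀, hx₀, hx₀ne⟩ := hcase
    set y₀ : K →L[ℂ] K := (e - P) * x₀ * (e - Q) with hy₀
    have hePP : (e - P) * (e - P) = e - P := by
      rw [sub_mul, mul_sub, mul_sub, hee, heP, hPe, hPP]; abel
    have heQQ : (e - Q) * (e - Q) = e - Q := by
      rw [sub_mul, mul_sub, mul_sub, hee, heQ, hQe, hQQ]; abel
    have hy₀M : y₀ ∈ M := mul_mem (mul_mem (sub_mem heM hPM) hx₀) (sub_mem heM hQM)
    have hy₀l : (e - P) * y₀ = y₀ := by
      rw [hy₀, ← mul_assoc, ← mul_assoc, hePP]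
    have hy₀r : y₀ * (e - Q) = y₀ := by
      rw [hy₀, mul_assoc, heQQ]
    obtain ⟨y, hyM, hypi, hyy₀, hyl, hyr⟩ := polarM M hy₀M
    have hy0 : y ≠ 0 := by
      intro h0
      apply hx₀ne
      rw [← hyy₀, h0, zero_mul]
    have hyL : (e - P) * y = y := by
      have := hyl (1 - (e - P)) (by rw [sub_mul, one_mul, hy₀l, sub_self])
      rw [sub_mul, one_mul, sub_eq_zero] at this
      exact this.symm
    have hyR : y * (e - Q) = y := by
      have := hyr (1 - (e - Q)) (by rw [mul_sub, mul_one, hy₀r, sub_self])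
      rw [mul_sub, mul_one, sub_eq_zero] at this
      exact this.symm
    set p0 : K →L[ℂ] K := y * star y with hp0
    have hp0s : star p0 = p0 := by rw [hp0, star_mul, star_star]
    have hp0p0 : p0 * p0 = p0 := by rw [hp0, ← mul_assoc, hypi]
    have hp0p : IsStarProjection p0 := ⟨hp0p0, hp0s⟩
    have hp0M : p0 ∈ M := mul_mem hyM (star_mem hyM)
    have hp0y : p0 * y = y := hypi
    have hp0ne : p0 ≠ 0 := by
      intro h0
      apply hy0
      rw [← hp0y, h0, zero_mul]
    have hPp0 : (e - P) * p0 = p0 := by rw [hp0, ← mul_assoc, hyL]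
    have hep0 : e * p0 = p0 := by
      rw [← hPp0, ← mul_assoc, mul_sub, hee, heP]
    have hp0e : p0 * e = p0 := by
      have := congrArg star hep0
      rwa [star_mul, hes, hp0s] at this
    have hp0ξ : p0 ξ ≠ 0 := by
      intro h0
      have := mul_vs_eq_zero M hp0M h0
      rw [← he, hp0e] at this
      exact hp0ne this
    set η : K := y ξ with hη
    have hp0η : p0 η = η := congrArg (fun R : K →L[ℂ] K => R ξ) hp0y
    have hpos : 0 < ‖p0 ξ‖ ^ 2 := by positivity
    set C : ℝ := ‖η‖ ^ 2 / ‖p0 ξ‖ ^ 2 + 1 with hC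
    have hC0 : 0 ≤ C := by positivity
    have hCgt : ‖η‖ ^ 2 < C * ‖p0 ξ‖ ^ 2 := by
      rw [hC, add_mul, div_mul_cancel₀ _ hpos.ne', one_mul]
      linarith
    obtain ⟨S2, -, hPr2, hR2, hmax2⟩ := zorn_pair
      (fun q : K →L[ℂ] K => IsStarProjection q ∧ q ∈ M ∧ p0 * q = q ∧
        C * ‖q ξ‖ ^ 2 ≤ ‖q η‖ ^ 2)
      (fun q q' => q * q' = 0) ∅ (by simp) (by simp)
    have hS2 : OrthSys S2 := by
      refine ⟨fun q hq => ?_, fun q hq q' hq' hne => ?_, fun q hq q' hq' hne => ?_⟩
      · have h := (hPr2 q hq).1
        rw [h.isSelfAdjoint.star_eq, h.isIdempotentElem.eq, h.isIdempotentElem.eq]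
      · rw [(hPr2 q hq).1.isSelfAdjoint.star_eq]; exact hR2 q hq q' hq' hne
      · rw [(hPr2 q' hq').1.isSelfAdjoint.star_eq]; exact hR2 q hq q' hq' hne
    obtain ⟨G, hG⟩ := hS2.exists_sum
    obtain ⟨hGp, hGq⟩ := sum_proj hS2 (fun q hq => (hPr2 q hq).1) hG
    have hGM : G ∈ M := mem_of_commutant M G fun T hT =>
      sum_mul_comm hG T fun w hw => commutant_comm M (hPr2 w hw).2.1 hT
    have hp0G : p0 * G = G := by
      have := sum_mul_eq_zero hG (1 - p0) fun w hw => by
        rw [sub_mul, one_mul, (hPr2 w hw).2.2.1, sub_self]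
      rw [sub_mul, one_mul, sub_eq_zero] at this
      exact this.symm
    have hGs : star G = G := hGp.isSelfAdjoint
    have hGG : G * G = G := hGp.isIdempotentElem
    have hGp0 : G * p0 = G := by
      have := congrArg star hp0G
      rwa [star_mul, hp0s, hGs] at this
    have hGineq : C * ‖G ξ‖ ^ 2 ≤ ‖G η‖ ^ 2 :=
      hasSum_le (fun q : S2 => (hPr2 q q.2).2.2.2)
        ((hasSum_norm_sq hG hS2 ξ).mul_left C) (hasSum_norm_sq hG hS2 η)
    set f : K →L[ℂ] K := p0 - G with hf
    have hfs : star f = f := by rw [hf, star_sub, hp0s, hGs]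
    have hff : f * f = f := by
      rw [hf, sub_mul, mul_sub, mul_sub, hp0p0, hp0G, hGp0, hGG]; abel
    have hfp : IsStarProjection f := ⟨hff, hfs⟩
    have hfM : f ∈ M := sub_mem hp0M hGM
    have hp0f : p0 * f = f := by rw [hf, mul_sub, hp0p0, hp0G]
    have hf0 : f ≠ 0 := by
      intro h0
      rw [hf, sub_eq_zero] at h0
      rw [← h0, hp0η] at hGineq
      exact absurd hGineq (not_le.2 hCgt)
    have hfq : ∀ q ∈ M, IsStarProjection q → f * q = q → ‖q η‖ ^ 2 ≤ C * ‖q ξ‖ ^ 2 := by
      intro q hqM hqp hfq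
      by_contra hcon
      push Not at hcon
      have hqs : star q = q := hqp.isSelfAdjoint
      have hp0q : p0 * q = q := by rw [← hfq, ← mul_assoc, hp0f]
      have hqf : q * f = q := by
        have := congrArg star hfq
        rwa [star_mul, hfs, hqs] at this
      have hGqz : G * q = 0 := by
        rw [← hfq, hf, ← mul_assoc, mul_sub, hGp0, hGG, sub_self, zero_mul]
      have hqG : q * G = 0 := by
        have := congrArg star hGqz
        rwa [star_mul, hGs, hqs, star_zero] at this
      have hqS : q ∈ S2 := by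
        refine hmax2 q ⟨hqp, hqM, hp0q, hcon.le⟩ ?_
        intro w hw
        refine ⟨?_, ?_⟩
        · rw [← (hGq w hw).2, ← mul_assoc, hqG, zero_mul]
        · rw [← (hGq w hw).1, mul_assoc, hGqz, mul_zero]
      have hq0 : q = 0 := by
        have := (hGq q hqS).2
        rw [hGqz] at this
        exact this.symm
      rw [hq0] at hcon
      simp at hcon
    refine ⟨f, hfM, hfp, hf0, by rw [← hp0f, ← mul_assoc, hep0], C, hC0, ?_⟩
    intro x hx hfx hxf
    have hPf : (e - P) * f = f := by rw [← hp0f, ← mul_assoc, hPp0]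
    have h1 := hI1 (x * y) (mul_mem hx hyM)
      (by rw [← hfx, ← mul_assoc, ← mul_assoc, hPf]) (by rw [mul_assoc, hyR])
    have h2 : ‖star (x * y) ξ‖ ^ 2 = ‖star x ξ‖ ^ 2 := by
      rw [star_mul]
      change ‖star y (star x ξ)‖ ^ 2 = _
      apply norm_sq_of_fix
      rw [star_star]
      have : p0 * star x = star x := by
        have e1 := congrArg star hxf
        rw [star_mul, hfs] at e1
        rw [← e1, ← mul_assoc, hp0f]
      exact congrArg (fun R : K →L[ℂ] K => R ξ) this
    have h3 : (⟪(star x * x) η, η⟫_ℂ).re ≤ C * (⟪(star x * x) ξ, ξ⟫_ℂ).re := by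
      refine layer_cake M (star_mul_self_nonneg x) (abs_mem M hx) _ _ hC0 ?_
      intro q hqM hqp hsup
      refine hfq q hqM hqp ?_
      have e1 : (1 - f) * (star x * x) = 0 := by
        have e2 := congrArg star hxf
        rw [star_mul, hfs] at e2
        rw [← mul_assoc, sub_mul, one_mul, e2, sub_self, zero_mul]
      have e3 := hsup _ e1
      rw [sub_mul, one_mul, sub_eq_zero] at e3
      exact e3.symm
    rw [re_star_mul_self, re_star_mul_self] at h3
    rw [h2] at h1
    exact h1.trans h3

end Crest.Agent.R121
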