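import Crest.Agent.R121.DichB

/-!
# Row 121, module DICH, part 4: an infinite projection gives a properly infinite central piece
-/

set_option autoImplicit false
set_option linter.unusedSectionVars false
set_option linter.style.haveILetI false

namespace Crest.Agent.R121

open Crest.Agent.R124
open scoped InnerProductSpace

universe u

variable {K : Type u} [NormedAddCommGroup K] [InnerProductSpace ℂ K] [CompleteSpace K]

/-- `c` is properly infinite: `c` is the sum of two projections equivalent to `c`. -/
def PIc (M : VonNeumannAlgebra K) (c : K →L[ℂ] K) : Prop :=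
  ∃ s₁ ∈ M, ∃ s₂ ∈ M, star s₁ * s₁ = c ∧ star s₂ * s₂ = c ∧ s₁ * star s₁ + s₂ * star s₂ = c

lemma pi_star {w : K →L[ℂ] K} (h : w * star w * w = w) : star w * w * star w = star w := by
  have := congrArg star h
  rwa [star_mul, star_mul, star_star, ← mul_assoc] at this

section SB

variable (t c P : K →L[ℂ] K)

/-- auxiliary span -/
def sbspan : Submodule ℂ K :=
  Submodule.span ℂ {w : K | ∃ (n : ℕ) (x : K), w = (t ^ n * (c - P)) x}

/-- auxiliary projection -/
noncomputable def sbD : K →L[ℂ] K :=
  haveI : CompleteSpace (sbspan t c P).topologicalClosure :=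
    (Submodule.isClosed_topologicalClosure _).completeSpace_coe
  (sbspan t c P).topologicalClosure.starProjection

lemma sbD_proj : IsStarProjection (sbD t c P) := by
  have : CompleteSpace (sbspan t c P).topologicalClosure :=
    (Submodule.isClosed_topologicalClosure _).completeSpace_coe
  exact isStarProjection_starProjection

lemma sbD_mul (n : ℕ) : sbD t c P * (t ^ n * (c - P)) = t ^ n * (c - P) := by
  have : CompleteSpace (sbspan t c P).topologicalClosure :=
    (Submodule.isClosed_topologicalClosure _).completeSpace_coe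
  ext x
  exact Submodule.starProjection_eq_self_iff.2
    (Submodule.le_topologicalClosure _ (Submodule.subset_span ⟨n, x, rfl⟩))

lemma mul_sbD {B : K →L[ℂ] K} (h : ∀ n : ℕ, B * (t ^ n * (c - P)) = 0) : B * sbD t c P = 0 := by
  have : CompleteSpace (sbspan t c P).topologicalClosure :=
    (Submodule.isClosed_topologicalClosure _).completeSpace_coe
  ext x
  change B (sbD t c P x) = 0
  have hcl : IsClosed {z : K | B z = 0} := isClosed_eq (by fun_prop) continuous_const
  have hmem : sbD t c P x ∈ closure ((sbspan t c P : Submodule ℂ K) : Set K) :=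
    Submodule.starProjection_apply_mem (sbspan t c P).topologicalClosure x
  refine closure_minimal ?_ hcl hmem
  intro w hw
  refine Submodule.span_induction (p := fun y _ => B y = 0) ?_ ?_ ?_ ?_ hw
  · rintro _ ⟨n, y, rfl⟩
    exact congrArg (fun R : K →L[ℂ] K => R y) (h n)
  · exact map_zero B
  · intro a b _ _ ha hb; rw [map_add, ha, hb, add_zero]
  · intro r a _ ha; rw [map_smul, ha, smul_zero]

lemma sbD_mem (M : VonNeumannAlgebra K) (htM : t ∈ M) (hcM : c ∈ M) (hPM : P ∈ M) :
    sbD t c P ∈ M := by
  apply mem_of_commutant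
  have hs : star (sbD t c P) = sbD t c P := (sbD_proj t c P).isSelfAdjoint
  have hnM : ∀ n : ℕ, t ^ n * (c - P) ∈ M := fun n => mul_mem (pow_mem htM n) (sub_mem hcM hPM)
  have key : ∀ T ∈ M.commutant, (1 - sbD t c P) * T * sbD t c P = 0 := by
    intro T hT
    apply mul_sbD
    intro n
    rw [mul_assoc, commutant_comm M (hnM n) hT, ← mul_assoc, sub_mul, one_mul, sbD_mul, sub_self,
      zero_mul]
  intro T hT
  have h1 := key T hT
  have h2 := congrArg star (key (star T) (star_mem hT))
  rw [star_mul, star_mul, star_star, star_sub, star_one, hs, star_zero] at h2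
  rw [sub_mul, one_mul, sub_mul, sub_eq_zero] at h1
  rw [mul_sub, mul_one, mul_sub, sub_eq_zero, ← mul_assoc] at h2
  exact h1.trans h2.symm

/-- Schröder–Bernstein -/
theorem schroeder_bernstein (M : VonNeumannAlgebra K) (htM : t ∈ M) (hcM : c ∈ M) (hPM : P ∈ M)
    (hc : IsStarProjection c) (hP : IsStarProjection P) (hcP : c * P = P)
    (htt : star t * t = c) (hPt : P * t = t) :
    ∃ s ∈ M, star s * s = c ∧ s * star s = P := by
  have hcs : star c = c := hc.isSelfAdjoint
  have hcc : c * c = c := hc.isIdempotentElem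
  have hPs : star P = P := hP.isSelfAdjoint
  have hPP : P * P = P := hP.isIdempotentElem
  have hPc : P * c = P := by
    have := congrArg star hcP
    rwa [star_mul, hcs, hPs] at this
  have hct : c * t = t := by rw [← hPt, ← mul_assoc, hcP]
  set D := sbD t c P with hD
  have hDp : IsStarProjection D := sbD_proj t c P
  have hDs : star D = D := hDp.isSelfAdjoint
  have hDD : D * D = D := hDp.isIdempotentElem
  have hDM : D ∈ M := sbD_mem t c P M htM hcM hPM
  have hcPz : (c - P) * t = 0 := by rw [sub_mul, hct, hPt, sub_self]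
  have hcPz' : star t * (c - P) = 0 := by
    have := congrArg star hcPz
    rwa [star_mul, star_sub, hcs, hPs, star_zero] at this
  have hcn : ∀ n : ℕ, c * (t ^ n * (c - P)) = t ^ n * (c - P) := by
    intro n
    cases n with
    | zero => rw [pow_zero, one_mul, mul_sub, hcc, hcP]
    | succ n => rw [pow_succ', mul_assoc, ← mul_assoc, hct]
  have hcD : c * D = D := by
    have := mul_sbD t c P (B := c - 1) fun n => by rw [sub_mul, one_mul, hcn, sub_self]
    rwa [sub_mul, one_mul, sub_eq_zero] at this
  have hDc : D * c = D := by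
    have := congrArg star hcD
    rwa [star_mul, hcs, hDs] at this
  have htD : D * (t * D) = t * D := by
    have := mul_sbD t c P (B := (D - 1) * t) fun n => by
      have e : (D - 1) * t * (t ^ n * (c - P)) = D * (t ^ (n + 1) * (c - P)) -
          t ^ (n + 1) * (c - P) := by rw [pow_succ']; noncomm_ring
      rw [e, hD, sbD_mul, sub_self]
    rw [sub_mul, one_mul, sub_mul, sub_eq_zero, mul_assoc] at this
    exact this
  set D' : K →L[ℂ] K := (c - P) + t * D * star t with hD'
  have hD's : star D' = D' := by
    rw [hD', star_add, star_sub, star_mul, star_mul, star_star, hcs, hPs, hDs]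
    noncomm_ring
  have h1 : D' * D = D := by
    have := mul_sbD t c P (B := D' - 1) fun n => by
      cases n with
      | zero =>
        rw [pow_zero, one_mul, sub_mul, one_mul, hD', add_mul, mul_assoc (t * D), hcPz', mul_zero,
          add_zero, sub_mul, mul_sub, mul_sub, hcc, hcP, hPc, hPP]
        abel
      | succ n =>
        have e1 : (c - P) * (t ^ (n + 1) * (c - P)) = 0 := by
          rw [pow_succ', mul_assoc t, ← mul_assoc, hcPz, zero_mul]
        have e2 : t * D * star t * (t ^ (n + 1) * (c - P)) = t ^ (n + 1) * (c - P) := by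
          calc t * D * star t * (t ^ (n + 1) * (c - P))
              = t * D * ((star t * t) * (t ^ n * (c - P))) := by rw [pow_succ']; noncomm_ring
            _ = t * (D * (t ^ n * (c - P))) := by rw [htt, hcn]; noncomm_ring
            _ = t * (t ^ n * (c - P)) := by rw [hD, sbD_mul]
            _ = _ := by rw [pow_succ']; noncomm_ring
        rw [sub_mul, one_mul, hD', add_mul, e1, e2, zero_add, sub_self]
    rwa [sub_mul, one_mul, sub_eq_zero] at this
  have h2 : D * D' = D' := by
    have e0 : D * (c - P) = c - P := by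
      have := sbD_mul t c P 0
      rwa [pow_zero, one_mul] at this
    rw [hD', mul_add, e0]
    congr 1
    calc D * (t * D * star t) = D * (t * D) * star t := by noncomm_ring
      _ = _ := by rw [htD]
  have h3 : D = D' := by
    have := congrArg star h2
    rw [star_mul, hDs, hD's, h1] at this
    exact this
  have hctD : (c - D) * (t * D) = 0 := by
    rw [sub_mul, htD, ← mul_assoc, hct, sub_self]
  have hctD' : D * star t * (c - D) = 0 := by
    have := congrArg star hctD
    rwa [star_mul, star_mul, star_sub, hcs, hDs, star_zero] at this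
  have hcDcD : (c - D) * (c - D) = c - D := by
    rw [sub_mul, mul_sub, mul_sub, hcc, hcD, hDc, hDD]; abel
  refine ⟨t * D + (c - D), add_mem (mul_mem htM hDM) (sub_mem hcM hDM), ?_, ?_⟩
  · rw [star_add, star_mul, star_sub, hcs, hDs]
    calc (D * star t + (c - D)) * (t * D + (c - D))
        = D * (star t * t) * D + D * star t * (c - D) + (c - D) * (t * D)
          + (c - D) * (c - D) := by noncomm_ring
      _ = c := by
        rw [htt, hctD', hctD, hcDcD, hDc, hDD]; abel
  · rw [star_add, star_mul, star_sub, hcs, hDs]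
    have e1 : D * (c - D) = 0 := by rw [mul_sub, hDc, hDD, sub_self]
    have e2 : (c - D) * D = 0 := by rw [sub_mul, hcD, hDD, sub_self]
    calc (t * D + (c - D)) * (D * star t + (c - D))
        = t * (D * D) * star t + t * (D * (c - D)) + ((c - D) * D) * star t
          + (c - D) * (c - D) := by noncomm_ring
      _ = t * D * star t + (c - D) := by rw [hDD, e1, e2, hcDcD]; simp
      _ = t * D * star t + (c - D') := by rw [← h3]
      _ = P := by rw [hD']; abel

end SB

/-- An infinite family of equivalent orthogonal projections gives a properly infinite central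
piece. -/
theorem main_PI (M : VonNeumannAlgebra K) {e₀ : K →L[ℂ] K} (he₀ : IsStarProjection e₀)
    (he₀M : e₀ ∈ M) (he₀0 : e₀ ≠ 0) (T₀ : Set (K →L[ℂ] K)) (hinf : T₀.Infinite)
    (hT₀ : ∀ t ∈ T₀, t ∈ M ∧ star t * t = e₀)
    (hT₀' : ∀ t ∈ T₀, ∀ t' ∈ T₀, t ≠ t' → star t * t' = 0)
    {z : K →L[ℂ] K} (hzM : z ∈ M) (hz : IsStarProjection z) (hzc : ∀ x ∈ M, z * x = x * z)
    (hze : z * e₀ = e₀) :
    ∃ c ∈ M, IsStarProjection c ∧ (∀ x ∈ M, c * x = x * c) ∧ c ≠ 0 ∧ z * c = c ∧ PIc M c := by
  have hes : star e₀ = e₀ := he₀.isSelfAdjoint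
  have hee : e₀ * e₀ = e₀ := he₀.isIdempotentElem
  obtain ⟨𝒯, hsub, hPr, hR, hmax⟩ := zorn_pair
    (fun t : K →L[ℂ] K => t ∈ M ∧ star t * t = e₀) (fun t t' => star t * t' = 0) T₀ hT₀ hT₀'
  have hte : ∀ t ∈ 𝒯, t * e₀ = t := by
    intro t ht
    have h := (hPr t ht).2
    have h1 : star (t * e₀ - t) * (t * e₀ - t) = 0 := by
      rw [star_sub, star_mul, hes]
      calc (e₀ * star t - star t) * (t * e₀ - t)
          = e₀ * (star t * t) * e₀ - e₀ * (star t * t) - (star t * t) * e₀ + star t * t := by
            noncomm_ring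
        _ = 0 := by rw [h, hee, hee]; abel
    have h2 := CStarRing.star_mul_self_eq_zero_iff _ |>.1 h1
    rwa [sub_eq_zero] at h2
  -- projections `t t*`
  set SP : Set (K →L[ℂ] K) := (fun t => t * star t) '' 𝒯 with hSP
  have hSPp : ∀ q ∈ SP, IsStarProjection q := by
    rintro _ ⟨t, ht, rfl⟩
    refine ⟨?_, ?_⟩
    · change t * star t * (t * star t) = t * star t
      calc t * star t * (t * star t) = t * (star t * t) * star t := by noncomm_ring
        _ = _ := by rw [(hPr t ht).2, hte t ht]
    · rw [IsSelfAdjoint, star_mul, star_star]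
  have hSPR : ∀ q ∈ SP, ∀ q' ∈ SP, q ≠ q' → q * q' = 0 := by
    rintro _ ⟨t, ht, rfl⟩ _ ⟨t', ht', rfl⟩ hne
    have hne' : t ≠ t' := fun h => hne (by rw [h])
    calc t * star t * (t' * star t') = t * (star t * t') * star t' := by noncomm_ring
      _ = 0 := by rw [hR t ht t' ht' hne']; simp
  have hSPsys : OrthSys SP := by
    refine ⟨fun q hq => ?_, fun q hq q' hq' hne => ?_, fun q hq q' hq' hne => ?_⟩
    · have h := hSPp q hq
      rw [h.isSelfAdjoint.star_eq, h.isIdempotentElem.eq, h.isIdempotentElem.eq]
    · rw [(hSPp q hq).isSelfAdjoint.star_eq]; exact hSPR q hq q' hq' hne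
    · rw [(hSPp q' hq').isSelfAdjoint.star_eq]; exact hSPR q hq q' hq' hne
  obtain ⟨G, hG⟩ := hSPsys.exists_sum
  obtain ⟨hGp, hGq⟩ := sum_proj hSPsys hSPp hG
  have hSPM : ∀ q ∈ SP, q ∈ M := by
    rintro _ ⟨t, ht, rfl⟩
    exact mul_mem (hPr t ht).1 (star_mem (hPr t ht).1)
  have hGM : G ∈ M := mem_of_commutant M G fun T hT =>
    sum_mul_comm hG T fun w hw => commutant_comm M (hSPM w hw) hT
  have hGs : star G = G := hGp.isSelfAdjoint
  have hGG : G * G = G := hGp.isIdempotentElem
  have hGt : ∀ t ∈ 𝒯, G * t = t := by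
    intro t ht
    have h1 := (hGq (t * star t) ⟨t, ht, rfl⟩).2
    have h2 := (hPr t ht).2
    calc G * t = G * (t * e₀) := by rw [hte t ht]
      _ = G * (t * star t) * t := by rw [← h2]; noncomm_ring
      _ = t * (star t * t) := by rw [h1, mul_assoc]
      _ = t := by rw [h2, hte t ht]
  set r : K →L[ℂ] K := 1 - G with hr
  have hrM : r ∈ M := sub_mem (one_mem M) hGM
  have hrs : star r = r := by rw [hr, star_sub, star_one, hGs]
  have hrr : r * r = r := by rw [hr, sub_mul, one_mul, mul_sub, mul_one, hGG, sub_self, sub_zero]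
  have hrt : ∀ t ∈ 𝒯, r * t = 0 := by
    intro t ht; rw [hr, sub_mul, one_mul, hGt t ht, sub_self]
  -- maximal partial isometry from `r` into `e₀`
  obtain ⟨S, -, hPr2, hR2, hmax2⟩ := zorn_pair
    (fun w : K →L[ℂ] K => w * star w * w = w ∧ w ∈ M ∧ e₀ * w = w ∧ w * r = w)
    (fun w w' => star w * w' = 0 ∧ w * star w' = 0) ∅ (by simp) (by simp)
  have hS : OrthSys S := ⟨fun w hw => (hPr2 w hw).1, fun w hw w' hw' hne => (hR2 w hw w' hw' hne).1,
    fun w hw w' hw' hne => (hR2 w hw w' hw' hne).2⟩
  obtain ⟨W, hW⟩ := hS.exists_sum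
  have hWM : W ∈ M := mem_of_commutant M W fun T hT =>
    sum_mul_comm hW T fun w hw => commutant_comm M (hPr2 w hw).2.1 hT
  have heW : e₀ * W = W := by
    have := sum_mul_eq_zero hW (1 - e₀) fun w hw => by
      rw [sub_mul, one_mul, (hPr2 w hw).2.2.1, sub_self]
    rw [sub_mul, one_mul, sub_eq_zero] at this
    exact this.symm
  have hWr : W * r = W := by
    have := mul_sum_eq_zero hW (1 - r) fun w hw => by
      rw [mul_sub, mul_one, (hPr2 w hw).2.2.2, sub_self]
    rw [mul_sub, mul_one, sub_eq_zero] at this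
    exact this.symm
  have hWpi : W * star W * W = W := sum_mul_star_mul_sum hW hS
  have hWpi' : star W * W * star W = star W := by
    have := congrArg star hWpi
    rwa [star_mul, star_mul, star_star, ← mul_assoc] at this
  have hrsW : r * star W = star W := by
    have := congrArg star hWr
    rwa [star_mul, hrs] at this
  have hsWe : star W * e₀ = star W := by
    have := congrArg star heW
    rwa [star_mul, hes] at this
  set d : K →L[ℂ] K := e₀ - W * star W with hd
  have hdM : d ∈ M := sub_mem he₀M (mul_mem hWM (star_mem hWM))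
  have hds : star d = d := by rw [hd, star_sub, star_mul, star_star, hes]
  have hdd : d * d = d := by
    rw [hd]
    calc (e₀ - W * star W) * (e₀ - W * star W)
        = e₀ * e₀ - (e₀ * W) * star W - W * (star W * e₀) + (W * star W * W) * star W := by
          noncomm_ring
      _ = _ := by rw [hee, heW, hsWe, hWpi]; abel
  have hd0 : d ≠ 0 := by
    intro h0
    rw [hd, sub_eq_zero] at h0
    have hmem : star W ∈ 𝒯 := by
      refine hmax (star W) ⟨star_mem hWM, by rw [star_star]; exact h0.symm⟩ ?_
      intro t ht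
      have e1 : W * t = 0 := by rw [← hWr, mul_assoc, hrt t ht, mul_zero]
      refine ⟨by rw [star_star]; exact e1, ?_⟩
      have := congrArg star e1
      rwa [star_mul, star_zero] at this
    have h1 := hGt _ hmem
    have h2 : G * star W = 0 := by
      rw [← hrsW, ← mul_assoc, hr, mul_sub, mul_one, hGG, sub_self, zero_mul]
    rw [h2] at h1
    apply he₀0
    rw [h0, ← h1, mul_zero]
  set d2 : K →L[ℂ] K := r - star W * W with hd2
  have hd2M : d2 ∈ M := sub_mem hrM (mul_mem (star_mem hWM) hWM)
  have hd2s : star d2 = d2 := by rw [hd2, star_sub, star_mul, star_star, hrs]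
  have hd2d2 : d2 * d2 = d2 := by
    rw [hd2]
    calc (r - star W * W) * (r - star W * W)
        = r * r - (r * star W) * W - star W * (W * r) + (star W * W * star W) * W := by
          noncomm_ring
      _ = _ := by rw [hrr, hrsW, hWr, hWpi']; abel
  have hed : e₀ * d = d := by rw [hd, mul_sub, hee, ← mul_assoc, heW]
  have hd2r : d2 * r = d2 := by rw [hd2, sub_mul, hrr, mul_assoc, hWr]
  have hzero : ∀ x ∈ M, d * x * d2 = 0 := by
    intro x hx
    by_contra hne
    obtain ⟨v, hvM, hvpi, hvx, hvl, hvr⟩ := polarM M (mul_mem (mul_mem hdM hx) hd2M)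
    have hv0 : v ≠ 0 := by
      intro h0; apply hne; rw [← hvx, h0, zero_mul]
    have hdv : d * v = v := by
      have := hvl (1 - d) (by rw [sub_mul, one_mul, ← mul_assoc, ← mul_assoc, hdd, sub_self])
      rw [sub_mul, one_mul, sub_eq_zero] at this
      exact this.symm
    have hvd : v * d2 = v := by
      have := hvr (1 - d2) (by rw [mul_sub, mul_one, mul_assoc (d * x) d2 d2, hd2d2, sub_self])
      rw [mul_sub, mul_one, sub_eq_zero] at this
      exact this.symm
    have hwd : ∀ w ∈ S, d * w = 0 := by
      intro w hw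
      rw [hd, sub_mul, (hPr2 w hw).2.2.1, mul_assoc, star_sum_mul hW hS hw, ← mul_assoc,
        sum_mul_star hW hS hw, hS.pi w hw, sub_self]
    have hwd2 : ∀ w ∈ S, w * d2 = 0 := by
      intro w hw
      rw [hd2, mul_sub, (hPr2 w hw).2.2.2, ← mul_assoc, mul_star_sum hW hS hw,
        mul_assoc w (star w), star_mul_sum hW hS hw, ← mul_assoc, hS.pi w hw, sub_self]
    have hsv : star v * d = star v := by
      have := congrArg star hdv
      rwa [star_mul, hds] at this
    have hsv2 : d2 * star v = star v := by
      have := congrArg star hvd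
      rwa [star_mul, hd2s] at this
    have hvS : v ∈ S := by
      refine hmax2 v ⟨hvpi, hvM, by rw [← hdv, ← mul_assoc, hed],
        by rw [← hvd, mul_assoc, hd2r]⟩ ?_
      intro w hw
      have a1 : star v * w = 0 := by rw [← hsv, mul_assoc, hwd w hw, mul_zero]
      have a2 : w * star v = 0 := by rw [← hsv2, ← mul_assoc, hwd2 w hw, zero_mul]
      refine ⟨⟨a1, ?_⟩, ?_, a2⟩
      · have := congrArg star a2
        rwa [star_mul, star_star, star_zero] at this
      · have := congrArg star a1
        rwa [star_mul, star_star, star_zero] at this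
    apply hv0
    rw [← hdv, hwd v hvS]
  -- the central projection
  set c : K →L[ℂ] K := csupp M d with hc
  have hcM : c ∈ M := csupp_mem M d hdM
  have hcp : IsStarProjection c := csupp_proj M d
  have hcc : c * c = c := hcp.isIdempotentElem
  have hcs : star c = c := hcp.isSelfAdjoint
  have hccomm : ∀ x ∈ M, c * x = x * c := fun x hx => csupp_comm M d hdM x (Or.inl hx)
  have hcd : c * d = d := csupp_mul_self M d
  have hkill : ∀ B : K →L[ℂ] K, (∀ x ∈ M, B * (x * d) = 0) → B * c = 0 := by
    intro B hB
    ext t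
    change B (c t) = 0
    have hcl : IsClosed {z : K | B z = 0} := isClosed_eq (by fun_prop) continuous_const
    have hmem' : c t ∈ closure ((spanP M d : Submodule ℂ K) : Set K) := csupp_apply_mem M d t
    refine closure_minimal ?_ hcl hmem'
    intro w hw
    refine Submodule.span_induction (p := fun y _ => B y = 0) ?_ ?_ ?_ ?_ hw
    · rintro _ ⟨x, hx, s, rfl⟩
      exact congrArg (fun R : K →L[ℂ] K => R s) (hB x hx)
    · exact map_zero _
    · intro a b _ _ ha hb; rw [map_add, ha, hb, add_zero]
    · intro r a _ ha; rw [map_smul, ha, smul_zero]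
  have hd2c : d2 * c = 0 := by
    apply hkill
    intro x hx
    have := congrArg star (hzero (star x) (star_mem hx))
    rw [star_mul, star_mul, star_star, hds, hd2s, star_zero] at this
    exact this
  have hzc' : z * c = c := by
    have : (1 - z) * c = 0 := by
      apply hkill
      intro x hx
      have hzd : z * d = d := by rw [← hed, ← mul_assoc, hze]
      rw [sub_mul, one_mul, ← mul_assoc, hzc x hx, mul_assoc, hzd, sub_self]
    rw [sub_mul, one_mul, sub_eq_zero] at this
    exact this.symm
  have hc0 : c ≠ 0 := by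
    intro h0; apply hd0; rw [← hcd, h0, zero_mul]
  have hrc : r * c = star W * W * c := by
    rw [hd2, sub_mul, sub_eq_zero] at hd2c
    exact hd2c
  have hcsum : (G + star W * W) * c = c := by
    rw [add_mul, ← hrc, hr, sub_mul, one_mul]; abel
  -- cardinality
  have hinf' : Infinite 𝒯 := (hinf.mono hsub).to_subtype
  obtain ⟨κ⟩ : Nonempty (Option 𝒯 ⊕ Option 𝒯 ≃ 𝒯) := by
    rw [← Cardinal.eq, Cardinal.mk_sum, Cardinal.mk_option]
    have h0 : Cardinal.aleph0 ≤ Cardinal.mk 𝒯 := Cardinal.aleph0_le_mk _
    rw [Cardinal.add_one_eq h0, Cardinal.lift_id, Cardinal.add_eq_self h0]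
  -- the two isometries
  have hbuild : ∀ j : Option 𝒯 → 𝒯, Function.Injective j →
      ∃ T ∈ M, star T * T * c = c ∧ (∀ B : K →L[ℂ] K, (∀ a, B * (j a : K →L[ℂ] K) = 0) → B * T = 0) := by
    intro j hj
    set X : Option 𝒯 → K →L[ℂ] K := fun a => a.elim W (fun i => star (i : K →L[ℂ] K)) with hX
    have hXn : X none = W := rfl
    have hXs : ∀ i : 𝒯, X (some i) = star (i : K →L[ℂ] K) := fun _ => rfl
    have hWi : ∀ i : 𝒯, W * (i : K →L[ℂ] K) = 0 := by
      intro i; rw [← hWr, mul_assoc, hrt i i.2, mul_zero]
    have heX : ∀ a, e₀ * X a = X a := by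
      rintro (_ | i)
      · exact heW
      · have := congrArg star (hte i i.2)
        rwa [star_mul, hes] at this
    have hXpi : ∀ a, X a * star (X a) * X a = X a := by
      rintro (_ | i)
      · exact hWpi
      · rw [hXs, star_star, (hPr i i.2).2]
        exact heX (some i)
    have hXX : ∀ a b, a ≠ b → X a * star (X b) = 0 := by
      rintro (_ | i) (_ | i') hne
      · exact absurd rfl hne
      · rw [hXn, hXs, star_star]; exact hWi i'
      · rw [hXn, hXs, ← star_mul, hWi i, star_zero]
      · rw [hXs, hXs, star_star]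
        exact hR i i.2 i' i'.2 (fun h => hne (by rw [Subtype.ext h]))
    set v : Option 𝒯 → K →L[ℂ] K := fun a => (j a : K →L[ℂ] K) * X a with hv
    have hjM : ∀ a, (j a : K →L[ℂ] K) ∈ M := fun a => (hPr _ (j a).2).1
    have hXM : ∀ a, X a ∈ M := by
      rintro (_ | i)
      · exact hWM
      · exact star_mem (hPr i i.2).1
    have hjj : ∀ a, star (j a : K →L[ℂ] K) * (j a : K →L[ℂ] K) = e₀ := fun a => (hPr _ (j a).2).2
    have hjj' : ∀ a b, a ≠ b → star (j a : K →L[ℂ] K) * (j b : K →L[ℂ] K) = 0 := by
      intro a b hne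
      exact hR _ (j a).2 _ (j b).2 (fun h => hne (hj (Subtype.ext h)))
    have hvsys : OrthSys (Set.range v) := by
      refine ⟨?_, ?_, ?_⟩
      · rintro _ ⟨a, rfl⟩
        simp only [hv, star_mul]
        calc (j a : K →L[ℂ] K) * X a * (star (X a) * star (j a : K →L[ℂ] K))
              * ((j a : K →L[ℂ] K) * X a)
            = (j a : K →L[ℂ] K) * (X a * star (X a))
              * ((star (j a : K →L[ℂ] K) * (j a : K →L[ℂ] K)) * X a) := by noncomm_ring
          _ = (j a : K →L[ℂ] K) * (X a * star (X a) * X a) := by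
            rw [hjj, heX]; noncomm_ring
          _ = _ := by rw [hXpi]
      · rintro _ ⟨a, rfl⟩ _ ⟨b, rfl⟩ hne
        have hab : a ≠ b := fun h => hne (by rw [h])
        simp only [hv, star_mul]
        calc star (X a) * star (j a : K →L[ℂ] K) * ((j b : K →L[ℂ] K) * X b)
            = star (X a) * (star (j a : K →L[ℂ] K) * (j b : K →L[ℂ] K)) * X b := by noncomm_ring
          _ = 0 := by rw [hjj' a b hab]; simp
      · rintro _ ⟨a, rfl⟩ _ ⟨b, rfl⟩ hne
        have hab : a ≠ b := fun h => hne (by rw [h])
        simp only [hv, star_mul]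
        calc (j a : K →L[ℂ] K) * X a * (star (X b) * star (j b : K →L[ℂ] K))
            = (j a : K →L[ℂ] K) * (X a * star (X b)) * star (j b : K →L[ℂ] K) := by noncomm_ring
          _ = 0 := by rw [hXX a b hab]; simp
    obtain ⟨T, hT⟩ := hvsys.exists_sum
    have hTM : T ∈ M := mem_of_commutant M T fun B hB =>
      sum_mul_comm hT B fun w hw => by
        obtain ⟨a, rfl⟩ := hw
        exact commutant_comm M (mul_mem (hjM a) (hXM a)) hB
    have hTX : ∀ a, star T * T * star (X a) = star (X a) := by
      intro a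
      have h1 : T * star (v a) = v a * star (v a) := sum_mul_star hT hvsys ⟨a, rfl⟩
      have h2 : star T * v a = star (v a) * v a := star_sum_mul hT hvsys ⟨a, rfl⟩
      have h3 : star T * T * star (v a) = star (v a) := by
        rw [mul_assoc, h1, ← mul_assoc, h2]
        exact pi_star (hvsys.pi (v a) ⟨a, rfl⟩)
      have h4 : star (v a) * (j a : K →L[ℂ] K) = star (X a) := by
        simp only [hv, star_mul]
        rw [mul_assoc, hjj]
        have := congrArg star (heX a)
        rwa [star_mul, hes] at this
      rw [← h4, ← mul_assoc, h3]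
    refine ⟨T, hTM, ?_, ?_⟩
    · have hTG : star T * T * G = G := by
        have := sum_mul_eq_zero hG (star T * T - 1) fun q hq => by
          obtain ⟨i, hi, rfl⟩ := hq
          have h5 := hTX (some ⟨i, hi⟩)
          rw [hXs, star_star] at h5
          change (star T * T - 1) * (i * star i) = 0
          rw [sub_mul, one_mul, ← mul_assoc, h5, sub_self]
        rwa [sub_mul, one_mul, sub_eq_zero] at this
      have hTW : star T * T * (star W * W) = star W * W := by
        have h5 := hTX none
        rw [hXn] at h5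
        rw [← mul_assoc, h5]
      calc star T * T * c = star T * T * ((G + star W * W) * c) := by rw [hcsum]
        _ = (star T * T * G + star T * T * (star W * W)) * c := by noncomm_ring
        _ = c := by rw [hTG, hTW, hcsum]
    · intro B hB
      refine sum_mul_eq_zero hT B fun w hw => ?_
      obtain ⟨a, rfl⟩ := hw
      simp only [hv]
      rw [← mul_assoc, hB a, zero_mul]
  obtain ⟨T₁, hT₁M, hT₁c, hT₁z⟩ := hbuild (fun a => κ (Sum.inl a))
    (fun a b h => Sum.inl_injective (κ.injective h))
  obtain ⟨T₂, hT₂M, hT₂c, hT₂z⟩ := hbuild (fun a => κ (Sum.inr a))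
    (fun a b h => Sum.inr_injective (κ.injective h))
  have hcross : star T₁ * T₂ = 0 := by
    apply hT₂z
    intro b
    have h1 : star (κ (Sum.inr b) : K →L[ℂ] K) * T₁ = 0 := by
      apply hT₁z
      intro a
      refine hR _ (κ (Sum.inr b)).2 _ (κ (Sum.inl a)).2 (fun h => ?_)
      have := κ.injective (Subtype.ext h)
      exact absurd this Sum.inr_ne_inl
    have := congrArg star h1
    rwa [star_mul, star_star, star_zero] at this
  set s₁ : K →L[ℂ] K := T₁ * c with hs₁
  set t : K →L[ℂ] K := T₂ * c with ht
  have hs₁M : s₁ ∈ M := mul_mem hT₁M hcM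
  have htM : t ∈ M := mul_mem hT₂M hcM
  have hs₁s : star s₁ * s₁ = c := by
    rw [hs₁, star_mul, hcs]
    calc c * star T₁ * (T₁ * c) = c * (star T₁ * T₁ * c) := by noncomm_ring
      _ = c := by rw [hT₁c, hcc]
  have htt : star t * t = c := by
    rw [ht, star_mul, hcs]
    calc c * star T₂ * (T₂ * c) = c * (star T₂ * T₂ * c) := by noncomm_ring
      _ = c := by rw [hT₂c, hcc]
  have hs₁c : c * s₁ = s₁ := by
    rw [hs₁, ← mul_assoc, hccomm T₁ hT₁M, mul_assoc, hcc]
  have hs₁c' : s₁ * c = s₁ := by rw [hs₁, mul_assoc, hcc]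
  have htc : c * t = t := by
    rw [ht, ← mul_assoc, hccomm T₂ hT₂M, mul_assoc, hcc]
  have hst : star s₁ * t = 0 := by
    rw [hs₁, ht, star_mul]
    calc star c * star T₁ * (T₂ * c) = star c * (star T₁ * T₂) * c := by noncomm_ring
      _ = 0 := by rw [hcross]; simp
  set P : K →L[ℂ] K := c - s₁ * star s₁ with hP
  have hPM : P ∈ M := sub_mem hcM (mul_mem hs₁M (star_mem hs₁M))
  have hs₁cs : star s₁ * c = star s₁ := by
    have := congrArg star hs₁c
    rwa [star_mul, hcs] at this
  have hPp : IsStarProjection P := by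
    refine ⟨?_, ?_⟩
    · change P * P = P
      rw [hP]
      calc (c - s₁ * star s₁) * (c - s₁ * star s₁)
          = c * c - (c * s₁) * star s₁ - s₁ * (star s₁ * c)
            + s₁ * (star s₁ * s₁) * star s₁ := by noncomm_ring
        _ = _ := by rw [hcc, hs₁c, hs₁cs, hs₁s, hs₁c']; abel
    · rw [IsSelfAdjoint, hP, star_sub, star_mul, star_star, hcs]
  have hcP : c * P = P := by
    rw [hP, mul_sub, hcc, ← mul_assoc, hs₁c]
  have hPt : P * t = t := by
    rw [hP, sub_mul, htc, mul_assoc, hst, mul_zero, sub_zero]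
  obtain ⟨s₂, hs₂M, hs₂1, hs₂2⟩ := schroeder_bernstein t c P M htM hcM hPM hcp hPp hcP htt hPt
  exact ⟨c, hcM, hcp, hccomm, hc0, hzc', s₁, hs₁M, s₂, hs₂M, hs₁s, hs₂1, by
    rw [hs₂2, hP]; abel⟩

end Crest.Agent.R121
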