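import Crest.Agent.R121.Dich
import Crest.Agent.R121.Defs

/-!
# Row 121: the dichotomy (interface form)
-/

set_option autoImplicit false

namespace Crest.Agent.R121

open scoped InnerProductSpace

variable {H : Type*} [NormedAddCommGroup H] [InnerProductSpace ℂ H] [CompleteSpace H]

lemma orth_of_add {P Q : H →L[ℂ] H} (hPP : P * P = P) (hQQ : Q * Q = Q)
    (h : (P + Q) * (P + Q) = P + Q) : P * Q = 0 := by
  have h1 : P * Q + Q * P = 0 := by
    have h3 : (P + Q) * (P + Q) = (P * P + Q * Q) + (P * Q + Q * P) := by noncomm_ring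
    rw [h3, hPP, hQQ, add_eq_left] at h
    exact h
  have h4 : P * Q = -(Q * P) := eq_neg_of_add_eq_zero_left h1
  have h5 : P * Q = Q * P := by
    calc P * Q = (P * P) * Q := by rw [hPP]
      _ = P * (P * Q) := mul_assoc _ _ _
      _ = P * (-(Q * P)) := by rw [h4]
      _ = -(P * Q * P) := by rw [mul_neg, mul_assoc]
      _ = -(-(Q * P) * P) := by rw [h4]
      _ = Q * (P * P) := by rw [neg_mul, neg_neg, mul_assoc]
      _ = Q * P := by rw [hPP]
  have h7 : (2 : ℂ) • (P * Q) = 0 := by
    rw [two_smul]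
    nth_rewrite 2 [h5]
    exact h1
  exact (smul_eq_zero.1 h7).resolve_left two_ne_zero

lemma pi_of_proj {s c : H →L[ℂ] H} (h : star s * s = c) (hc : c * c = c) : s * c = s := by
  have hcs : star c = c := by rw [← h, star_mul, star_star]
  have h1 : star (s * c - s) * (s * c - s) = 0 := by
    rw [star_sub, star_mul, hcs]
    calc (c * star s - star s) * (s * c - s)
        = c * (star s * s) * c - c * (star s * s) - (star s * s) * c + star s * s := by
          noncomm_ring
      _ = 0 := by rw [h, hc, hc]; abel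
  have h2 := (CStarRing.star_mul_self_eq_zero_iff (s * c - s)).1 h1
  exact sub_eq_zero.1 h2

lemma star_mul_eq_zero_of_add {s t c : H →L[ℂ] H} (hs : star s * s = c) (ht : star t * t = c)
    (hc : c * c = c) (h : s * star s + t * star t = c) : star s * t = 0 := by
  have hcs : star c = c := by rw [← hs, star_mul, star_star]
  have hsc := pi_of_proj hs hc
  have htc := pi_of_proj ht hc
  have hcss : c * star s = star s := by
    have := congrArg star hsc
    rwa [star_mul, hcs] at this
  have hPP : s * star s * (s * star s) = s * star s := by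
    calc s * star s * (s * star s) = s * (star s * s) * star s := by noncomm_ring
      _ = s * star s := by rw [hs, hsc]
  have hQQ : t * star t * (t * star t) = t * star t := by
    calc t * star t * (t * star t) = t * (star t * t) * star t := by noncomm_ring
      _ = t * star t := by rw [ht, htc]
  have h6 := orth_of_add hPP hQQ (h ▸ hc)
  calc star s * t = (c * star s) * (t * c) := by rw [hcss, htc]
    _ = star s * (s * star s * (t * star t)) * t := by
        nth_rewrite 1 [← hs]
        nth_rewrite 1 [← ht]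
        noncomm_ring
    _ = 0 := by rw [h6]; simp

variable {M : VonNeumannAlgebra H}

/-- exact halving gives `IsPI` -/
theorem isPI_of_PIc {c : Al M} (hc : c * c = c) (h : PIc M (c : H →L[ℂ] H)) : IsPI c := by
  obtain ⟨s, hsM, t, htM, hs, ht, hst⟩ := h
  exact ⟨⟨s, hsM⟩, ⟨t, htM⟩, Subtype.ext hs, Subtype.ext ht, Subtype.ext
    (star_mul_eq_zero_of_add hs ht (congrArg Subtype.val hc) hst)⟩

theorem dich {p : Al M} (hp : IsCP M p) (h0 : p ≠ 0) :
    (∃ z : Al M, IsCP M z ∧ z ≠ 0 ∧ z * p = z ∧ IsPI z) ∨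
    ∃ (e : Al M) (ζ : H) (C : ℝ), IsStarProjection e ∧ e ≠ 0 ∧ p * e = e ∧ IsCTr e ζ C := by
  have hp' : IsStarProjection (p : H →L[ℂ] H) :=
    ⟨congrArg Subtype.val hp.proj.isIdempotentElem, congrArg Subtype.val hp.proj.isSelfAdjoint⟩
  rcases dichotomy M p.2 hp' (fun x hx => congrArg Subtype.val (hp.comm ⟨x, hx⟩))
    (fun h => h0 (Subtype.ext h)) with
    ⟨f, hfM, hf, hf0, hpf, ξ, C, hC, hfξ, htr, hfaith⟩ |
    ⟨c, hcM, hc, hcc, hc0, hzc, s, hsM, t, htM, hs, ht, hst⟩
  · refine Or.inr ⟨⟨f, hfM⟩, ξ, Real.sqrt C, ⟨Subtype.ext hf.isIdempotentElem,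
      Subtype.ext hf.isSelfAdjoint⟩, fun h => hf0 (congrArg Subtype.val h), Subtype.ext hpf,
      ⟨Real.sqrt_nonneg _, hfξ, ?_, ?_⟩⟩
    · intro x hx hx0
      exact Subtype.ext (hfaith x x.2 (congrArg Subtype.val hx) hx0)
    · intro x hx1 hx2
      have h1 := htr x x.2 (congrArg Subtype.val hx1) (congrArg Subtype.val hx2)
      refine le_of_sq_le_sq ?_ (by positivity)
      rw [mul_pow, Real.sq_sqrt hC]
      exact h1
  · refine Or.inl ⟨⟨c, hcM⟩, ⟨⟨Subtype.ext hc.isIdempotentElem, Subtype.ext hc.isSelfAdjoint⟩,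
      fun x => Subtype.ext (hcc x x.2)⟩, fun h => hc0 (congrArg Subtype.val h), ?_,
      ⟨s, hsM⟩, ⟨t, htM⟩, Subtype.ext hs, Subtype.ext ht, Subtype.ext ?_⟩
    · refine Subtype.ext ?_
      change c * (p : H →L[ℂ] H) = c
      rw [hcc p p.2, hzc]
    · exact star_mul_eq_zero_of_add hs ht hc.isIdempotentElem hst

end Crest.Agent.R121
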