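import Mathlib
import Crest.Agent.R121.Defs
import Crest.Agent.R121.AvgInv
import Crest.Agent.R121.CornerRho
import Crest.Agent.R121.Corner

/-!
# Row 121: the operator `ρ : End(M) → M` below an abelian projection

`typeI_rho`: if `e` is an abelian projection of `M` there is a linear contraction
`ρ : End(M) → M` with `ρ(bT) = b ρ(T)`, `ρ(T(b·)) = ρ(T) b`, `ρ(d·) = d c(e)`.
-/

set_option autoImplicit false
set_option linter.unusedSectionVars false

namespace Crest.Agent.R121

open scoped InnerProductSpace Topology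
open ContinuousLinearMap Filter Crest.Agent.R124

noncomputable section

universe u

variable {H : Type u} [NormedAddCommGroup H] [InnerProductSpace ℂ H] [CompleteSpace H]
variable {M : VonNeumannAlgebra H}

/-- The unitary `exp (i t a)` as an element of `M`. -/
lemma exists_expU (M : VonNeumannAlgebra H) (a : M.toStarSubalgebra) (ha : star a = a) (t : ℝ) :
    ∃ u : M.toStarSubalgebra,
      (u : H →L[ℂ] H) = NormedSpace.exp ((t : ℂ) • (Complex.I • (a : H →L[ℂ] H))) ∧
      star u * u = 1 ∧ u * star u = 1 := by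
  set x : H →L[ℂ] H := (t : ℂ) • (Complex.I • (a : H →L[ℂ] H)) with hx
  have ha' : star (a : H →L[ℂ] H) = a := congrArg Subtype.val ha
  have hxs : x ∈ skewAdjoint (H →L[ℂ] H) := by
    rw [skewAdjoint.mem_iff, hx, star_smul, star_smul, ha']
    simp
  let _ : NormedAlgebra ℚ (H →L[ℂ] H) := NormedAlgebra.restrictScalars ℚ ℂ (H →L[ℂ] H)
  have hU := NormedSpace.exp_mem_unitary_of_mem_skewAdjoint hxs
  have hM : NormedSpace.exp x ∈ M := by
    apply R124.mem_of_commutant
    intro T hT
    have h1 : Commute T x := by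
      have h2 : Commute T (a : H →L[ℂ] H) := R124.commutant_comm M a.2 hT
      exact (h2.smul_right _).smul_right _
    exact h1.exp_right
  refine ⟨⟨NormedSpace.exp x, hM⟩, rfl, ?_, ?_⟩
  · exact Subtype.ext (Unitary.mem_iff.1 hU).1
  · exact Subtype.ext (Unitary.mem_iff.1 hU).2

/-- a map which is right modular with respect to all `exp (i t a)` is right modular with respect
to `a` -/
lemma mod_of_exp {S : EndA M} {a : M.toStarSubalgebra}
    (h : ∀ (t : ℝ) (u : M.toStarSubalgebra),
      (u : H →L[ℂ] H) = NormedSpace.exp ((t : ℂ) • (Complex.I • (a : H →L[ℂ] H))) →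
      ∀ y, S (y * u) = S y * u) (ha : star a = a) (y : M.toStarSubalgebra) :
    S (y * a) = S y * a := by
  choose u hu _ _ using fun t : ℝ => exists_expU M a ha t
  let t : ℕ → ℝ := fun n => 1 / ((n : ℝ) + 1)
  have ht0 : ∀ n, (t n : ℂ) ≠ 0 := fun n => by
    simp only [t, ne_eq, Complex.ofReal_eq_zero]
    positivity
  have ht : Tendsto (fun n => (t n : ℂ)) atTop (𝓝[≠] 0) := by
    rw [tendsto_nhdsWithin_iff]
    refine ⟨?_, Eventually.of_forall ht0⟩
    have h1 : Tendsto t atTop (𝓝 0) := tendsto_one_div_add_atTop_nhds_zero_nat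
    have h2 := (Complex.continuous_ofReal.tendsto 0).comp h1
    simpa using! h2
  have hder := hasDerivAt_exp_smul_const (𝕂 := ℂ) (Complex.I • (a : H →L[ℂ] H)) 0
  have hsl := hder.tendsto_slope_zero.comp ht
  let z : ℕ → M.toStarSubalgebra := fun n => ((t n : ℂ)⁻¹) • (u (t n) - 1)
  have hz : Tendsto z atTop (𝓝 (Complex.I • a)) := by
    rw [tendsto_subtype_rng]
    have e1 : (fun n => ((z n : M.toStarSubalgebra) : H →L[ℂ] H)) =
        (fun s : ℂ => s⁻¹ • (NormedSpace.exp ((0 + s) • (Complex.I • (a : H →L[ℂ] H)))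
          - NormedSpace.exp ((0 : ℂ) • (Complex.I • (a : H →L[ℂ] H))))) ∘ fun n => (t n : ℂ) := by
      funext n
      have e2 : ((z n : M.toStarSubalgebra) : H →L[ℂ] H)
        = ((t n : ℂ)⁻¹) • ((u (t n) : H →L[ℂ] H) - 1) := rfl
      rw [e2, hu]
      simp
    rw [e1]
    refine hsl.trans ?_
    simp
  have h1 : ∀ n, S (y * z n) = S y * z n := by
    intro n
    simp only [z, mul_smul_comm, mul_sub, mul_one, map_smul, map_sub]
    rw [h (t n) (u (t n)) (hu (t n))]
  have h2 : Tendsto (fun n => S (y * z n)) atTop (𝓝 (S (y * (Complex.I • a)))) :=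
    (S.continuous.tendsto _).comp ((continuous_const.mul continuous_id).tendsto _ |>.comp hz)
  have h3 : Tendsto (fun n => S y * z n) atTop (𝓝 (S y * (Complex.I • a))) :=
    ((continuous_const.mul continuous_id).tendsto _ |>.comp hz)
  have h4 : S (y * (Complex.I • a)) = S y * (Complex.I • a) := by
    refine tendsto_nhds_unique h2 ?_
    simpa only [h1] using h3
  rw [mul_smul_comm, mul_smul_comm, map_smul] at h4
  have h5 := congrArg (fun x => (-Complex.I) • x) h4
  simpa [smul_smul] using h5

lemma mod_of_selfAdjoint {S : EndA M} {e : M.toStarSubalgebra} (he : star e = e)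
    (h : ∀ a, star a = a → e * a * e = a → ∀ y, S (y * a) = S y * a)
    (a : M.toStarSubalgebra) (hea : e * a * e = a) (y : M.toStarSubalgebra) :
    S (y * a) = S y * a := by
  have hsa : e * star a * e = star a := by
    conv_rhs => rw [← hea]
    rw [star_mul, star_mul, he, mul_assoc]
  set b : M.toStarSubalgebra := (1 / 2 : ℂ) • (a + star a) with hb
  set c : M.toStarSubalgebra := (-Complex.I / 2 : ℂ) • (a - star a) with hc
  have hbs : star b = b := by
    rw [hb, star_smul, star_add, star_star, add_comm]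
    simp
  have hcs : star c = c := by
    rw [hc, star_smul, star_sub, star_star, ← neg_sub a (star a), smul_neg, ← neg_smul]
    congr 1
    simp [neg_div]
  have hbe : e * b * e = b := by
    rw [hb, mul_smul_comm, smul_mul_assoc, mul_add, add_mul, hea, hsa]
  have hce : e * c * e = c := by
    rw [hc, mul_smul_comm, smul_mul_assoc, mul_sub, sub_mul, hea, hsa]
  have habc : a = b + Complex.I • c := by
    rw [hb, hc, smul_smul]
    have : Complex.I * (-Complex.I / 2) = 1 / 2 := by
      have := Complex.I_mul_I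
      linear_combination (-1 / 2 : ℂ) * this
    rw [this, ← smul_add]
    have h2 : a + star a + (a - star a) = (2 : ℂ) • a := by rw [two_smul]; abel
    rw [h2, smul_smul]
    norm_num
  have hb' := h b hbs hbe y
  have hc' := h c hcs hce y
  clear_value b c
  rw [habc, mul_add, mul_add, map_add, mul_smul_comm, mul_smul_comm, map_smul, hb', hc']

/-- **Averaging operator, right modular over an abelian corner.** -/
theorem exists_avg_abelian {e : M.toStarSubalgebra} (he : star e = e)
    (hab : ∀ x y : M.toStarSubalgebra, (e * x * e) * (e * y * e) = (e * y * e) * (e * x * e)) :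
    ∃ Λ : EndA M →ₗ[ℂ] EndA M, IsAvg Λ ∧
      ∀ T y a, e * a * e = a → Λ T (y * a) = Λ T y * a := by
  let G : Set M.toStarSubalgebra := {u | (star u * u = 1 ∧ u * star u = 1) ∧
    ∃ (a : M.toStarSubalgebra) (t : ℝ), star a = a ∧ e * a * e = a ∧
      (u : H →L[ℂ] H) = NormedSpace.exp ((t : ℂ) • (Complex.I • (a : H →L[ℂ] H)))}
  obtain ⟨Λ, hΛ, hG⟩ := exists_invariant_avg G (fun u hu => hu.1) (by
    rintro u ⟨_, a, t, _, hae, hu⟩ v ⟨_, b, s, _, hbe, hv⟩
    apply Subtype.ext
    change (u : H →L[ℂ] H) * v = v * u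
    rw [hu, hv]
    have h1 : Commute (a : H →L[ℂ] H) b := by
      have := hab a b
      rw [hae, hbe] at this
      exact congrArg Subtype.val this
    exact ((((h1.smul_left _).smul_left _).smul_right _).smul_right _).exp)
  refine ⟨Λ, hΛ, fun T y a hea => ?_⟩
  refine mod_of_selfAdjoint he (fun a has hae y => ?_) a hea y
  refine mod_of_exp (fun t u hu y => ?_) has y
  obtain ⟨u', hu', h1, h2⟩ := exists_expU M a has t
  have huu : u = u' := Subtype.ext (hu.trans hu'.symm)
  subst huu
  exact right_of_rho h1 (hG u ⟨⟨h1, h2⟩, a, t, has, hae, hu⟩ T) y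

/-- **Block TYPEI.** -/
theorem typeI_rho {e : M.toStarSubalgebra} (he : star e = e) (hee : e * e = e)
    (hab : ∀ x y : M.toStarSubalgebra, (e * x * e) * (e * y * e) = (e * y * e) * (e * x * e)) :
    ∃ ρ : EndA M →ₗ[ℂ] M.toStarSubalgebra, (∀ T, ‖ρ T‖ ≤ ‖T‖) ∧
      (∀ b T, ρ (Lm b ∘L T) = b * ρ T) ∧ (∀ b T, ρ (T ∘L Lm b) = ρ T * b) ∧
      (∀ d, ρ (Lm d) = d * csuppA M e) ∧ (∀ T, ρ T * csuppA M e = ρ T) := by
  obtain ⟨Λ, hΛ, hmod⟩ := exists_avg_abelian he hab
  obtain ⟨ρ, h1, h2, h3, h4, -, h6⟩ := hΛ.corner_rho he hee (fun T y a _ hea => hmod T y a hea)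
  exact ⟨ρ, h1, h2, h3, h4, h6⟩

/-- **Block TYPEI**, frozen interface form. -/
theorem cavg_abel {e : Al M} (he : IsAbel e) : ∃ S : En M → Al M → Al M, IsCAvg e S := by
  have hes : star e = e := he.1.isSelfAdjoint
  have hee : e * e = e := he.1.isIdempotentElem
  obtain ⟨Λ, hΛ, hmod⟩ := exists_avg_abelian hes he.2
  refine ⟨fun T y => Λ T y, ?_⟩
  exact {
    addT := fun T T' y _ => by rw [map_add]; rfl
    smulT := fun c T y _ => by rw [map_smul]; rfl
    add := fun T y y' _ _ => map_add _ _ _
    smul := fun T c y _ => map_smul _ _ _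
    bound := fun T y _ => (Λ T).le_of_opNorm_le (hΛ.norm T) y
    mem := fun T y hy => by
      rw [← hmod T y e (by rw [hee, hee]), hy]
    lmul := fun a T y _ => by rw [hΛ.left]; rfl
    comp := fun b T y _ => by rw [hΛ.right]; rfl
    mul := fun d y _ => by rw [hΛ.unit]; rfl
    right := fun T y a _ h1 h2 => hmod T y a (by rw [h1, h2]) }

end

end Crest.Agent.R121
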