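import Crest.Agent.R121.SumG
import Crest.Agent.R121.DichG
import Crest.Agent.R121.TypeI
import Crest.Agent.R121.CB

/-!
# Row 121: final glue
-/

set_option autoImplicit false

namespace Crest.Agent.R121

open scoped InnerProductSpace
open Crest.Agent.R124

variable {H : Type*} [NormedAddCommGroup H] [InnerProductSpace ℂ H] [CompleteSpace H]
variable {M : VonNeumannAlgebra H}

/-- a linear contraction with the covariance properties is an `IsRho` on all bounded maps. -/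
lemma isRho_of_linear {z : Al M} (ρ : EndA M →ₗ[ℂ] M.toStarSubalgebra) (h1 : ∀ T, ‖ρ T‖ ≤ ‖T‖)
    (h2 : ∀ b T, ρ (Lm b ∘L T) = b * ρ T) (h3 : ∀ b T, ρ (T ∘L Lm b) = ρ T * b)
    (h4 : ∀ d, ρ (Lm d) = d * z) : IsRho (bdS M) z 1 (fun T => ρ T) where
  nonneg := zero_le_one
  bound {K T} hT := by rw [one_mul]; exact (h1 T).trans hT
  add _ _ := map_add _ _ _
  smul c _ _ _ := map_smul _ c _
  lmul a _ T _ := h2 a T
  comp a _ T _ := h3 a T
  mul d := h4 d

theorem rho_abel {e : H →L[ℂ] H} (heM : e ∈ M) (he : IsStarProjection e)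
    (hab : ∀ x ∈ M, ∀ y ∈ M, (e * x * e) * (e * y * e) = (e * y * e) * (e * x * e)) :
    ∃ ρ : En M → Al M, IsRho (bdS M) ⟨csupp M e, csupp_mem M e heM⟩ 1 ρ := by
  obtain ⟨ρ, h1, h2, h3, h4, -⟩ := typeI_rho (M := M) (e := ⟨e, heM⟩)
    (Subtype.ext he.isSelfAdjoint) (Subtype.ext he.isIdempotentElem)
    (fun x y => Subtype.ext (hab x x.2 y y.2))
  exact ⟨_, isRho_of_linear ρ h1 h2 h3 h4⟩

lemma csupp_le {p e : H →L[ℂ] H} (hp : ∀ x ∈ M, p * x = x * p) (hpe : p * e = e) :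
    p * csupp M e = csupp M e := by
  ext t
  have h0 : ∀ x, x ∈ spanP M e → p x = x := by
    intro x hx
    induction hx using Submodule.span_induction with
    | mem x hx =>
      obtain ⟨T, hT, s, rfl⟩ := hx
      have h1 : p * (T * e) = T * e := by rw [← mul_assoc, hp T hT, mul_assoc, hpe]
      exact congrArg (fun X : H →L[ℂ] H => X s) h1
    | zero => exact map_zero _
    | add x y _ _ hx hy => rw [map_add, hx, hy]
    | smul c x _ hx => rw [map_smul, hx]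
  have hcl : IsClosed {x : H | p x = x} := isClosed_eq p.continuous continuous_id
  have hsub : ((spanP M e).topologicalClosure : Set H) ⊆ {x | p x = x} :=
    closure_minimal (fun x hx => h0 x hx) hcl
  exact hsub (csupp_apply_mem M e t)

lemma Glue.hochschildDiff_add {A : Type*} [Ring A] {k : ℕ} (f g : (Fin k → A) → A)
    (a : Fin (k + 1) → A) : Crest.OpAlg.hochschildDiff (fun b => f b + g b) a
      = Crest.OpAlg.hochschildDiff f a + Crest.OpAlg.hochschildDiff g a := by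
  unfold Crest.OpAlg.hochschildDiff
  simp only [mul_add, add_mul, smul_add, Finset.sum_add_distrib]
  abel

/-- The main theorem, modulo the inputs C1 (`Cochain`), PI and FIN. -/
theorem glue (M : VonNeumannAlgebra H) (k : ℕ)
    (hcob : ∀ (E : Scale M) (z : Al M), (∀ x, z * x = x * z) → ∀ (C : ℝ) (ρ : En M → Al M),
      IsRho E z C ρ → ∀ (f : Coch M (k + 1)), IsCocycle f → ∀ (K : ℝ), 0 ≤ K →
      (∀ a : Fin k → Al M, E.mem (K * ∏ i, ‖a i‖) (f.curryRight a)) →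
      ∃ g : Coch M k, ‖g‖ ≤ C * K ∧
        ∀ a : Fin (k + 1) → Al M, Crest.OpAlg.hochschildDiff g a = f a * z)
    (hpi : ∃ Ck : ℝ, 0 ≤ Ck ∧ ∀ z : Al M, IsCP M z → IsPI z → ∀ f : Coch M (k + 1), IsCocycle f →
      ∃ (g : Coch M k) (ψ : Coch M (k + 1)), ‖g‖ ≤ Ck * ‖f‖ ∧
      IsCocycle ψ ∧ (∀ x, f x * z = Crest.OpAlg.hochschildDiff g x + ψ x) ∧
      ∀ a : Fin k → Al M, IsCB (Ck * ‖f‖ * ∏ i, ‖a i‖) (ψ.curryRight a))
    (hfin : ∀ (f : H →L[ℂ] H) (hfM : f ∈ M), IsStarProjection f → ∀ (ξ : H) (C : ℝ),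
      CTr M f ξ C →
      (∀ e ∈ M, IsStarProjection e → f * e = e →
        (∀ x ∈ M, ∀ y ∈ M, (e * x * e) * (e * y * e) = (e * y * e) * (e * x * e)) → e = 0) →
      ∃ ρ : En M → Al M, IsRho (bdS M) ⟨csupp M f, csupp_mem M f hfM⟩ 1 ρ) :
    ∃ C : ℝ, Good M k C 1 := by
  obtain ⟨Ck, hCk, hpi⟩ := hpi
  -- from `ρ` to `Good`
  have hgood : ∀ (z : Al M), (∀ x, z * x = x * z) → ∀ ρ : En M → Al M,
      IsRho (bdS M) z 1 ρ → Good M k (2 * Ck + 1) z := by
    intro z hz ρ hρ f hf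
    obtain ⟨g, hg, hg'⟩ := hcob (bdS M) z hz 1 ρ hρ f hf ‖f‖ (norm_nonneg _) (fun a => by
      change ‖f.curryRight a‖ ≤ ‖f‖ * ∏ i, ‖a i‖
      refine (f.curryRight.le_opNorm a).trans ?_
      rw [ContinuousMultilinearMap.curryRight_norm])
    refine ⟨g, hg.trans ?_, hg'⟩
    have := norm_nonneg f
    nlinarith
  refine ⟨2 * Ck + 1, good_sum (by positivity) fun p hp hp0 => ?_⟩
  have hpc : ∀ x ∈ M, (p : H →L[ℂ] H) * x = x * p := fun x hx =>
    congrArg Subtype.val (hp.comm ⟨x, hx⟩)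
  -- pieces with `ρ`
  have hpiece : ∀ (e : H →L[ℂ] H) (heM : e ∈ M), e ≠ 0 → (p : H →L[ℂ] H) * e = e →
      (∃ ρ : En M → Al M, IsRho (bdS M) ⟨csupp M e, csupp_mem M e heM⟩ 1 ρ) →
      ∃ z : Al M, IsCP M z ∧ z ≠ 0 ∧ z * p = z ∧ Good M k (2 * Ck + 1) z := by
    rintro e heM he0 hpe ⟨ρ, hρ⟩
    have hcomm : ∀ x ∈ M, csupp M e * x = x * csupp M e := fun x hx =>
      csupp_comm M e heM x (Or.inl hx)
    refine ⟨⟨csupp M e, csupp_mem M e heM⟩, ⟨⟨Subtype.ext (csupp_proj M e).isIdempotentElem,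
      Subtype.ext (csupp_proj M e).isSelfAdjoint⟩, fun x => Subtype.ext (hcomm x x.2)⟩, ?_,
      Subtype.ext ?_, hgood _ (fun x => Subtype.ext (hcomm x x.2)) ρ hρ⟩
    · intro h0
      have h1 : csupp M e = 0 := congrArg Subtype.val h0
      have h2 := csupp_mul_self M e
      rw [h1, zero_mul] at h2
      exact he0 h2.symm
    · change csupp M e * (p : H →L[ℂ] H) = csupp M e
      rw [hcomm p p.2]
      exact csupp_le hpc hpe
  rcases dichotomy M p.2 ⟨congrArg Subtype.val hp.proj.isIdempotentElem,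
    congrArg Subtype.val hp.proj.isSelfAdjoint⟩ hpc (fun h => hp0 (Subtype.ext h)) with
    ⟨f, hfM, hf, hf0, hpf, ξ, C, htr⟩ | ⟨c, hcM, hc, hcc, hc0, hpc', hPI⟩
  · by_cases hab : ∀ e ∈ M, IsStarProjection e → f * e = e →
        (∀ x ∈ M, ∀ y ∈ M, (e * x * e) * (e * y * e) = (e * y * e) * (e * x * e)) → e = 0
    · exact hpiece f hfM hf0 hpf (hfin f hfM hf ξ C htr hab)
    · push Not at hab
      obtain ⟨e, heM, he, hfe, heab, he0⟩ := hab
      refine hpiece e heM he0 ?_ (rho_abel heM he heab)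
      rw [← hfe, ← mul_assoc, hpf]
  · refine ⟨⟨c, hcM⟩, ⟨⟨Subtype.ext hc.isIdempotentElem, Subtype.ext hc.isSelfAdjoint⟩,
      fun x => Subtype.ext (hcc x x.2)⟩, fun h => hc0 (congrArg Subtype.val h),
      Subtype.ext ?_, ?_⟩
    · change c * (p : H →L[ℂ] H) = c
      rw [hcc p p.2, hpc']
    · intro f hf
      have hcP : IsCP M (⟨c, hcM⟩ : Al M) := ⟨⟨Subtype.ext hc.isIdempotentElem,
        Subtype.ext hc.isSelfAdjoint⟩, fun x => Subtype.ext (hcc x x.2)⟩
      obtain ⟨g, ψ, hg, hψ, hfg, hcb⟩ := hpi ⟨c, hcM⟩ hcP (isPI_of_PIc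
        (Subtype.ext hc.isIdempotentElem) hPI) f hf
      obtain ⟨ρ, hρ⟩ := rho_cb M
      obtain ⟨g', hg', hgd⟩ := hcob (cbS M) 1 (fun x => by rw [one_mul, mul_one]) 1 ρ hρ ψ hψ
        (Ck * ‖f‖) (mul_nonneg hCk (norm_nonneg _)) hcb
      refine ⟨g + g', ?_, fun a => ?_⟩
      · refine (norm_add_le _ _).trans ?_
        have := norm_nonneg f
        nlinarith
      · rw [hfg]
        have h1 : Crest.OpAlg.hochschildDiff (⇑(g + g')) a
            = Crest.OpAlg.hochschildDiff g a + Crest.OpAlg.hochschildDiff g' a :=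
          Glue.hochschildDiff_add _ _ _
        rw [h1, hgd, mul_one]

end Crest.Agent.R121
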