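/-
Row 121 (S0161, Kadison-Ringrose): INTERFACE (sorried; never imported by final files).
One section = one module `Crest/Agent/R121/<Name>.lean`. The glue (helper187) uses exactly these.
Finished modules (not repeated here): WLim, AvgOp, CornerP (803), Dich (187), Homotopy, C2 (624),
Cochain (C1: `cob_of_rho`, `good_of_rho`), CBS (`cbS`) (287).
-/
import Crest.Agent.R121.Defs
import Crest.Agent.R121.Dich
import Crest.Agent.R121.Cochain
import Crest.Agent.R121.CBS

set_option autoImplicit false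
set_option linter.unusedSectionVars false
set_option linter.unusedVariables false

open scoped InnerProductSpace Topology
open Filter

namespace Crest.Agent.R121

variable {H : Type*} [NormedAddCommGroup H] [InnerProductSpace ℂ H] [CompleteSpace H]
variable {M : VonNeumannAlgebra H}

/-! ## CB.lean (helper795, inputs helper948): block (B), any `M` -/
section CB
theorem rho_cb (M : VonNeumannAlgebra H) : ∃ ρ : En M → Al M, IsRho (cbS M) 1 1 ρ := sorry
end CB

/-! ## PI.lean (helper624 + helper572): properly infinite central projections. -/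
section PI
theorem pi_red (M : VonNeumannAlgebra H) (k : ℕ) :
    ∃ Ck : ℝ, 0 ≤ Ck ∧ ∀ z : Al M, IsCP M z → IsPI z → ∀ f : Coch M (k + 1), IsCocycle f →
      ∃ (g : Coch M k) (ψ : Coch M (k + 1)), ‖g‖ ≤ Ck * ‖f‖ ∧
      IsCocycle ψ ∧ (∀ x, f x * z = Crest.OpAlg.hochschildDiff g x + ψ x) ∧
      ∀ a : Fin k → Al M, IsCB (Ck * ‖f‖ * ∏ i, ‖a i‖) (ψ.curryRight a) := sorry

/-- (helper187) exact halving gives `IsPI` -/
theorem isPI_of_PIc {c : Al M} (h : PIc M (c : H →L[ℂ] H)) : IsPI c := sorry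
end PI

/-! ## TypeI.lean (helper803) -/
section TypeI
theorem rho_abel {e : H →L[ℂ] H} (heM : e ∈ M) (he : IsStarProjection e)
    (hab : ∀ x ∈ M, ∀ y ∈ M, (e * x * e) * (e * y * e) = (e * y * e) * (e * x * e)) :
    ∃ ρ : En M → Al M, IsRho (bdS M) ⟨R124.csupp M e, R124.csupp_mem M e heM⟩ 1 ρ := sorry
end TypeI

/-! ## Fin (helper121, 390, 948, 838, 708, 292; assembly helper816: RhoFin.lean) -/
section Fin
theorem rho_fin {f : H →L[ℂ] H} (hfM : f ∈ M) (hf : IsStarProjection f) {ξ : H} {C : ℝ}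
    (htr : CTr M f ξ C)
    (hnab : ∀ e ∈ M, IsStarProjection e → f * e = e →
      (∀ x ∈ M, ∀ y ∈ M, (e * x * e) * (e * y * e) = (e * y * e) * (e * x * e)) → e = 0) :
    ∃ ρ : En M → Al M, IsRho (bdS M) ⟨R124.csupp M f, R124.csupp_mem M f hfM⟩ 1 ρ := sorry
end Fin

/-! ## Sum.lean (helper187) : strong sums of local solutions -/
section SumG
theorem sum_of_local (M : VonNeumannAlgebra H) (n : ℕ) (f : Coch M (n + 1)) (K : ℝ)
    (hloc : ∀ z : Al M, z ≠ 0 → IsCP M z → ∃ c : Al M, c ≠ 0 ∧ IsCP M c ∧ z * c = c ∧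
      ∃ g : Coch M n, ‖g‖ ≤ K ∧ ∀ a, Crest.OpAlg.hochschildDiff g a = f a * c) :
    ∃ g : Coch M n, ∀ a, Crest.OpAlg.hochschildDiff g a = f a := sorry
end SumG

end Crest.Agent.R121
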