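import Crest.Agent.R121.Defs
import Crest.Agent.R121.WLim

/-!
Row 121, block PI: ultralimits of cochains.
-/

set_option autoImplicit false
set_option linter.unusedSectionVars false

open scoped InnerProductSpace Topology
open Filter

namespace Crest.Agent.R121.PI

variable {H : Type*} [NormedAddCommGroup H] [InnerProductSpace ℂ H] [CompleteSpace H]
variable {M : VonNeumannAlgebra H} {ι : Type*} {𝒰 : Ultrafilter ι}

theorem exists_coch_lim {k : ℕ} (F : ι → Coch M k) {K : ℝ} (hF : ∀ i, ‖F i‖ ≤ K) :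
    ∃ G : Coch M k, ‖G‖ ≤ K ∧
      ∀ a, WTends 𝒰 (fun i => ((F i a : Al M) : H →L[ℂ] H)) ((G a : Al M) : H →L[ℂ] H) := by
  have hK : 0 ≤ K := by
    obtain ⟨i⟩ : Nonempty ι := 𝒰.neBot.nonempty
    exact (norm_nonneg _).trans (hF i)
  have hb : ∀ a : Fin k → Al M, ∀ i, ‖((F i a : Al M) : H →L[ℂ] H)‖ ≤ K * ∏ j, ‖a j‖ := by
    intro a i
    have h1 := (F i).le_opNorm a
    have h2 := hF i
    refine le_trans h1 ?_
    gcongr
  have hex : ∀ a : Fin k → Al M, ∃ g : Al M, ‖g‖ ≤ K * ∏ j, ‖a j‖ ∧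
      WTends 𝒰 (fun i => ((F i a : Al M) : H →L[ℂ] H)) (g : H →L[ℂ] H) := by
    intro a
    obtain ⟨L, h1, h2⟩ := exists_wtends 𝒰 (hb a)
    exact ⟨⟨L, h2.mem (fun i => (F i a).2)⟩, h1, h2⟩
  choose g hg1 hg2 using hex
  have hadd : ∀ [inst : DecidableEq (Fin k)] (m : Fin k → Al M) (i : Fin k) (x y : Al M),
      g (Function.update m i (x + y)) = g (Function.update m i x) + g (Function.update m i y) := by
    intro inst m i x y
    apply Subtype.ext
    refine (hg2 _).unique ?_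
    have h1 := (hg2 (Function.update m i x)).add (hg2 (Function.update m i y))
    refine (funext fun j => ?_ : (fun j => ((F j (Function.update m i (x + y)) : Al M) : H →L[ℂ] H))
      = fun j => ((F j (Function.update m i x) : Al M) : H →L[ℂ] H)
        + ((F j (Function.update m i y) : Al M) : H →L[ℂ] H)) ▸ h1
    rw [(F j).map_update_add]
    rfl
  have hsmul : ∀ [inst : DecidableEq (Fin k)] (m : Fin k → Al M) (i : Fin k) (c : ℂ) (x : Al M),
      g (Function.update m i (c • x)) = c • g (Function.update m i x) := by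
    intro inst m i c x
    apply Subtype.ext
    refine (hg2 _).unique ?_
    have h1 := (hg2 (Function.update m i x)).smul c
    refine (funext fun j => ?_ : (fun j => ((F j (Function.update m i (c • x)) : Al M) : H →L[ℂ] H))
      = fun j => c • ((F j (Function.update m i x) : Al M) : H →L[ℂ] H)) ▸ h1
    rw [(F j).map_update_smul]
    rfl
  let G0 : MultilinearMap ℂ (fun _ : Fin k => Al M) (Al M) :=
    { toFun := g
      map_update_add' := hadd
      map_update_smul' := hsmul }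
  refine ⟨G0.mkContinuous K hg1, G0.mkContinuous_norm_le hK hg1, fun a => hg2 a⟩

theorem WTends.finset_sum {κ : Type*} (S : Finset κ) {F : κ → ι → H →L[ℂ] H} {L : κ → H →L[ℂ] H}
    (h : ∀ j ∈ S, WTends 𝒰 (F j) (L j)) :
    WTends 𝒰 (fun i => ∑ j ∈ S, F j i) (∑ j ∈ S, L j) := by
  classical
  induction S using Finset.induction_on with
  | empty =>
    simp only [Finset.sum_empty]
    exact WTends.const 0
  | insert a S ha ih =>
    simp only [Finset.sum_insert ha]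
    exact (h a (Finset.mem_insert_self a S)).add
      (ih (fun j hj => h j (Finset.mem_insert_of_mem hj)))

theorem WTends.zsmul {F : ι → H →L[ℂ] H} {L : H →L[ℂ] H} (h : WTends 𝒰 F L) (n : ℤ) :
    WTends 𝒰 (fun i => n • F i) (n • L) := by
  have h1 := h.smul (n : ℂ)
  simpa only [Int.cast_smul_eq_zsmul] using h1

open Crest.OpAlg in
theorem hochschildDiff_wtends {k : ℕ} (F : ι → Coch M k) (G : Coch M k)
    (h : ∀ a, WTends 𝒰 (fun i => ((F i a : Al M) : H →L[ℂ] H)) ((G a : Al M) : H →L[ℂ] H))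
    (b : Fin (k + 1) → Al M) :
    WTends 𝒰 (fun i => ((hochschildDiff (F i) b : Al M) : H →L[ℂ] H))
      ((hochschildDiff G b : Al M) : H →L[ℂ] H) := by
  have key : ∀ f : Coch M k, ((hochschildDiff f b : Al M) : H →L[ℂ] H)
      = (b 0 : H →L[ℂ] H) * ((f (fun i => b i.succ) : Al M) : H →L[ℂ] H)
        + (∑ j : Fin k, ((-1 : ℤ) ^ (j.val + 1)) • ((f (mergeArgs j b) : Al M) : H →L[ℂ] H))
        + ((-1 : ℤ) ^ (k + 1)) • (((f (fun i => b i.castSucc) : Al M) : H →L[ℂ] H)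
            * (b (Fin.last k) : H →L[ℂ] H)) := by
    intro f
    rw [hochschildDiff]
    push_cast
    rfl
  simp only [key]
  refine ((h _).mul_left _ |>.add ?_).add ?_
  · exact WTends.finset_sum _ (fun j _ => WTends.zsmul (h _) _)
  · exact WTends.zsmul ((h _).mul_right _) _

theorem WTends.apply {F : ι → H →L[ℂ] H} {L : H →L[ℂ] H} (h : WTends 𝒰 F L) (ξ η : H) :
    Tendsto (fun i => ⟪F i ξ, η⟫_ℂ) 𝒰 (𝓝 ⟪L ξ, η⟫_ℂ) := h ξ η

theorem isCB_of_wtends (F : ι → En M) (T : En M)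
    (h : ∀ x, WTends 𝒰 (fun i => ((F i x : Al M) : H →L[ℂ] H)) ((T x : Al M) : H →L[ℂ] H))
    {K : ℝ} (hK : 0 ≤ K)
    (hcb : ∀ n : ℕ, ∀ᶠ i in (𝒰 : Filter ι), ∀ X : Fin n → Fin n → Al M,
      MB (fun p q => (X p q : H →L[ℂ] H)) 1 →
        MB (fun p q => ((F i (X p q) : Al M) : H →L[ℂ] H)) K) :
    IsCB K T := by
  refine ⟨hK, fun n X hX ξ => ?_⟩
  set η : Fin n → H := fun p => ∑ q, ((T (X p q) : Al M) : H →L[ℂ] H) (ξ q) with hη
  -- the pairing
  have hlim : Tendsto (fun i => ∑ p, ⟪∑ q, ((F i (X p q) : Al M) : H →L[ℂ] H) (ξ q), η p⟫_ℂ) 𝒰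
      (𝓝 (∑ p, ⟪η p, η p⟫_ℂ)) := by
    refine tendsto_finsetSum _ fun p _ => ?_
    have h1 : ∀ i, ⟪∑ q, ((F i (X p q) : Al M) : H →L[ℂ] H) (ξ q), η p⟫_ℂ
        = ∑ q, ⟪((F i (X p q) : Al M) : H →L[ℂ] H) (ξ q), η p⟫_ℂ := fun i => sum_inner _ _ _
    have h2 : ⟪η p, η p⟫_ℂ = ∑ q, ⟪((T (X p q) : Al M) : H →L[ℂ] H) (ξ q), η p⟫_ℂ := by
      conv_lhs => rw [hη]
      simp only
      rw [sum_inner]
    simp only [h1]
    rw [h2]
    exact tendsto_finsetSum _ fun q _ => h (X p q) (ξ q) (η p)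
  set A : ℝ := ∑ p, ‖η p‖ ^ 2 with hA
  set B : ℝ := ∑ q, ‖ξ q‖ ^ 2 with hB
  have hA0 : 0 ≤ A := Finset.sum_nonneg fun p _ => by positivity
  have hB0 : 0 ≤ B := Finset.sum_nonneg fun p _ => by positivity
  have hev : ∀ᶠ i in (𝒰 : Filter ι),
      ‖∑ p, ⟪∑ q, ((F i (X p q) : Al M) : H →L[ℂ] H) (ξ q), η p⟫_ℂ‖
        ≤ Real.sqrt (K ^ 2 * B) * Real.sqrt A := by
    filter_upwards [hcb n] with i hi
    have h1 := hi X hX ξ
    refine (norm_sum_le _ _).trans ?_
    refine (Finset.sum_le_sum fun p _ => norm_inner_le_norm _ _).trans ?_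
    refine (Real.sum_mul_le_sqrt_mul_sqrt _ _ _).trans ?_
    gcongr
  have hle := le_of_tendsto hlim.norm hev
  have hAA : ‖∑ p, ⟪η p, η p⟫_ℂ‖ = A := by
    have : ∑ p, ⟪η p, η p⟫_ℂ = ((A : ℝ) : ℂ) := by
      rw [hA, Complex.ofReal_sum]
      refine Finset.sum_congr rfl fun p _ => ?_
      rw [inner_self_eq_norm_sq_to_K]
      simp
    rw [this, Complex.norm_real, Real.norm_of_nonneg hA0]
  rw [hAA] at hle
  change A ≤ K ^ 2 * B
  have h3 : A = Real.sqrt A * Real.sqrt A := (Real.mul_self_sqrt hA0).symm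
  have h4 : K ^ 2 * B = Real.sqrt (K ^ 2 * B) * Real.sqrt (K ^ 2 * B) :=
    (Real.mul_self_sqrt (by positivity)).symm
  have h5 : Real.sqrt A ≤ Real.sqrt (K ^ 2 * B) := by
    rcases eq_or_lt_of_le (Real.sqrt_nonneg A) with h6 | h6
    · rw [← h6]
      exact Real.sqrt_nonneg _
    · have h7 : Real.sqrt A * Real.sqrt A ≤ Real.sqrt (K ^ 2 * B) * Real.sqrt A := by
        rw [← h3]
        exact hle
      exact le_of_mul_le_mul_right h7 h6
  calc A = Real.sqrt A * Real.sqrt A := h3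
    _ ≤ Real.sqrt (K ^ 2 * B) * Real.sqrt (K ^ 2 * B) := by gcongr
    _ = K ^ 2 * B := h4.symm

end Crest.Agent.R121.PI
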