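import Crest.Agent.R121.PIFix
import Crest.Agent.R121.PILim0

/-!
Row 121, block PI: **properly infinite central projections**: every cocycle is, up to a
coboundary, completely bounded in the last variable.
-/

set_option autoImplicit false
set_option linter.unusedSectionVars false

open scoped InnerProductSpace Topology
open Filter

namespace Crest.Agent.R121

variable {H : Type*} [NormedAddCommGroup H] [InnerProductSpace ℂ H] [CompleteSpace H]

namespace PI

variable {M : VonNeumannAlgebra H} {z : Al M}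

/-- `s^i t` -/
noncomputable def ww (s t : Al M) (i : ℕ) : Al M := s ^ i * t

theorem ww_succ (s t : Al M) (i : ℕ) : ww s t (i + 1) = s * ww s t i := by
  rw [ww, ww, pow_succ', mul_assoc]

theorem ww_same (hz : IsCP M z) {s t : Al M} (hs : star s * s = z) (ht : star t * t = z) (i : ℕ) :
    star (ww s t i) * ww s t i = z := by
  induction i with
  | zero => simpa [ww] using ht
  | succ i ih =>
    rw [ww_succ, star_mul]
    have : star (ww s t i) * star s * (s * ww s t i)
        = star (ww s t i) * ((star s * s) * ww s t i) := by simp only [mul_assoc]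
    rw [this, hs, hz.comm, ← mul_assoc, ih]
    exact hz.proj.isIdempotentElem.eq

theorem ww_diff (hz : IsCP M z) {s t : Al M} (hs : star s * s = z) (hst : star s * t = 0)
    (i d : ℕ) : star (ww s t i) * ww s t (i + d + 1) = 0 := by
  induction i with
  | zero =>
    rw [ww_succ, ← mul_assoc]
    have h1 : star (ww s t 0) * s = 0 := by
      have h2 := congrArg star hst
      rw [star_mul, star_star, star_zero] at h2
      simpa [ww] using h2
    rw [h1, zero_mul]
  | succ i ih =>
    have e : i + 1 + d + 1 = (i + d + 1) + 1 := by ring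
    rw [e, ww_succ, ww_succ, star_mul]
    have : star (ww s t i) * star s * (s * ww s t (i + d + 1))
        = star (ww s t i) * ((star s * s) * ww s t (i + d + 1)) := by simp only [mul_assoc]
    rw [this, hs, hz.comm, ← mul_assoc, ih, zero_mul]

theorem fam_ww (hz : IsCP M z) {s t : Al M} (hs : star s * s = z) (ht : star t * t = z)
    (hst : star s * t = 0) (h : ℕ) : Fam z (fun i : Fin h => ww s t i.val) := by
  refine ⟨fun i => ww_same hz hs ht i.val, fun i j hij => ?_⟩
  rcases lt_or_gt_of_ne (fun h' => hij (Fin.ext h') : i.val ≠ j.val) with h1 | h1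
  · obtain ⟨d, hd⟩ := Nat.exists_eq_add_of_lt h1
    have : j.val = i.val + d + 1 := by omega
    rw [this]
    exact ww_diff hz hs hst i.val d
  · obtain ⟨d, hd⟩ := Nat.exists_eq_add_of_lt h1
    have : i.val = j.val + d + 1 := by omega
    rw [this]
    have h2 := congrArg star (ww_diff hz hs hst j.val d)
    rwa [star_mul, star_star, star_zero] at h2

end PI

open PI

/-- **Block PI** -/
theorem pi_red (M : VonNeumannAlgebra H) (k : ℕ) :
    ∃ Ck : ℝ, 0 ≤ Ck ∧ ∀ z : Al M, IsCP M z → IsPI z → ∀ f : Coch M (k + 1), IsCocycle f →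
      ∃ (g : Coch M k) (ψ : Coch M (k + 1)), ‖g‖ ≤ Ck * ‖f‖ ∧
      IsCocycle ψ ∧ (∀ x, f x * z = Crest.OpAlg.hochschildDiff g x + ψ x) ∧
      ∀ a : Fin k → Al M, IsCB (Ck * ‖f‖ * ∏ i, ‖a i‖) (ψ.curryRight a) := by
  refine ⟨2 * k + 3, by positivity, ?_⟩
  rintro z hz ⟨s, t, hs, ht, hst⟩ f hf
  have hfam : ∀ i : ℕ, Fam z (fun j : Fin (i + 1) => ww s t j.val) :=
    fun i => fam_ww hz hs ht hst (i + 1)
  choose G hG1 hG2 using fun i : ℕ => exists_fixed hz (hfam i) f hf
  set Ψ : ℕ → Coch M (k + 1) := fun i => psi hz (hfam i) f with hΨ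
  obtain ⟨g, hg1, hg2⟩ := exists_coch_lim (𝒰 := hyperfilter ℕ) G (K := (2 * k + 3) * ‖f‖) hG1
  obtain ⟨ψ, _, hψ2⟩ := exists_coch_lim (𝒰 := hyperfilter ℕ) Ψ (K := 2 * ‖f‖)
    (fun i => norm_psi_le hz (hfam i) f)
  have hrel : ∀ x, f x * z = Crest.OpAlg.hochschildDiff g x + ψ x := by
    intro x
    apply Subtype.ext
    have h1 := (hochschildDiff_wtends G g hg2 x).add (hψ2 x)
    have h2 : (fun i : ℕ => ((Crest.OpAlg.hochschildDiff (G i) x : Al M) : H →L[ℂ] H)
        + ((Ψ i x : Al M) : H →L[ℂ] H)) = fun _ => ((f x * z : Al M) : H →L[ℂ] H) := by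
      funext i
      rw [hG2 i x]
      rfl
    rw [h2] at h1
    exact (WTends.const _).unique h1
  refine ⟨g, ψ, hg1, isCocycle_of_eq hz.comm hf hrel, hrel, fun a => ?_⟩
  refine isCB_of_wtends (𝒰 := hyperfilter ℕ) (fun i => (Ψ i).curryRight a) (ψ.curryRight a)
    (fun x => ?_) (by positivity) (fun n => ?_)
  · exact hψ2 (Fin.snoc a x)
  · have hev : ∀ᶠ i in (hyperfilter ℕ : Filter ℕ), n ≤ i + 1 := by
      have : ∀ᶠ i in (atTop : Filter ℕ), n ≤ i + 1 := by
        filter_upwards [eventually_ge_atTop n] with i hi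
        omega
      exact Nat.hyperfilter_le_atTop this
    filter_upwards [hev] with i hi X hX
    have h1 := psi_MB hz (hfam i) f a hi X hX
    intro ξ
    refine (h1 ξ).trans ?_
    have h2 : 2 * ‖f‖ * ∏ i, ‖a i‖ ≤ (2 * k + 3) * ‖f‖ * ∏ i, ‖a i‖ := by
      have h3 : (2 : ℝ) ≤ 2 * k + 3 := by
        have : (0 : ℝ) ≤ k := by positivity
        linarith
      gcongr
    gcongr

end Crest.Agent.R121
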