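import Mathlib
import Crest.Agent.R121.Homotopy

/-!
Row 121, block PI, algebraic part: `d ∘ d = 0`, and averaging of the last variable.
-/

set_option autoImplicit false
set_option linter.unusedSectionVars false

universe u

namespace Crest.Agent.R121.PI

open Crest.OpAlg

variable {A : Type u} [Ring A]

theorem hD_hD (n : ℕ) : ∀ {S : Type u} (act : S → A → S)
    (_ : ∀ s a b, act s (a * b) = act (act s a) b) (f : S → (Fin n → A) → A) (s : S)
    (x : Fin (n + 2) → A), hD (n + 1) act (hD n act f) s x = 0 := by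
  induction n with
  | zero =>
    intro S act hact f s x
    have h0 : ∀ b : A, (fun _ : Fin 1 => b) = Fin.cons b Fin.elim0 := by
      intro b; funext i; refine Fin.cases ?_ (fun i => i.elim0) i; simp
    simp only [hD, Fin.cons_zero, hact]
    noncomm_ring
  | succ n ih =>
    intro S act hact f s x
    rw [hD]
    have h1 : (fun (p : S × A) (y : Fin (n + 1) → A) => hD (n + 1) act f p.1 (Fin.cons p.2 y))
        = fun (p : S × A) y => f (act p.1 p.2) y -
          hD n (S := S × A) (fun p b => (p.1, p.2 * b)) (fun p y => f p.1 (Fin.cons p.2 y)) p y := by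
      funext p y
      rw [hD]
      simp only [Fin.cons_zero, Fin.cons_succ]
    rw [h1, hD_sub, ih _ (fun s a b => by simp [mul_assoc])]
    rw [hD_comap (n + 1) (S := S × A) (S' := S) (fun p b => (p.1, p.2 * b)) act
      (fun p => act p.1 p.2) (fun p b => (hact p.1 p.2 b)) f (s, x 0) (fun i => x i.succ)]
    simp

theorem hochschildDiff_hochschildDiff {n : ℕ} (f : (Fin n → A) → A) (x : Fin (n + 2) → A) :
    hochschildDiff (fun y => hochschildDiff f y) x = 0 := by
  rw [hochschildDiff_eq_hD]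
  have h : (fun (s : A) (y : Fin (n + 1) → A) => s * hochschildDiff f y)
      = hD n (S := A) (fun s b => s * b) (fun s y => s * f y) := by
    funext s y
    rw [hD_eq, hochschildDiff]
    simp only [mul_add, Finset.mul_sum, mul_smul_comm, mul_assoc]
  rw [h, hD_hD n (fun s b => s * b) (fun s a b => (mul_assoc s a b).symm)]

theorem mergeArgs_snoc_castSucc {k : ℕ} (j : Fin k) (x : Fin (k + 1) → A) (b : A) :
    mergeArgs j.castSucc (Fin.snoc x b : Fin (k + 2) → A)
      = (Fin.snoc (mergeArgs j x) b : Fin (k + 1) → A) := by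
  funext i
  refine Fin.lastCases ?_ (fun i => ?_) i
  · have h1 : ¬ (k < j.val) := by omega
    have h2 : ¬ (k = j.val) := by omega
    have h3 : (Fin.snoc x b : Fin (k + 2) → A) (Fin.last k).succ = b := by
      rw [Fin.succ_last]
      simp
    simp [mergeArgs, h1, h2, h3]
  · simp only [mergeArgs, Fin.val_castSucc, Fin.snoc_castSucc, ← Fin.castSucc_succ]

theorem mergeArgs_snoc_last {k : ℕ} (x : Fin (k + 1) → A) (b : A) :
    mergeArgs (Fin.last k) (Fin.snoc x b : Fin (k + 2) → A)
      = (Fin.snoc (fun i : Fin k => x i.castSucc) (x (Fin.last k) * b) : Fin (k + 1) → A) := by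
  funext i
  refine Fin.lastCases ?_ (fun i => ?_) i
  · simp [mergeArgs]
  · simp [mergeArgs]

theorem snoc_succ {k : ℕ} (x : Fin (k + 1) → A) (b : A) :
    (fun i : Fin (k + 1) => (Fin.snoc x b : Fin (k + 2) → A) i.succ)
      = (Fin.snoc (fun i : Fin k => x i.succ) b : Fin (k + 1) → A) := by
  funext i
  refine Fin.lastCases ?_ (fun i => ?_) i
  · simp
  · simp only [Fin.snoc_castSucc, ← Fin.castSucc_succ]

/-- averaging of the last variable of a cocycle -/
theorem last_avg {ι : Type} [Fintype ι] (b c : ι → A) (hbc : ∑ m, b m * c m = 1) {k : ℕ}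
    (f : (Fin (k + 1) → A) → A) (hf : ∀ a, hochschildDiff f a = 0) (x : Fin (k + 1) → A) :
    f x = ((∑ m, f (Fin.snoc (fun i : Fin k => x i.castSucc) (x (Fin.last k) * b m)) * c m)
      - (∑ m, f (Fin.snoc (fun i : Fin k => x i.castSucc) (b m)) * c m) * x (Fin.last k))
      - ((-1 : ℤ) ^ k) • hochschildDiff (fun y => ∑ m, f (Fin.snoc y (b m)) * c m) x := by
  have h1 : ∀ m, x 0 * f (Fin.snoc (fun i : Fin k => x i.succ) (b m)) * c m
      + (∑ j : Fin k, ((-1 : ℤ) ^ (j.val + 1)) • (f (Fin.snoc (mergeArgs j x) (b m)) * c m))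
      + ((-1 : ℤ) ^ (k + 1)) •
        (f (Fin.snoc (fun i : Fin k => x i.castSucc) (x (Fin.last k) * b m)) * c m)
      + ((-1 : ℤ) ^ (k + 2)) • (f x * (b m * c m)) = 0 := by
    intro m
    have h2 := hf (Fin.snoc x (b m))
    rw [hochschildDiff, Fin.sum_univ_castSucc] at h2
    simp only [mergeArgs_snoc_castSucc, mergeArgs_snoc_last, snoc_succ, Fin.snoc_castSucc,
      Fin.snoc_last, Fin.val_castSucc, Fin.val_last] at h2
    have h3 := congrArg (fun y => y * c m) h2
    simp only [zero_mul, add_mul, Finset.sum_mul, smul_mul_assoc] at h3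
    have h4 : (Fin.snoc x (b m) : Fin (k + 2) → A) 0 = x 0 := by
      exact Fin.snoc_castSucc (α := fun _ : Fin (k + 2) => A) (b m) x (0 : Fin (k + 1))
    rw [h4] at h3
    simp only [mul_assoc] at h3 ⊢
    rw [← h3]
    abel
  have h5 := Finset.sum_congr (rfl : (Finset.univ : Finset ι) = Finset.univ) (fun m _ => h1 m)
  simp only [Finset.sum_add_distrib, Finset.sum_const_zero, ← Finset.smul_sum,
    ← Finset.mul_sum, hbc, mul_one, mul_assoc] at h5
  rw [Finset.sum_comm] at h5
  simp only [← Finset.smul_sum] at h5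
  rw [hochschildDiff]
  have h6 : ((-1 : ℤ) ^ (k + 1)) = - ((-1 : ℤ) ^ k) := by rw [pow_succ]; ring
  have h7 : ((-1 : ℤ) ^ (k + 2)) = ((-1 : ℤ) ^ k) := by rw [pow_add]; norm_num
  rw [h6, h7] at h5
  rw [h6]
  rcases neg_one_pow_eq_or ℤ k with h8 | h8
  · rw [h8] at h5 ⊢
    simp only [one_smul, neg_smul] at h5 ⊢
    rw [← sub_eq_zero, ← h5]
    abel
  · rw [h8] at h5 ⊢
    simp only [one_smul, neg_smul, neg_neg] at h5 ⊢
    rw [← sub_eq_zero, ← neg_eq_zero, ← h5]
    abel

end Crest.Agent.R121.PI
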