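import Crest.Agent.R121.Defs

/-!
Row 121, block PI: averages over signed shifts, matrix bounds.
-/

set_option autoImplicit false
set_option linter.unusedSectionVars false

open scoped InnerProductSpace

namespace Crest.Agent.R121.PI

section signs

variable {ι : Type} [Fintype ι] [DecidableEq ι]

theorem sum_signs (i j : ι) : ∑ ε : ι → ℤˣ, (((ε i : ℤˣ) : ℤ) * ((ε j : ℤˣ) : ℤ))
    = if i = j then (Fintype.card (ι → ℤˣ) : ℤ) else 0 := by
  by_cases h : i = j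
  · subst h
    rw [if_pos rfl]
    have h1 : ∀ ε : ι → ℤˣ, (((ε i : ℤˣ) : ℤ) * ((ε i : ℤˣ) : ℤ)) = 1 := by
      intro ε
      rcases Int.units_eq_one_or (ε i) with h | h <;> rw [h] <;> simp
    simp only [h1, Finset.sum_const, Finset.card_univ, nsmul_eq_mul, mul_one]
  · rw [if_neg h]
    have h1 : ∑ ε : ι → ℤˣ, (((ε i : ℤˣ) : ℤ) * ((ε j : ℤˣ) : ℤ))
        = ∑ ε : ι → ℤˣ, -((((ε i : ℤˣ) : ℤ) * ((ε j : ℤˣ) : ℤ))) := by
      refine Fintype.sum_equiv (Equiv.mulLeft (Pi.mulSingle i (-1 : ℤˣ))) _ _ fun ε => ?_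
      have h2 : j ≠ i := fun h' => h h'.symm
      simp [Pi.mulSingle_eq_of_ne h2]
    rw [Finset.sum_neg_distrib] at h1
    omega

theorem sum_signs_smul {E : Type*} [AddCommGroup E] (g : ι → ι → E) :
    ∑ ε : ι → ℤˣ, ∑ i, ∑ j, ((((ε i : ℤˣ) : ℤ) * ((ε j : ℤˣ) : ℤ)) • g i j)
      = (Fintype.card (ι → ℤˣ) : ℤ) • ∑ i, g i i := by
  rw [Finset.sum_comm]
  rw [Finset.smul_sum]
  refine Finset.sum_congr rfl fun i _ => ?_
  rw [Finset.sum_comm]
  simp only [← Finset.sum_smul, sum_signs]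
  rw [Finset.sum_eq_single i]
  · rw [if_pos rfl]
  · intro j _ hj
    rw [if_neg (Ne.symm hj), zero_smul]
  · intro h
    exact absurd (Finset.mem_univ i) h

end signs

section normed

variable {ι : Type} [Fintype ι] [DecidableEq ι]
variable {A : Type*} [NormedRing A] [NormedAlgebra ℂ A]

theorem norm_avg_le (T : A →L[ℂ] A) (w v : ι → A)
    (hw : ∀ ε : ι → ℤˣ, ‖∑ i, ((ε i : ℤˣ) : ℤ) • w i‖ ≤ 1)
    (hv : ∀ ε : ι → ℤˣ, ‖∑ i, ((ε i : ℤˣ) : ℤ) • v i‖ ≤ 1) (x : A) :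
    ‖∑ i, T (x * w i) * v i‖ ≤ ‖T‖ * ‖x‖ := by
  have h1 : (Fintype.card (ι → ℤˣ) : ℤ) • ∑ i, T (x * w i) * v i
      = ∑ ε : ι → ℤˣ, T (x * ∑ i, ((ε i : ℤˣ) : ℤ) • w i) * ∑ j, ((ε j : ℤˣ) : ℤ) • v j := by
    rw [← sum_signs_smul (fun i j => T (x * w i) * v j)]
    refine Finset.sum_congr rfl fun ε _ => ?_
    simp only [Finset.mul_sum, map_sum, Finset.sum_mul, mul_smul_comm, map_zsmul, smul_mul_assoc,
      mul_smul]
    rw [Finset.sum_comm]
    refine Finset.sum_congr rfl fun i _ => ?_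
    rw [Finset.smul_sum]
    refine Finset.sum_congr rfl fun j _ => ?_
    rw [smul_comm]
  have hc : (0 : ℝ) < Fintype.card (ι → ℤˣ) := by exact_mod_cast Fintype.card_pos
  have h2 : ‖(Fintype.card (ι → ℤˣ) : ℤ) • ∑ i, T (x * w i) * v i‖
      = (Fintype.card (ι → ℤˣ) : ℝ) * ‖∑ i, T (x * w i) * v i‖ := by
    rw [← Int.cast_smul_eq_zsmul ℂ, norm_smul]
    simp
  have h3 : ‖∑ ε : ι → ℤˣ, T (x * ∑ i, ((ε i : ℤˣ) : ℤ) • w i) * ∑ j, ((ε j : ℤˣ) : ℤ) • v j‖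
      ≤ (Fintype.card (ι → ℤˣ) : ℝ) * (‖T‖ * ‖x‖) := by
    refine (norm_sum_le _ _).trans ?_
    have h4 : ∀ ε ∈ (Finset.univ : Finset (ι → ℤˣ)),
        ‖T (x * ∑ i, ((ε i : ℤˣ) : ℤ) • w i) * ∑ j, ((ε j : ℤˣ) : ℤ) • v j‖ ≤ ‖T‖ * ‖x‖ := by
      intro ε _
      calc ‖T (x * ∑ i, ((ε i : ℤˣ) : ℤ) • w i) * ∑ j, ((ε j : ℤˣ) : ℤ) • v j‖
          ≤ ‖T (x * ∑ i, ((ε i : ℤˣ) : ℤ) • w i)‖ * ‖∑ j, ((ε j : ℤˣ) : ℤ) • v j‖ :=
            norm_mul_le _ _
        _ ≤ (‖T‖ * (‖x‖ * 1)) * 1 := by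
            gcongr
            · refine (T.le_opNorm _).trans ?_
              gcongr
              refine (norm_mul_le _ _).trans ?_
              gcongr
              exact hw ε
            · exact hv ε
        _ = ‖T‖ * ‖x‖ := by ring
    refine (Finset.sum_le_sum h4).trans ?_
    rw [Finset.sum_const, nsmul_eq_mul, Finset.card_univ]
  rw [← h1, h2] at h3
  exact le_of_mul_le_mul_left h3 hc

variable [StarRing A] [CStarRing A]

theorem norm_signed_le (v : ι → A) (hv : ∀ i j, i ≠ j → star (v i) * v j = 0)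
    (hq : ‖∑ i, star (v i) * v i‖ ≤ 1) (ε : ι → ℤˣ) :
    ‖∑ i, ((ε i : ℤˣ) : ℤ) • v i‖ ≤ 1 := by
  have h1 : star (∑ i, ((ε i : ℤˣ) : ℤ) • v i) * (∑ i, ((ε i : ℤˣ) : ℤ) • v i)
      = ∑ i, star (v i) * v i := by
    rw [star_sum, Finset.sum_mul_sum]
    refine Finset.sum_congr rfl fun i _ => ?_
    rw [Finset.sum_eq_single i]
    · rw [star_zsmul, smul_mul_assoc, mul_smul_comm, smul_smul]
      rcases Int.units_eq_one_or (ε i) with h | h <;> rw [h] <;> simp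
    · intro j _ hj
      rw [star_zsmul, smul_mul_assoc, mul_smul_comm, hv i j (Ne.symm hj)]
      simp
    · intro h
      exact absurd (Finset.mem_univ i) h
  have h2 := CStarRing.norm_star_mul_self (x := ∑ i, ((ε i : ℤˣ) : ℤ) • v i)
  rw [h1] at h2
  nlinarith [norm_nonneg (∑ i, ((ε i : ℤˣ) : ℤ) • v i)]

theorem norm_signed_star_le (v : ι → A) (hv : ∀ i j, i ≠ j → star (v i) * v j = 0)
    (hq : ‖∑ i, star (v i) * v i‖ ≤ 1) (ε : ι → ℤˣ) :
    ‖∑ i, ((ε i : ℤˣ) : ℤ) • star (v i)‖ ≤ 1 := by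
  have : ∑ i, ((ε i : ℤˣ) : ℤ) • star (v i) = star (∑ i, ((ε i : ℤˣ) : ℤ) • v i) := by
    rw [star_sum]
    simp only [star_zsmul]
  rw [this, norm_star]
  exact norm_signed_le v hv hq ε

end normed

section fam

variable {H : Type*} [NormedAddCommGroup H] [InnerProductSpace ℂ H] [CompleteSpace H]
variable {M : VonNeumannAlgebra H}

/-- isometries with orthogonal ranges (relative to the central projection `z`) -/
structure Fam (z : Al M) {ι : Type} (s : ι → Al M) : Prop where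
  same : ∀ i, star (s i) * s i = z
  diff : ∀ i j, i ≠ j → star (s i) * s j = 0

theorem coe_mul_apply (x y : Al M) (ξ : H) :
    ((x * y : Al M) : H →L[ℂ] H) ξ = (x : H →L[ℂ] H) ((y : H →L[ℂ] H) ξ) := rfl

theorem coe_sum_apply {κ : Type*} (S : Finset κ) (x : κ → Al M) (ξ : H) :
    ((∑ i ∈ S, x i : Al M) : H →L[ℂ] H) ξ = ∑ i ∈ S, (x i : H →L[ℂ] H) ξ := by
  have : ((∑ i ∈ S, x i : Al M) : H →L[ℂ] H) = ∑ i ∈ S, (x i : H →L[ℂ] H) := by
    push_cast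
    rfl
  rw [this, sum_apply]

theorem inner_star_left (x : Al M) (ξ η : H) :
    ⟪((star x : Al M) : H →L[ℂ] H) ξ, η⟫_ℂ = ⟪ξ, (x : H →L[ℂ] H) η⟫_ℂ :=
  ContinuousLinearMap.adjoint_inner_left _ _ _

theorem norm_apply_le (x : Al M) (ξ : H) : ‖(x : H →L[ℂ] H) ξ‖ ≤ ‖x‖ * ‖ξ‖ :=
  (x : H →L[ℂ] H).le_opNorm ξ

theorem norm_proj_le {p : Al M} (h : IsStarProjection p) : ‖p‖ ≤ 1 := by
  have h1 := CStarRing.norm_star_mul_self (x := p)
  rw [h.isSelfAdjoint.star_eq, h.isIdempotentElem.eq] at h1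
  by_contra hcon
  push Not at hcon
  nlinarith

variable {z : Al M} {ι : Type} [Fintype ι] [DecidableEq ι] {s : ι → Al M}

theorem Fam.mul_z (hz : IsCP M z) (hs : Fam z s) (i : ι) : s i * z = s i := by
  have h1 : star (s i * z - s i) * (s i * z - s i) = 0 := by
    have h2 := hz.proj.isIdempotentElem.eq
    have h3 := hz.proj.isSelfAdjoint.star_eq
    rw [star_sub, star_mul, h3, sub_mul, mul_sub, mul_sub]
    have h4 : z * star (s i) * (s i * z) = z := by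
      rw [mul_assoc, ← mul_assoc (star (s i)), hs.same, h2, h2]
    have h5 : z * star (s i) * s i = z := by
      rw [mul_assoc, hs.same, h2]
    have h6 : star (s i) * (s i * z) = z := by
      rw [← mul_assoc, hs.same, h2]
    rw [h4, h5, h6, hs.same]
    simp
  have h2 := CStarRing.norm_star_mul_self (x := s i * z - s i)
  rw [h1, norm_zero] at h2
  have h3 : ‖s i * z - s i‖ = 0 := by nlinarith [norm_nonneg (s i * z - s i)]
  exact sub_eq_zero.mp (norm_eq_zero.mp h3)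

theorem Fam.z_mul (hz : IsCP M z) (hs : Fam z s) (i : ι) : z * s i = s i := by
  rw [hz.comm, hs.mul_z hz]

theorem Fam.star_mul_z (hz : IsCP M z) (hs : Fam z s) (i : ι) : star (s i) * z = star (s i) := by
  have := congrArg star (hs.z_mul hz i)
  rwa [star_mul, hz.proj.isSelfAdjoint.star_eq] at this

theorem Fam.z_mul_star (hz : IsCP M z) (hs : Fam z s) (i : ι) : z * star (s i) = star (s i) := by
  rw [hz.comm, hs.star_mul_z hz]

theorem Fam.star_mul (hs : Fam z s) (i j : ι) : star (s i) * s j = if i = j then z else 0 := by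
  by_cases h : i = j
  · subst h
    rw [if_pos rfl, hs.same]
  · rw [if_neg h, hs.diff i j h]

theorem Fam.proj (hz : IsCP M z) (hs : Fam z s) :
    IsStarProjection (∑ i, s i * star (s i)) := by
  constructor
  · change (∑ i, s i * star (s i)) * (∑ i, s i * star (s i)) = ∑ i, s i * star (s i)
    rw [Finset.sum_mul_sum]
    refine Finset.sum_congr rfl fun i _ => ?_
    rw [Finset.sum_eq_single i]
    · rw [mul_assoc, ← mul_assoc (star (s i)), hs.same, hs.z_mul_star hz]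
    · intro j _ hj
      rw [mul_assoc, ← mul_assoc (star (s i)), hs.diff i j (Ne.symm hj)]
      simp
    · intro h
      exact absurd (Finset.mem_univ i) h
  · change star (∑ i, s i * star (s i)) = ∑ i, s i * star (s i)
    rw [star_sum]
    refine Finset.sum_congr rfl fun i _ => ?_
    rw [StarMul.star_mul, star_star]

theorem Fam.bessel (hz : IsCP M z) (hs : Fam z s) (ζ : H) :
    ∑ i, ‖((star (s i) : Al M) : H →L[ℂ] H) ζ‖ ^ 2 ≤ ‖ζ‖ ^ 2 := by
  have h1 : ∀ i, ((‖((star (s i) : Al M) : H →L[ℂ] H) ζ‖ ^ 2 : ℝ) : ℂ)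
      = ⟪ζ, ((s i * star (s i) : Al M) : H →L[ℂ] H) ζ⟫_ℂ := by
    intro i
    rw [coe_mul_apply, ← inner_star_left, inner_self_eq_norm_sq_to_K]
    simp
  have h2 : ((∑ i, ‖((star (s i) : Al M) : H →L[ℂ] H) ζ‖ ^ 2 : ℝ) : ℂ)
      = ⟪ζ, ((∑ i, s i * star (s i) : Al M) : H →L[ℂ] H) ζ⟫_ℂ := by
    rw [coe_sum_apply, inner_sum, Complex.ofReal_sum]
    exact Finset.sum_congr rfl fun i _ => h1 i
  have h3 : ‖⟪ζ, ((∑ i, s i * star (s i) : Al M) : H →L[ℂ] H) ζ⟫_ℂ‖ ≤ ‖ζ‖ ^ 2 := by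
    refine (norm_inner_le_norm _ _).trans ?_
    have h4 := norm_apply_le (∑ i, s i * star (s i)) ζ
    have h5 := norm_proj_le (hs.proj hz)
    calc ‖ζ‖ * ‖((∑ i, s i * star (s i) : Al M) : H →L[ℂ] H) ζ‖
        ≤ ‖ζ‖ * (1 * ‖ζ‖) := by
          gcongr
          refine h4.trans ?_
          gcongr
      _ = ‖ζ‖ ^ 2 := by ring
  rw [← h2] at h3
  rw [Complex.norm_real, Real.norm_of_nonneg (by positivity)] at h3
  exact h3

theorem Fam.comb (hz : IsCP M z) (hs : Fam z s) (ξ : ι → H) :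
    ‖∑ i, (s i : H →L[ℂ] H) (ξ i)‖ ^ 2 ≤ ∑ i, ‖ξ i‖ ^ 2 := by
  have h1 : (((‖∑ i, (s i : H →L[ℂ] H) (ξ i)‖ ^ 2 : ℝ)) : ℂ)
      = ∑ i, ⟪ξ i, (z : H →L[ℂ] H) (ξ i)⟫_ℂ := by
    have : (((‖∑ i, (s i : H →L[ℂ] H) (ξ i)‖ ^ 2 : ℝ)) : ℂ)
        = ⟪∑ i, (s i : H →L[ℂ] H) (ξ i), ∑ i, (s i : H →L[ℂ] H) (ξ i)⟫_ℂ := by
      rw [inner_self_eq_norm_sq_to_K]
      simp
    rw [this, sum_inner]
    refine Finset.sum_congr rfl fun i _ => ?_
    rw [inner_sum, Finset.sum_eq_single i]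
    · have h2 : ⟪(s i : H →L[ℂ] H) (ξ i), (s i : H →L[ℂ] H) (ξ i)⟫_ℂ
          = ⟪ξ i, ((star (s i) * s i : Al M) : H →L[ℂ] H) (ξ i)⟫_ℂ := by
        rw [coe_mul_apply]
        have := inner_star_left (star (s i)) (ξ i) ((s i : H →L[ℂ] H) (ξ i))
        rw [star_star] at this
        exact this
      rw [h2, hs.same]
    · intro j _ hj
      have h2 : ⟪(s i : H →L[ℂ] H) (ξ i), (s j : H →L[ℂ] H) (ξ j)⟫_ℂ
          = ⟪ξ i, ((star (s i) * s j : Al M) : H →L[ℂ] H) (ξ j)⟫_ℂ := by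
        rw [coe_mul_apply]
        have := inner_star_left (star (s i)) (ξ i) ((s j : H →L[ℂ] H) (ξ j))
        rw [star_star] at this
        exact this
      rw [h2, hs.diff i j (Ne.symm hj)]
      simp
    · intro h
      exact absurd (Finset.mem_univ i) h
  have h2 : ‖(((‖∑ i, (s i : H →L[ℂ] H) (ξ i)‖ ^ 2 : ℝ)) : ℂ)‖ ≤ ∑ i, ‖ξ i‖ ^ 2 := by
    rw [h1]
    refine (norm_sum_le _ _).trans (Finset.sum_le_sum fun i _ => ?_)
    refine (norm_inner_le_norm _ _).trans ?_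
    have h4 := norm_apply_le z (ξ i)
    have h5 := norm_proj_le hz.proj
    calc ‖ξ i‖ * ‖(z : H →L[ℂ] H) (ξ i)‖ ≤ ‖ξ i‖ * (1 * ‖ξ i‖) := by
          gcongr
          refine h4.trans ?_
          gcongr
      _ = ‖ξ i‖ ^ 2 := by ring
  rwa [Complex.norm_real, Real.norm_of_nonneg (by positivity)] at h2

theorem Fam.comp_inj {κ : Type} (hs : Fam z s) {e : κ → ι} (he : Function.Injective e) :
    Fam z (fun i => s (e i)) :=
  ⟨fun _ => hs.same _, fun _ _ hij => hs.diff _ _ (fun h => hij (he h))⟩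

/-- the norm of the assembled matrix -/
theorem Fam.norm_assemble (hz : IsCP M z) {κ : Type} [Fintype κ] [DecidableEq κ]
    {t : κ → Al M} (ht : Fam z t) (hs : Fam z s) (X : κ → ι → Al M) {c : ℝ} (hc : 0 ≤ c)
    (hX : MB (fun p q => (X p q : H →L[ℂ] H)) c) :
    ‖∑ p, ∑ q, t p * X p q * star (s q)‖ ≤ c := by
  have : ‖((∑ p, ∑ q, t p * X p q * star (s q) : Al M) : H →L[ℂ] H)‖ ≤ c := by
    refine ContinuousLinearMap.opNorm_le_bound _ hc fun ξ => ?_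
    have h1 : ((∑ p, ∑ q, t p * X p q * star (s q) : Al M) : H →L[ℂ] H) ξ
        = ∑ p, (t p : H →L[ℂ] H)
          (∑ q, (X p q : H →L[ℂ] H) (((star (s q) : Al M) : H →L[ℂ] H) ξ)) := by
      rw [coe_sum_apply]
      refine Finset.sum_congr rfl fun p _ => ?_
      rw [coe_sum_apply, map_sum]
      refine Finset.sum_congr rfl fun q _ => ?_
      rw [coe_mul_apply, coe_mul_apply]
    rw [h1]
    have h2 := ht.comb hz
      (fun p => ∑ q, (X p q : H →L[ℂ] H) (((star (s q) : Al M) : H →L[ℂ] H) ξ))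
    have h3 := hX (fun q => ((star (s q) : Al M) : H →L[ℂ] H) ξ)
    have h4 := hs.bessel hz ξ
    refine le_of_sq_le_sq (h2.trans (h3.trans ?_)) (by positivity)
    calc c ^ 2 * ∑ q, ‖((star (s q) : Al M) : H →L[ℂ] H) ξ‖ ^ 2 ≤ c ^ 2 * ‖ξ‖ ^ 2 := by gcongr
      _ = (c * ‖ξ‖) ^ 2 := by ring
  exact this

end fam

end Crest.Agent.R121.PI
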