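import Crest.Agent.R121.PIRight
import Crest.Agent.R121.PIAlg
import Crest.Agent.R121.C2

/-!
Row 121, block PI: the reduction for a fixed finite family of isometries.
-/

set_option autoImplicit false
set_option linter.unusedSectionVars false

open scoped InnerProductSpace

namespace Crest.Agent.R121.PI

open Crest.OpAlg

section diff

variable {A : Type*} [Ring A] {k : ℕ}

theorem dif_add (f g : (Fin k → A) → A) (a : Fin (k + 1) → A) :
    hochschildDiff (fun y => f y + g y) a = hochschildDiff f a + hochschildDiff g a := by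
  simp only [hochschildDiff, mul_add, add_mul, smul_add, Finset.sum_add_distrib]
  abel

theorem dif_sub (f g : (Fin k → A) → A) (a : Fin (k + 1) → A) :
    hochschildDiff (fun y => f y - g y) a = hochschildDiff f a - hochschildDiff g a := by
  simp only [hochschildDiff, mul_sub, sub_mul, smul_sub, Finset.sum_sub_distrib]
  abel

theorem dif_zsmul (c : ℤ) (f : (Fin k → A) → A) (a : Fin (k + 1) → A) :
    hochschildDiff (fun y => c • f y) a = c • hochschildDiff f a := by
  simp only [hochschildDiff, mul_smul_comm, smul_mul_assoc, smul_add, Finset.smul_sum,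
    smul_comm c]

theorem dif_smul [Algebra ℂ A] (c : ℂ) (f : (Fin k → A) → A) (a : Fin (k + 1) → A) :
    hochschildDiff (fun y => c • f y) a = c • hochschildDiff f a := by
  simp only [hochschildDiff, mul_smul_comm, smul_mul_assoc, smul_add, Finset.smul_sum,
    smul_comm c]

theorem dif_sum {ι : Type*} (S : Finset ι) (f : ι → (Fin k → A) → A) (a : Fin (k + 1) → A) :
    hochschildDiff (fun y => ∑ i ∈ S, f i y) a = ∑ i ∈ S, hochschildDiff (f i) a := by
  classical
  induction S using Finset.induction_on with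
  | empty =>
    simp [hochschildDiff]
  | insert i S hi ih =>
    simp only [Finset.sum_insert hi]
    rw [dif_add, ih]

theorem dif_central (c : A) (hc : ∀ x, c * x = x * c) (f : (Fin k → A) → A)
    (a : Fin (k + 1) → A) :
    hochschildDiff (fun y => c * f y) a = c * hochschildDiff f a := by
  unfold hochschildDiff
  rw [mul_add, mul_add, Finset.mul_sum]
  congr 1
  · congr 1
    · rw [← mul_assoc, ← hc, mul_assoc]
    · refine Finset.sum_congr rfl fun j _ => ?_
      rw [mul_smul_comm]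
  · rw [mul_smul_comm, mul_assoc]

end diff

variable {H : Type*} [NormedAddCommGroup H] [InnerProductSpace ℂ H] [CompleteSpace H]
variable {M : VonNeumannAlgebra H} {z : Al M}

/-- a cochain which is `f z - d g` is a cocycle -/
theorem isCocycle_of_eq (hz : ∀ x : Al M, z * x = x * z) {k : ℕ} {f ψ : Coch M (k + 1)}
    {g : Coch M k} (hf : IsCocycle f)
    (h : ∀ x, f x * z = hochschildDiff g x + ψ x) : IsCocycle ψ := by
  intro a
  have h1 : (fun x => ψ x) = fun x => z * f x - hochschildDiff g x := by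
    funext x
    rw [hz, h]
    abel
  have h2 : hochschildDiff (fun x => ψ x) a = 0 := by
    rw [h1, dif_sub, dif_central z hz, hochschildDiff_hochschildDiff, sub_zero]
    have := hf a
    rw [this, mul_zero]
  exact h2

variable {h : ℕ} [NeZero h] {s : Fin h → Al M}

theorem norm_s_le (hz : IsCP M z) (hs : Fam z s) (j : Fin h) : ‖s j‖ ≤ 1 := by
  have h1 := CStarRing.norm_star_mul_self (x := s j)
  rw [hs.same] at h1
  have h2 := norm_proj_le hz.proj
  nlinarith [norm_nonneg (s j)]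

/-- right modular part of a cochain -/
noncomputable def f1 (hz : IsCP M z) (hs : Fam z s) {k : ℕ} (f : Coch M (k + 1)) :
    Coch M (k + 1) :=
  ((lam hz hs).compContinuousMultilinearMap f.curryRight).uncurryRight

theorem f1_snoc (hz : IsCP M z) (hs : Fam z s) {k : ℕ} (f : Coch M (k + 1)) (a : Fin k → Al M)
    (x : Al M) : f1 hz hs f (Fin.snoc a x) = lam hz hs (f.curryRight a) x := by
  rw [f1, ContinuousMultilinearMap.uncurryRight_apply]
  simp

theorem f1_apply (hz : IsCP M z) (hs : Fam z s) {k : ℕ} (f : Coch M (k + 1))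
    (x : Fin (k + 1) → Al M) : f1 hz hs f x =
      (∑ m, f (Fin.snoc (fun i : Fin k => x i.castSucc) (x (Fin.last k) * bb s m)) * cc s m)
      - (∑ m, f (Fin.snoc (fun i : Fin k => x i.castSucc) (bb s m)) * cc s m)
        * x (Fin.last k) := by
  rw [f1, ContinuousMultilinearMap.uncurryRight_apply]
  simp only [ContinuousLinearMap.compContinuousMultilinearMap_coe, Function.comp_apply]
  rw [lam_apply]
  rfl

theorem norm_f1_le (hz : IsCP M z) (hs : Fam z s) {k : ℕ} (f : Coch M (k + 1)) :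
    ‖f1 hz hs f‖ ≤ 2 * ‖f‖ := by
  rw [f1, ContinuousMultilinearMap.uncurryRight_norm]
  refine (ContinuousLinearMap.norm_compContinuousMultilinearMap_le _ _).trans ?_
  rw [ContinuousMultilinearMap.curryRight_norm]
  gcongr
  exact norm_lam_le hz hs

/-- the cochain `χ` -/
noncomputable def chi (hz : IsCP M z) (hs : Fam z s) {k : ℕ} (f : Coch M (k + 1)) : Coch M k :=
  (avg1 hz hs).compContinuousMultilinearMap f.curryRight

theorem chi_apply (hz : IsCP M z) (hs : Fam z s) {k : ℕ} (f : Coch M (k + 1))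
    (y : Fin k → Al M) : chi hz hs f y = ∑ m, f (Fin.snoc y (bb s m)) * cc s m := by
  rw [chi]
  simp only [ContinuousLinearMap.compContinuousMultilinearMap_coe, Function.comp_apply]
  rw [avg1_apply]
  rfl

theorem norm_chi_le (hz : IsCP M z) (hs : Fam z s) {k : ℕ} (f : Coch M (k + 1)) :
    ‖chi hz hs f‖ ≤ ‖f‖ := by
  refine (ContinuousLinearMap.norm_compContinuousMultilinearMap_le _ _).trans ?_
  rw [ContinuousMultilinearMap.curryRight_norm]
  calc ‖avg1 hz hs‖ * ‖f‖ ≤ 1 * ‖f‖ := by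
        gcongr
        exact norm_avg1_le hz hs
    _ = ‖f‖ := one_mul _

theorem f_eq (hz : IsCP M z) (hs : Fam z s) {k : ℕ} (f : Coch M (k + 1)) (hf : IsCocycle f)
    (x : Fin (k + 1) → Al M) :
    f x = f1 hz hs f x - ((-1 : ℤ) ^ k) • hochschildDiff (chi hz hs f) x := by
  have h1 := last_avg (bb s) (cc s) (sum_bb_cc hz hs) f hf x
  rw [h1, f1_apply]
  congr 2

theorem f1_cocycle (hz : IsCP M z) (hs : Fam z s) {k : ℕ} (f : Coch M (k + 1))
    (hf : IsCocycle f) : IsCocycle (f1 hz hs f) := by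
  intro a
  have h1 : (fun x => f1 hz hs f x)
      = fun x => f x + ((-1 : ℤ) ^ k) • hochschildDiff (chi hz hs f) x := by
    funext x
    rw [f_eq hz hs f hf x]
    abel
  have h2 : hochschildDiff (fun x => f1 hz hs f x) a = 0 := by
    rw [h1, dif_add, dif_zsmul, hochschildDiff_hochschildDiff, smul_zero, add_zero]
    exact hf a
  exact h2

/-- the linear map `w ↦ (1/h) ∑ s_j^* w s_j` -/
noncomputable def psiL (hz : IsCP M z) (hs : Fam z s) : Al M →L[ℂ] Al M :=
  LinearMap.mkContinuous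
    { toFun := fun w => (h : ℂ)⁻¹ • ∑ j, star (s j) * w * s j
      map_add' := by
        intro x y
        simp only [mul_add, add_mul, Finset.sum_add_distrib, smul_add]
      map_smul' := by
        intro c x
        simp only [mul_smul_comm, smul_mul_assoc, ← Finset.smul_sum, RingHom.id_apply]
        rw [smul_comm] }
    1 (fun w => by
      change ‖(h : ℂ)⁻¹ • ∑ j, star (s j) * w * s j‖ ≤ 1 * ‖w‖
      have hh : (0 : ℝ) < h := by exact_mod_cast Nat.pos_of_ne_zero (NeZero.ne h)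
      rw [norm_smul, norm_inv, Complex.norm_natCast]
      have h1 : ‖∑ j, star (s j) * w * s j‖ ≤ (h : ℝ) * ‖w‖ := by
        refine (norm_sum_le _ _).trans ?_
        have h2 : ∀ j ∈ (Finset.univ : Finset (Fin h)), ‖star (s j) * w * s j‖ ≤ ‖w‖ := by
          intro j _
          have h3 := norm_s_le hz hs j
          calc ‖star (s j) * w * s j‖ ≤ ‖star (s j) * w‖ * ‖s j‖ := norm_mul_le _ _
            _ ≤ (‖star (s j)‖ * ‖w‖) * 1 := by
                gcongr
                exact norm_mul_le _ _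
            _ ≤ (1 * ‖w‖) * 1 := by
                gcongr
                rwa [norm_star]
            _ = ‖w‖ := by ring
        refine (Finset.sum_le_sum h2).trans ?_
        rw [Finset.sum_const, Finset.card_univ, Fintype.card_fin, nsmul_eq_mul]
      calc (h : ℝ)⁻¹ * ‖∑ j, star (s j) * w * s j‖ ≤ (h : ℝ)⁻¹ * ((h : ℝ) * ‖w‖) := by gcongr
        _ = 1 * ‖w‖ := by field_simp)

theorem psiL_apply (hz : IsCP M z) (hs : Fam z s) (w : Al M) :
    psiL hz hs w = (h : ℂ)⁻¹ • ∑ j, star (s j) * w * s j := rfl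

theorem norm_psiL_le (hz : IsCP M z) (hs : Fam z s) : ‖psiL hz hs‖ ≤ 1 :=
  LinearMap.mkContinuous_norm_le _ zero_le_one _

theorem norm_sgL_le (hz : IsCP M z) (hs : Fam z s) : ‖sgL hz hs‖ ≤ 1 :=
  LinearMap.mkContinuous_norm_le _ zero_le_one _

/-- the reduced cocycle -/
noncomputable def psi (hz : IsCP M z) (hs : Fam z s) {k : ℕ} (f : Coch M (k + 1)) :
    Coch M (k + 1) :=
  (psiL hz hs).compContinuousMultilinearMap
    ((f1 hz hs f).compContinuousLinearMap (fun _ => sgL hz hs))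

theorem psi_apply (hz : IsCP M z) (hs : Fam z s) {k : ℕ} (f : Coch M (k + 1))
    (x : Fin (k + 1) → Al M) :
    psi hz hs f x = (h : ℂ)⁻¹ • ∑ j, star (s j) * f1 hz hs f (fun i => sg s (x i)) * s j := rfl

theorem norm_psi_le (hz : IsCP M z) (hs : Fam z s) {k : ℕ} (f : Coch M (k + 1)) :
    ‖psi hz hs f‖ ≤ 2 * ‖f‖ := by
  refine (ContinuousLinearMap.norm_compContinuousMultilinearMap_le _ _).trans ?_
  have h1 := (f1 hz hs f).norm_compContinuousLinearMap_le (fun _ => sgL hz hs)
  have h2 : ∏ _i : Fin (k + 1), ‖sgL hz hs‖ ≤ 1 :=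
    Finset.prod_le_one (fun i _ => norm_nonneg _) (fun i _ => norm_sgL_le hz hs)
  have h3 := norm_f1_le hz hs f
  have h4 := norm_psiL_le hz hs
  calc ‖psiL hz hs‖ * ‖(f1 hz hs f).compContinuousLinearMap (fun _ => sgL hz hs)‖
      ≤ 1 * (‖f1 hz hs f‖ * 1) := by
        gcongr
        refine h1.trans ?_
        gcongr
    _ ≤ 2 * ‖f‖ := by linarith

theorem psi_snoc (hz : IsCP M z) (hs : Fam z s) {k : ℕ} (f : Coch M (k + 1))
    (a : Fin k → Al M) (x : Al M) :
    psi hz hs f (Fin.snoc a x)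
      = Psi s (lam hz hs (f.curryRight (fun i => sg s (a i)))) x := by
  rw [psi_apply, Psi]
  have h1 : (fun i => sg s ((Fin.snoc a x : Fin (k + 1) → Al M) i))
      = (Fin.snoc (fun i => sg s (a i)) (sg s x) : Fin (k + 1) → Al M) := by
    funext i
    refine Fin.lastCases ?_ (fun i => ?_) i
    · simp
    · simp
  rw [h1, f1_snoc]

theorem psi_MB (hz : IsCP M z) (hs : Fam z s) {k : ℕ} (f : Coch M (k + 1))
    (a : Fin k → Al M) {n : ℕ} (hn : n ≤ h) (X : Fin n → Fin n → Al M)
    (hX : MB (fun p q => (X p q : H →L[ℂ] H)) 1) :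
    MB (fun p q => ((psi hz hs f (Fin.snoc a (X p q)) : Al M) : H →L[ℂ] H))
      (2 * ‖f‖ * ∏ i, ‖a i‖) := by
  simp only [psi_snoc]
  have h1 := Psi_MB hz hs (lam hz hs (f.curryRight (fun i => sg s (a i))))
    (fun y m n => lam_right hz hs _ y m n) (Fin.castLE hn) (Fin.castLE_injective hn) X hX
  intro ξ
  refine (h1 ξ).trans ?_
  have h2 : ‖lam hz hs (f.curryRight (fun i => sg s (a i)))‖ ≤ 2 * ‖f‖ * ∏ i, ‖a i‖ := by
    have h3 : ‖f.curryRight (fun i => sg s (a i))‖ ≤ ‖f‖ * ∏ i, ‖a i‖ := by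
      refine (f.curryRight.le_opNorm _).trans ?_
      rw [ContinuousMultilinearMap.curryRight_norm]
      gcongr with i _
      exact norm_sg_le hz hs (a i)
    calc ‖lam hz hs (f.curryRight (fun i => sg s (a i)))‖
        ≤ ‖lam hz hs‖ * ‖f.curryRight (fun i => sg s (a i))‖ := (lam hz hs).le_opNorm _
      _ ≤ 2 * (‖f‖ * ∏ i, ‖a i‖) := by
          gcongr
          exact norm_lam_le hz hs
      _ = 2 * ‖f‖ * ∏ i, ‖a i‖ := by ring
  gcongr

theorem neg_one_pow_smul {E : Type*} [AddCommGroup E] [Module ℂ E] (k : ℕ) (w : E) :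
    ((-1 : ℂ) ^ k) • w = ((-1 : ℤ) ^ k) • w := by
  rcases Nat.even_or_odd k with h | h
  · rw [h.neg_one_pow, h.neg_one_pow, one_smul, one_smul]
  · rw [h.neg_one_pow, h.neg_one_pow, neg_smul, neg_smul, one_smul, one_smul]

/-- `z χ` -/
noncomputable def zchi (hz : IsCP M z) (hs : Fam z s) {k : ℕ} (f : Coch M (k + 1)) : Coch M k :=
  (ContinuousLinearMap.mul ℂ (Al M) z).compContinuousMultilinearMap (chi hz hs f)

theorem zchi_apply (hz : IsCP M z) (hs : Fam z s) {k : ℕ} (f : Coch M (k + 1))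
    (y : Fin k → Al M) : zchi hz hs f y = z * chi hz hs f y := rfl

theorem norm_zchi_le (hz : IsCP M z) (hs : Fam z s) {k : ℕ} (f : Coch M (k + 1)) :
    ‖zchi hz hs f‖ ≤ ‖f‖ := by
  refine (ContinuousLinearMap.norm_compContinuousMultilinearMap_le _ _).trans ?_
  have h5 : ‖ContinuousLinearMap.mul ℂ (Al M) z‖ ≤ 1 :=
    (ContinuousLinearMap.opNorm_mul_apply_le ℂ (Al M) z).trans (norm_proj_le hz.proj)
  have h6 := norm_chi_le hz hs f
  calc ‖ContinuousLinearMap.mul ℂ (Al M) z‖ * ‖chi hz hs f‖ ≤ 1 * ‖f‖ := by gcongr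
    _ = ‖f‖ := one_mul _

theorem exists_kappa (hz : IsCP M z) (hs : Fam z s) {k : ℕ} (f : Coch M (k + 1))
    (hf : IsCocycle f) (j : Fin h) : ∃ κ : Coch M k, ‖κ‖ ≤ (k + 1) * (2 * ‖f‖) ∧
      ∀ x, z * f1 hz hs f x = hochschildDiff κ x
        + star (s j) * f1 hz hs f (fun i => sg s (x i)) * s j := by
  obtain ⟨κ, h1, h2⟩ := exists_homotopy (f1 hz hs f) (f1_cocycle hz hs f hf) (sgL hz hs)
    (star (s j)) (s j) (fun a b => sg_mul hz hs a b) (fun a => norm_sg_le hz hs a)
    (fun a => star_s_mul_sg hz hs a j) (fun a => sg_mul_s hz hs a j)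
  refine ⟨κ, h1.trans ?_, fun x => ?_⟩
  · have h3 := norm_s_le hz hs j
    have h4 := norm_f1_le hz hs f
    have h5 : ‖star (s j)‖ ≤ 1 := by rwa [norm_star]
    calc ((k : ℝ) + 1) * ‖f1 hz hs f‖ * ‖star (s j)‖ * ‖s j‖
        ≤ ((k : ℝ) + 1) * (2 * ‖f‖) * 1 * 1 := by gcongr
      _ = (k + 1) * (2 * ‖f‖) := by ring
  · have h3 := h2 x
    rw [hs.same] at h3
    exact h3

theorem exists_kap (hz : IsCP M z) (hs : Fam z s) {k : ℕ} (f : Coch M (k + 1))
    (hf : IsCocycle f) : ∃ κ : Coch M k, ‖κ‖ ≤ (k + 1) * (2 * ‖f‖) ∧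
      ∀ x, z * f1 hz hs f x = hochschildDiff κ x + psi hz hs f x := by
  choose κ hκ1 hκ2 using exists_kappa hz hs f hf
  have hh : (0 : ℝ) < h := by exact_mod_cast Nat.pos_of_ne_zero (NeZero.ne h)
  have hhC : (h : ℂ) ≠ 0 := by exact_mod_cast NeZero.ne h
  refine ⟨(h : ℂ)⁻¹ • ∑ j, κ j, ?_, ?_⟩
  · rw [norm_smul, norm_inv, Complex.norm_natCast]
    have h2 : ‖∑ j, κ j‖ ≤ (h : ℝ) * ((k + 1) * (2 * ‖f‖)) := by
      refine (norm_sum_le _ _).trans ?_
      refine (Finset.sum_le_sum fun j _ => hκ1 j).trans ?_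
      rw [Finset.sum_const, Finset.card_univ, Fintype.card_fin, nsmul_eq_mul]
    calc (h : ℝ)⁻¹ * ‖∑ j, κ j‖ ≤ (h : ℝ)⁻¹ * ((h : ℝ) * ((k + 1) * (2 * ‖f‖))) := by gcongr
      _ = (k + 1) * (2 * ‖f‖) := by field_simp
  · intro x
    have h1 : (⇑((h : ℂ)⁻¹ • ∑ j, κ j) : (Fin k → Al M) → Al M)
        = fun y => (h : ℂ)⁻¹ • ∑ j, κ j y := by
      funext y
      rw [smul_apply, sum_apply]
    rw [h1, dif_smul, dif_sum, psi_apply, ← smul_add, ← Finset.sum_add_distrib]
    simp only [← hκ2]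
    rw [Finset.sum_const, Finset.card_univ, Fintype.card_fin, ← Nat.cast_smul_eq_nsmul ℂ,
      smul_smul, inv_mul_cancel₀ hhC, one_smul]

/-- **the reduction for a fixed family** -/
theorem exists_fixed (hz : IsCP M z) (hs : Fam z s) {k : ℕ} (f : Coch M (k + 1))
    (hf : IsCocycle f) : ∃ g : Coch M k, ‖g‖ ≤ (2 * k + 3) * ‖f‖ ∧
      ∀ x, f x * z = hochschildDiff g x + psi hz hs f x := by
  obtain ⟨κ, h1, h2⟩ := exists_kap hz hs f hf
  refine ⟨κ - ((-1 : ℂ) ^ k) • zchi hz hs f, ?_, ?_⟩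
  · refine (norm_sub_le _ _).trans ?_
    have h3 : ‖((-1 : ℂ) ^ k) • zchi hz hs f‖ ≤ ‖f‖ := by
      rw [norm_smul]
      have h4 : ‖((-1 : ℂ) ^ k)‖ = 1 := by simp
      rw [h4, one_mul]
      exact norm_zchi_le hz hs f
    linarith
  · intro x
    have h3 : (⇑(κ - ((-1 : ℂ) ^ k) • zchi hz hs f) : (Fin k → Al M) → Al M)
        = fun y => κ y - ((-1 : ℤ) ^ k) • (z * chi hz hs f y) := by
      funext y
      rw [sub_apply, smul_apply, zchi_apply, neg_one_pow_smul]
    rw [h3, dif_sub, dif_zsmul, dif_central z hz.comm, ← hz.comm]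
    conv_lhs => rw [f_eq hz hs f hf x]
    rw [mul_sub, mul_smul_comm, h2]
    abel

end Crest.Agent.R121.PI
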