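import Crest.Agent.R121.PICol

/-!
Row 121, block PI: right averaging over signed shifts, `E(T)(y) = ∑ T(y b_m) c_m`.
-/

set_option autoImplicit false
set_option linter.unusedSectionVars false

open scoped InnerProductSpace

namespace Crest.Agent.R121.PI

variable {H : Type*} [NormedAddCommGroup H] [InnerProductSpace ℂ H] [CompleteSpace H]
variable {M : VonNeumannAlgebra H} {z : Al M}
variable {h : ℕ} [NeZero h] {s : Fin h → Al M}

/-- `∑ s_i s_i^*` -/
noncomputable def pp (s : Fin h → Al M) : Al M := ∑ i, s i * star (s i)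

theorem pp_mul_s (hz : IsCP M z) (hs : Fam z s) (j : Fin h) : pp s * s j = s j := by
  rw [pp, Finset.sum_mul, Finset.sum_eq_single j]
  · rw [mul_assoc, hs.same, hs.mul_z hz]
  · intro i _ hi
    rw [mul_assoc, hs.diff i j hi, mul_zero]
  · intro h
    exact absurd (Finset.mem_univ j) h

theorem star_s_mul_pp (hz : IsCP M z) (hs : Fam z s) (j : Fin h) :
    star (s j) * pp s = star (s j) := by
  have h1 := congrArg star (pp_mul_s hz hs j)
  have h2 : star (pp s) = pp s := (hs.proj hz).isSelfAdjoint.star_eq
  rwa [star_mul, h2] at h1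

/-- left parts -/
noncomputable def bb (s : Fin h → Al M) : Option (Fin h × Fin h) → Al M
  | none => 1 - pp s
  | some m => s m.1 * star (s m.2)

/-- right parts -/
noncomputable def cc (s : Fin h → Al M) : Option (Fin h × Fin h) → Al M
  | none => 1 - pp s
  | some m => (h : ℂ)⁻¹ • (s m.2 * star (s m.1))

theorem q_mul_q (hz : IsCP M z) (hs : Fam z s) : (1 - pp s) * (1 - pp s) = 1 - pp s := by
  have : pp s * pp s = pp s := (hs.proj hz).isIdempotentElem.eq
  rw [sub_mul, mul_sub, mul_sub, this]
  simp

theorem sum_bb_cc (hz : IsCP M z) (hs : Fam z s) : ∑ m, bb s m * cc s m = 1 := by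
  rw [Fintype.sum_option]
  simp only [bb, cc]
  rw [q_mul_q hz hs]
  have h1 : ∑ m : Fin h × Fin h, s m.1 * star (s m.2) * ((h : ℂ)⁻¹ • (s m.2 * star (s m.1)))
      = pp s := by
    have h2 : ∀ m : Fin h × Fin h, s m.1 * star (s m.2) * ((h : ℂ)⁻¹ • (s m.2 * star (s m.1)))
        = (h : ℂ)⁻¹ • (s m.1 * star (s m.1)) := by
      intro m
      rw [mul_smul_comm]
      congr 1
      have : s m.1 * star (s m.2) * (s m.2 * star (s m.1))
          = s m.1 * (star (s m.2) * s m.2) * star (s m.1) := by simp only [mul_assoc]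
      rw [this, hs.same, hs.mul_z hz]
    simp only [h2]
    rw [Fintype.sum_prod_type]
    simp only [Finset.sum_const, Finset.card_univ, Fintype.card_fin]
    rw [← Finset.smul_sum, ← Finset.smul_sum, ← pp, ← Nat.cast_smul_eq_nsmul ℂ, smul_smul,
      mul_inv_cancel₀ (by exact_mod_cast NeZero.ne h), one_smul]
  rw [h1]
  simp

/-- the elements of the signed shift plus rest -/
noncomputable def vv (s : Fin h → Al M) (b : Fin h) : Option (Fin h) → Al M
  | none => 1 - pp s
  | some i => s (i + b) * star (s i)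

theorem star_q (hz : IsCP M z) (hs : Fam z s) : star (1 - pp s) = 1 - pp s := by
  rw [star_sub, star_one]
  congr 1
  exact (hs.proj hz).isSelfAdjoint.star_eq

theorem vv_orth (hz : IsCP M z) (hs : Fam z s) (b : Fin h) (o o' : Option (Fin h)) (ho : o ≠ o') :
    star (vv s b o) * vv s b o' = 0 := by
  rcases o with _ | i
  · rcases o' with _ | j
    · exact absurd rfl ho
    · simp only [vv]
      rw [star_q hz hs, ← mul_assoc, sub_mul, pp_mul_s hz hs, one_mul, sub_self, zero_mul]
  · rcases o' with _ | j
    · simp only [vv]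
      rw [star_mul, star_star, mul_assoc, mul_sub, star_s_mul_pp hz hs, mul_one, sub_self,
        mul_zero]
    · simp only [vv]
      have hij : i ≠ j := fun h' => ho (by rw [h'])
      have : star (s (i + b) * star (s i)) * (s (j + b) * star (s j))
          = s i * (star (s (i + b)) * s (j + b)) * star (s j) := by
        rw [star_mul, star_star]
        simp only [mul_assoc]
      rw [this, hs.diff (i + b) (j + b) (fun h' => hij (add_right_cancel h'))]
      simp

theorem vv_sum (hz : IsCP M z) (hs : Fam z s) (b : Fin h) :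
    ∑ o, star (vv s b o) * vv s b o = 1 := by
  rw [Fintype.sum_option]
  simp only [vv]
  rw [star_q hz hs, q_mul_q hz hs]
  have : ∑ i, star (s (i + b) * star (s i)) * (s (i + b) * star (s i)) = pp s := by
    rw [pp]
    refine Finset.sum_congr rfl fun i _ => ?_
    have : star (s (i + b) * star (s i)) * (s (i + b) * star (s i))
        = s i * (star (s (i + b)) * s (i + b)) * star (s i) := by
      rw [star_mul, star_star]
      simp only [mul_assoc]
    rw [this, hs.same, hs.mul_z hz]
  rw [this]
  simp

theorem norm_one_le' : ‖(1 : Al M)‖ ≤ 1 :=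
  norm_proj_le ⟨mul_one 1, star_one _⟩

theorem avg_eq (hz : IsCP M z) (hs : Fam z s) (T : En M) (y : Al M) :
    ∑ m, T (y * bb s m) * cc s m
      = (h : ℂ)⁻¹ • ∑ b : Fin h, ∑ o, T (y * star (vv s b o)) * vv s b o := by
  have h1 : ∀ b : Fin h, ∑ o, T (y * star (vv s b o)) * vv s b o
      = T (y * (1 - pp s)) * (1 - pp s)
        + ∑ i, T (y * (s i * star (s (i + b)))) * (s (i + b) * star (s i)) := by
    intro b
    rw [Fintype.sum_option]
    simp only [vv, star_mul, star_star, star_q hz hs]
  simp only [h1]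
  rw [Finset.sum_add_distrib, Finset.sum_const, Finset.card_univ, Fintype.card_fin, smul_add,
    ← Nat.cast_smul_eq_nsmul ℂ, smul_smul, inv_mul_cancel₀ (by exact_mod_cast NeZero.ne h),
    one_smul, Fintype.sum_option]
  simp only [bb, cc]
  congr 1
  rw [Finset.sum_comm]
  have h2 : ∀ i : Fin h, ∑ b, T (y * (s i * star (s (i + b)))) * (s (i + b) * star (s i))
      = ∑ l, T (y * (s i * star (s l))) * (s l * star (s i)) := by
    intro i
    exact Fintype.sum_equiv (Equiv.addLeft i) _
      (fun l => T (y * (s i * star (s l))) * (s l * star (s i))) (fun b => rfl)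
  simp only [h2]
  rw [Fintype.sum_prod_type, Finset.smul_sum]
  refine Finset.sum_congr rfl fun i _ => ?_
  rw [Finset.smul_sum]
  refine Finset.sum_congr rfl fun l _ => ?_
  rw [mul_smul_comm]

theorem norm_avg (hz : IsCP M z) (hs : Fam z s) (T : En M) (y : Al M) :
    ‖∑ m, T (y * bb s m) * cc s m‖ ≤ ‖T‖ * ‖y‖ := by
  rw [avg_eq hz hs, norm_smul, norm_inv, Complex.norm_natCast]
  have hh : (0 : ℝ) < h := by exact_mod_cast Nat.pos_of_ne_zero (NeZero.ne h)
  have h1 : ‖∑ b : Fin h, ∑ o, T (y * star (vv s b o)) * vv s b o‖ ≤ (h : ℝ) * (‖T‖ * ‖y‖) := by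
    refine (norm_sum_le _ _).trans ?_
    have h2 : ∀ b ∈ (Finset.univ : Finset (Fin h)),
        ‖∑ o, T (y * star (vv s b o)) * vv s b o‖ ≤ ‖T‖ * ‖y‖ := by
      intro b _
      have hq : ‖∑ o, star (vv s b o) * vv s b o‖ ≤ 1 := by
        rw [vv_sum hz hs b]
        exact norm_one_le'
      exact norm_avg_le T (fun o => star (vv s b o)) (vv s b)
        (norm_signed_star_le (vv s b) (fun o o' ho => vv_orth hz hs b o o' ho) hq)
        (norm_signed_le (vv s b) (fun o o' ho => vv_orth hz hs b o o' ho) hq) y
    refine (Finset.sum_le_sum h2).trans ?_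
    rw [Finset.sum_const, Finset.card_univ, Fintype.card_fin, nsmul_eq_mul]
  calc (h : ℝ)⁻¹ * ‖∑ b : Fin h, ∑ o, T (y * star (vv s b o)) * vv s b o‖
      ≤ (h : ℝ)⁻¹ * ((h : ℝ) * (‖T‖ * ‖y‖)) := by gcongr
    _ = ‖T‖ * ‖y‖ := by field_simp

theorem avg_right (hz : IsCP M z) (hs : Fam z s) (T : En M) (y : Al M) (m n : Fin h) :
    ∑ o, T (y * (s m * star (s n)) * bb s o) * cc s o
      = (∑ o, T (y * bb s o) * cc s o) * (s m * star (s n)) := by
  have hq1 : s m * star (s n) * (1 - pp s) = 0 := by
    rw [mul_assoc, mul_sub, star_s_mul_pp hz hs, mul_one, sub_self, mul_zero]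
  have hq2 : (1 - pp s) * (s m * star (s n)) = 0 := by
    rw [← mul_assoc, sub_mul, pp_mul_s hz hs, one_mul, sub_self, zero_mul]
  rw [Fintype.sum_option, Fintype.sum_option]
  simp only [bb, cc]
  rw [mul_assoc y, hq1, mul_zero, map_zero, zero_mul, zero_add, add_mul, mul_assoc (T _), hq2,
    mul_zero, zero_add, Fintype.sum_prod_type, Fintype.sum_prod_type, Finset.sum_mul]
  have h1 : ∀ i l : Fin h, y * (s m * star (s n)) * (s i * star (s l))
      = if n = i then y * (s m * star (s l)) else 0 := by
    intro i l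
    have : y * (s m * star (s n)) * (s i * star (s l))
        = y * (s m * (star (s n) * s i) * star (s l)) := by simp only [mul_assoc]
    rw [this]
    by_cases hni : n = i
    · subst hni
      rw [if_pos rfl, hs.same, hs.mul_z hz]
    · rw [if_neg hni, hs.diff n i hni]
      simp
  have h2 : ∀ (i l : Fin h) (w : Al M), w * ((h : ℂ)⁻¹ • (s l * star (s i))) * (s m * star (s n))
      = if i = m then w * ((h : ℂ)⁻¹ • (s l * star (s n))) else 0 := by
    intro i l w
    have : w * ((h : ℂ)⁻¹ • (s l * star (s i))) * (s m * star (s n))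
        = w * ((h : ℂ)⁻¹ • (s l * (star (s i) * s m) * star (s n))) := by
      rw [mul_assoc, smul_mul_assoc]
      simp only [mul_assoc]
    rw [this]
    by_cases him : i = m
    · subst him
      rw [if_pos rfl, hs.same, hs.mul_z hz]
    · rw [if_neg him, hs.diff i m him]
      simp
  have hL : ∑ i, ∑ l, T (y * (s m * star (s n)) * (s (i, l).1 * star (s (i, l).2))) *
      ((h : ℂ)⁻¹ • (s (i, l).2 * star (s (i, l).1)))
      = ∑ l, T (y * (s m * star (s l))) * ((h : ℂ)⁻¹ • (s l * star (s n))) := by
    rw [Finset.sum_eq_single n]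
    · refine Finset.sum_congr rfl fun l _ => ?_
      rw [h1, if_pos rfl]
    · intro i _ hi
      refine Finset.sum_eq_zero fun l _ => ?_
      rw [h1, if_neg (Ne.symm hi)]
      simp
    · intro h
      exact absurd (Finset.mem_univ n) h
  have hR : ∑ i, (∑ l, T (y * (s (i, l).1 * star (s (i, l).2))) *
      ((h : ℂ)⁻¹ • (s (i, l).2 * star (s (i, l).1)))) * (s m * star (s n))
      = ∑ l, T (y * (s m * star (s l))) * ((h : ℂ)⁻¹ • (s l * star (s n))) := by
    rw [Finset.sum_eq_single m]
    · rw [Finset.sum_mul]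
      refine Finset.sum_congr rfl fun l _ => ?_
      rw [h2, if_pos rfl]
    · intro i _ hi
      rw [Finset.sum_mul]
      refine Finset.sum_eq_zero fun l _ => ?_
      rw [h2, if_neg hi]
    · intro h
      exact absurd (Finset.mem_univ m) h
  rw [hL, hR]

/-- the averaged map -/
noncomputable def avg (hz : IsCP M z) (hs : Fam z s) (T : En M) : En M :=
  LinearMap.mkContinuous
    { toFun := fun y => ∑ m, T (y * bb s m) * cc s m
      map_add' := by
        intro x y
        simp only [add_mul, map_add, Finset.sum_add_distrib]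
      map_smul' := by
        intro c x
        simp only [smul_mul_assoc, map_smul, Finset.smul_sum, RingHom.id_apply] }
    ‖T‖ (norm_avg hz hs T)

theorem avg_apply (hz : IsCP M z) (hs : Fam z s) (T : En M) (y : Al M) :
    avg hz hs T y = ∑ m, T (y * bb s m) * cc s m := rfl

theorem norm_avg_le' (hz : IsCP M z) (hs : Fam z s) (T : En M) : ‖avg hz hs T‖ ≤ ‖T‖ :=
  LinearMap.mkContinuous_norm_le _ (norm_nonneg _) _

/-- `T ↦ avg T (1)` -/
noncomputable def avg1 (hz : IsCP M z) (hs : Fam z s) : En M →L[ℂ] Al M :=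
  LinearMap.mkContinuous
    { toFun := fun T => avg hz hs T 1
      map_add' := by
        intro x y
        simp only [avg_apply, add_apply, add_mul, Finset.sum_add_distrib]
      map_smul' := by
        intro c x
        simp only [avg_apply, smul_apply, smul_mul_assoc, Finset.smul_sum,
          RingHom.id_apply] }
    1 (fun T => by
      have h1 := (avg hz hs T).le_opNorm 1
      have h2 := norm_avg_le' hz hs T
      have h3 := norm_one_le' (M := M)
      change ‖avg hz hs T 1‖ ≤ 1 * ‖T‖
      calc ‖avg hz hs T 1‖ ≤ ‖avg hz hs T‖ * ‖(1 : Al M)‖ := h1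
        _ ≤ ‖T‖ * 1 := by gcongr
        _ = 1 * ‖T‖ := by ring)

theorem avg1_apply (hz : IsCP M z) (hs : Fam z s) (T : En M) :
    avg1 hz hs T = ∑ m, T (bb s m) * cc s m := by
  change avg hz hs T 1 = _
  rw [avg_apply]
  simp only [one_mul]

theorem norm_avg1_le (hz : IsCP M z) (hs : Fam z s) : ‖avg1 hz hs‖ ≤ 1 :=
  LinearMap.mkContinuous_norm_le _ zero_le_one _

/-- `T ↦ avg T - L_{avg T (1)}` -/
noncomputable def lam (hz : IsCP M z) (hs : Fam z s) : En M →L[ℂ] En M :=
  LinearMap.mkContinuous
    { toFun := fun T => avg hz hs T - Lm (avg1 hz hs T)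
      map_add' := by
        intro S T
        refine ContinuousLinearMap.ext fun y => ?_
        simp only [avg_apply, sub_apply, add_apply, add_mul,
          Finset.sum_add_distrib, map_add, Lm_apply]
        abel
      map_smul' := by
        intro c T
        refine ContinuousLinearMap.ext fun y => ?_
        simp only [avg_apply, sub_apply, smul_apply,
          smul_mul_assoc, Finset.smul_sum, RingHom.id_apply, map_smul, Lm_apply, smul_sub] }
    2 (fun T => by
      have h2 := norm_avg_le' hz hs T
      have h3 : ‖Lm (avg1 hz hs T)‖ ≤ ‖T‖ := by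
        refine (ContinuousLinearMap.opNorm_mul_apply_le ℂ (Al M) _).trans ?_
        refine ((avg1 hz hs).le_opNorm T).trans ?_
        calc ‖avg1 hz hs‖ * ‖T‖ ≤ 1 * ‖T‖ := by
              gcongr
              exact norm_avg1_le hz hs
          _ = ‖T‖ := one_mul _
      refine (norm_sub_le _ _).trans ?_
      linarith)

theorem lam_apply (hz : IsCP M z) (hs : Fam z s) (T : En M) (y : Al M) :
    lam hz hs T y = (∑ m, T (y * bb s m) * cc s m) - (∑ m, T (bb s m) * cc s m) * y := by
  change (avg hz hs T - Lm (avg1 hz hs T)) y = _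
  rw [sub_apply, avg_apply, Lm_apply, avg1_apply]

theorem norm_lam_le (hz : IsCP M z) (hs : Fam z s) : ‖lam hz hs‖ ≤ 2 :=
  LinearMap.mkContinuous_norm_le _ zero_le_two _

theorem lam_right (hz : IsCP M z) (hs : Fam z s) (T : En M) (y : Al M) (m n : Fin h) :
    lam hz hs T (y * (s m * star (s n))) = lam hz hs T y * (s m * star (s n)) := by
  rw [lam_apply, lam_apply, avg_right hz hs, sub_mul, mul_assoc _ y]

end Crest.Agent.R121.PI
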