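import Crest.Agent.R124.VNSplit

/-!
# Row 121: matrix units of size `2 ^ l` in a corner without abelian subprojections
-/

set_option autoImplicit false

namespace Crest.Agent.R121

open scoped InnerProductSpace
open Crest.Agent.R124

universe u

variable {H : Type u} [NormedAddCommGroup H] [InnerProductSpace ℂ H] [CompleteSpace H]

/-- `e` is an abelian element of `M`: `e M e` is commutative. -/
def IsAb (M : VonNeumannAlgebra H) (e : H →L[ℂ] H) : Prop :=
  ∀ x ∈ M, ∀ y ∈ M, (e * x * e) * (e * y * e) = (e * y * e) * (e * x * e)

/-- Halving below `f` when `f` dominates no abelian projection. -/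
lemma halving_exact (M : VonNeumannAlgebra H) {f g : H →L[ℂ] H}
    (hg : IsStarProjection g) (hgM : g ∈ M) (hfg : f * g = g)
    (hnab : ∀ e ∈ M, IsStarProjection e → f * e = e → IsAb M e → e = 0) :
    ∃ W ∈ M, g * W = W ∧ W * g = W ∧ W * W = 0 ∧ W * star W * W = W ∧
      star W * W + W * star W = g := by
  obtain ⟨W, e, hWM, heM, he, hgW, hWg, hWW, hWpi, hsum, hab⟩ := halving M hg hgM
  have hgg : g * g = g := hg.isIdempotentElem
  have hgs : star g = g := hg.isSelfAdjoint
  have hgWs : g * star W = star W := by
    have := congrArg star hWg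
    rwa [star_mul, hgs] at this
  have hge : g * e = e := by
    have h1 : e = g - star W * W - W * star W := by
      rw [← hsum]; abel
    calc g * e = g * g - (g * star W) * W - (g * W) * star W := by
            rw [h1]; simp only [mul_sub, mul_assoc]
      _ = g - star W * W - W * star W := by rw [hgg, hgWs, hgW]
      _ = e := h1.symm
  have hfe : f * e = e := by
    calc f * e = f * (g * e) := by rw [hge]
      _ = (f * g) * e := by rw [mul_assoc]
      _ = e := by rw [hfg, hge]
  have he0 : e = 0 := hnab e heM he hfe hab
  refine ⟨W, hWM, hgW, hWg, hWW, hWpi, ?_⟩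
  rw [he0, add_zero] at hsum
  exact hsum

/-- columns -/
lemma corner_cols (M : VonNeumannAlgebra H) {f : H →L[ℂ] H}
    (hf : IsStarProjection f) (hfM : f ∈ M)
    (hnab : ∀ e ∈ M, IsStarProjection e → f * e = e → IsAb M e → e = 0) (l : ℕ) :
    ∃ (ι : Type) (_ : Fintype ι) (_ : DecidableEq ι) (a : ι → H →L[ℂ] H) (g : H →L[ℂ] H),
      Fintype.card ι = 2 ^ l ∧ (∀ i, a i ∈ M) ∧ g ∈ M ∧ IsStarProjection g ∧ f * g = g ∧
      (∀ i j, star (a i) * a j = if i = j then g else 0) ∧
      (∀ i, a i * g = a i) ∧ (∀ i, f * a i = a i) ∧ ∑ i, a i * star (a i) = f := by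
  have hff : f * f = f := hf.isIdempotentElem
  have hfs : star f = f := hf.isSelfAdjoint
  induction l with
  | zero =>
    refine ⟨Unit, inferInstance, inferInstance, fun _ => f, f, by simp, fun _ => hfM,
      hfM, hf, hff, ?_, ?_, ?_, ?_⟩
    · intro i j; simp [hfs, hff]
    · intro i; exact hff
    · intro i; exact hff
    · simp [hfs, hff]
  | succ l ih =>
    obtain ⟨ι, _, _, a, g, hcard, haM, hgM, hg, hfg, horth, hag, hfa, hsum⟩ := ih
    obtain ⟨W, hWM, hgW, hWg, hWW, hWpi, hW⟩ := halving_exact M hg hgM hfg hnab
    have hgs : star g = g := hg.isSelfAdjoint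
    have hgg : g * g = g := hg.isIdempotentElem
    have hgWs : g * star W = star W := by
      have := congrArg star hWg
      rwa [star_mul, hgs] at this
    have hWsg : star W * g = star W := by
      have := congrArg star hgW
      rwa [star_mul, hgs] at this
    have hWsWs : star W * star W = 0 := by
      have := congrArg star hWW
      rwa [star_mul, star_zero] at this
    have hpi' : star W * W * star W = star W := by
      have := congrArg star hWpi
      rw [star_mul, star_mul, star_star] at this
      rw [mul_assoc]; exact this
    set g' := W * star W with hg'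
    have hg'p : IsStarProjection g' := by
      refine ⟨?_, ?_⟩
      · change g' * g' = g'
        calc g' * g' = (W * star W * W) * star W := by rw [hg']; noncomm_ring
          _ = g' := by rw [hWpi]
      · change star g' = g'
        rw [hg', star_mul, star_star]
    have hg'g : g * g' = g' := by rw [hg', ← mul_assoc, hgW]
    have hW' : star W * W = g - g' := by rw [← hW, hg']; abel
    refine ⟨ι × Bool, inferInstance, inferInstance,
      fun p => if p.2 then a p.1 * g' else a p.1 * star W, g', ?_, ?_, ?_, hg'p, ?_, ?_, ?_, ?_, ?_⟩
    · rw [Fintype.card_prod, hcard, Fintype.card_bool, pow_succ]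
    · rintro ⟨i, b⟩
      cases b
      · exact mul_mem (haM i) (star_mem hWM)
      · exact mul_mem (haM i) (mul_mem hWM (star_mem hWM))
    · exact mul_mem hWM (star_mem hWM)
    · calc f * g' = f * (g * g') := by rw [hg'g]
        _ = (f * g) * g' := by rw [mul_assoc]
        _ = g' := by rw [hfg, hg'g]
    · rintro ⟨i, b⟩ ⟨j, c⟩
      have key : ∀ x y : H →L[ℂ] H, star (a i * x) * (a j * y)
          = if i = j then star x * g * y else 0 := by
        intro x y
        have e1 : star (a i * x) * (a j * y) = star x * (star (a i) * a j) * y := by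
          rw [star_mul]; noncomm_ring
        rw [e1, horth]
        split_ifs <;> simp
      have hg's : star g' = g' := hg'p.isSelfAdjoint
      have hg'i : g' * g' = g' := hg'p.isIdempotentElem
      by_cases hij : i = j
      · subst hij
        cases b <;> cases c
        · simp only [Bool.false_eq_true, if_false]
          rw [key, if_pos rfl, star_star, hWg]
          simp [hg']
        · simp only [Bool.false_eq_true, if_false, if_true]
          rw [key, if_pos rfl, star_star, if_neg (by simp), hWg, hg', ← mul_assoc, hWW, zero_mul]
        · simp only [Bool.false_eq_true, if_false, if_true]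
          rw [key, if_pos rfl, if_neg (by simp), hg's, mul_assoc, hgWs, hg', mul_assoc, hWsWs,
            mul_zero]
        · simp only [if_true]
          rw [key, if_pos rfl, hg's, mul_assoc, hg'g, hg'i]
      · cases b <;> cases c <;>
          simp only [Bool.false_eq_true, if_false, if_true] <;>
          rw [key, if_neg hij, if_neg (by simp [hij])]
    · rintro ⟨i, b⟩
      have hg'i : g' * g' = g' := hg'p.isIdempotentElem
      cases b
      · simp only [Bool.false_eq_true, if_false]
        rw [mul_assoc, hg', ← mul_assoc (star W), hpi']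
      · simp only [if_true]
        rw [mul_assoc, hg'i]
    · rintro ⟨i, b⟩
      cases b
      · simp only [Bool.false_eq_true, if_false]
        rw [← mul_assoc, hfa]
      · simp only [if_true]
        rw [← mul_assoc, hfa]
    · rw [Fintype.sum_prod_type]
      simp only [Fintype.sum_bool, if_true, Bool.false_eq_true, if_false]
      rw [← hsum]
      refine Finset.sum_congr rfl fun i _ => ?_
      have hg's : star g' = g' := hg'p.isSelfAdjoint
      have hg'i : g' * g' = g' := hg'p.isIdempotentElem
      calc a i * g' * star (a i * g') + a i * star W * star (a i * star W)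
          = a i * (g' * g' + star W * W) * star (a i) := by
            rw [star_mul (a i) g', hg's, star_mul (a i) (star W), star_star]; noncomm_ring
        _ = a i * g * star (a i) := by rw [hg'i, hW']; congr 2; abel
        _ = a i * star (a i) := by rw [hag]

/-- **Matrix units of size `2 ^ l` in the corner `f M f`** when `f` dominates no abelian
projection. -/
theorem corner_units (M : VonNeumannAlgebra H) {f : H →L[ℂ] H}
    (hf : IsStarProjection f) (hfM : f ∈ M)
    (hnab : ∀ e ∈ M, IsStarProjection e → f * e = e → IsAb M e → e = 0) (l : ℕ) :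
    ∃ E : Fin (2 ^ l) → Fin (2 ^ l) → (H →L[ℂ] H),
      (∀ i j, E i j ∈ M) ∧ (∀ i j, f * E i j = E i j) ∧ (∀ i j, E i j * f = E i j) ∧
      (∀ i j k m, E i j * E k m = if j = k then E i m else 0) ∧
      (∀ i j, star (E i j) = E j i) ∧ ∑ i, E i i = f := by
  obtain ⟨ι, _, _, a, g, hcard, haM, hgM, hg, hfg, horth, hag, hfa, hsum⟩ :=
    corner_cols M hf hfM hnab l
  have hfs : star f = f := hf.isSelfAdjoint
  let φ : Fin (2 ^ l) ≃ ι := (Fintype.equivFinOfCardEq hcard).symm
  refine ⟨fun i j => a (φ i) * star (a (φ j)), ?_, ?_, ?_, ?_, ?_, ?_⟩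
  · intro i j
    exact mul_mem (haM _) (star_mem (haM _))
  · intro i j
    rw [← mul_assoc, hfa]
  · intro i j
    have h1 : star (a (φ j)) * f = star (a (φ j)) := by
      have := congrArg star (hfa (φ j))
      rwa [star_mul, hfs] at this
    rw [mul_assoc, h1]
  · intro i j k m
    have e1 : a (φ i) * star (a (φ j)) * (a (φ k) * star (a (φ m)))
        = a (φ i) * (star (a (φ j)) * a (φ k)) * star (a (φ m)) := by noncomm_ring
    rw [e1, horth]
    by_cases hjk : j = k
    · rw [if_pos hjk, if_pos (by rw [hjk]), hag]
    · rw [if_neg hjk, if_neg (fun h => hjk (φ.injective h))]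
      simp
  · intro i j
    rw [star_mul, star_star]
  · rw [← hsum]
    exact Equiv.sum_comp φ (fun i => a i * star (a i))

end Crest.Agent.R121
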