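import Mathlib
import Crest.Agent.R121.Fin.Asm
import Crest.Agent.R121.Corner
import Crest.Agent.R121.Units
import Crest.Agent.R121.Dich

/-!
# Row 121, block FIN: the averaging functional of a finite corner without abelian projections
-/

set_option autoImplicit false
set_option linter.unusedSectionVars false

namespace Crest.Agent.R121

open scoped InnerProductSpace Topology
open ContinuousLinearMap Filter Finset Crest.Agent.R121.Fin

noncomputable section

universe u

variable {H : Type u} [NormedAddCommGroup H] [InnerProductSpace ℂ H] [CompleteSpace H]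
variable {M : VonNeumannAlgebra H}

lemma neBot_idx (X : Type*) : (atTop : Filter (Finset X × ℕ)).NeBot := by
  classical
  infer_instance

/-- the ultralimit: an averaging operator whose cut is exactly right modular for the unitaries of
the corner -/
theorem exists_exact {p : M.toStarSubalgebra} {ξ : H} {K : ℝ} (hc : Cor (vinc M) p ξ K)
    (hsep : ∀ x : M.toStarSubalgebra, x * p = x → (x : H →L[ℂ] H) ξ = 0 → x = 0)
    (hmu : ∀ l : ℕ, ∃ e : Fin (2 ^ l) → Fin (2 ^ l) → M.toStarSubalgebra, MU p (2 ^ l) e) :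
    ∃ Λ : EndA M →ₗ[ℂ] EndA M, IsAvg Λ ∧ ∀ (T : EndA M) (y a : M.toStarSubalgebra), CU p a →
      cut p (Λ T) (y * star a) * a = cut p (Λ T) y := by
  classical
  have hp := hc.star_p
  have hpp := hc.p_p
  let I := Finset (EndA M × M.toStarSubalgebra × {a : M.toStarSubalgebra // CU p a}) × ℕ
  have : (atTop : Filter I).NeBot := neBot_idx _
  choose Λ hΛ hΛF using fun i : I => approx hc hmu i.1
    (δ := 1 / ((i.2 : ℝ) + 1)) (by positivity)
  let 𝒰 : Ultrafilter I := Ultrafilter.of atTop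
  have h𝒰 : (𝒰 : Filter I) ≤ atTop := Ultrafilter.of_le _
  obtain ⟨Λ', hΛ', hlim⟩ := exists_limit 𝒰 hΛ
  refine ⟨Λ', hΛ', fun T y a ha => ?_⟩
  have hcutlim : ∀ x : M.toStarSubalgebra, WTends 𝒰
      (fun i => ((cut p (Λ i T) x : M.toStarSubalgebra) : H →L[ℂ] H))
      ((cut p (Λ' T) x : M.toStarSubalgebra) : H →L[ℂ] H) := fun x =>
    (hlim T (x * p)).mul_right (p : H →L[ℂ] H)
  have hD : WTends 𝒰 (fun i => ((cut p (Λ i T) (y * star a) * a - cut p (Λ i T) y :
      M.toStarSubalgebra) : H →L[ℂ] H))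
      ((cut p (Λ' T) (y * star a) * a - cut p (Λ' T) y : M.toStarSubalgebra) : H →L[ℂ] H) :=
    ((hcutlim (y * star a)).mul_right (a : H →L[ℂ] H)).sub (hcutlim y)
  have hle : ∀ n : ℕ, ‖((cut p (Λ' T) (y * star a) * a - cut p (Λ' T) y :
      M.toStarSubalgebra) : H →L[ℂ] H) ξ‖ ≤ 1 / ((n : ℝ) + 1) := by
    intro n
    refine WTends.norm_apply_le hD ξ (by positivity) ?_
    have h1 : ∀ᶠ i : I in atTop, ((({(T, y, ⟨a, ha⟩)} : Finset _), n) : I) ≤ i :=
      eventually_ge_atTop _
    filter_upwards [h𝒰 h1] with i hi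
    have h2 := hΛF i (T, y, ⟨a, ha⟩) (hi.1 (mem_singleton_self _))
    refine h2.trans ?_
    have h3 : (n : ℝ) ≤ i.2 := by exact_mod_cast hi.2
    exact one_div_le_one_div_of_le (by positivity) (by linarith)
  have hzero : ((cut p (Λ' T) (y * star a) * a - cut p (Λ' T) y :
      M.toStarSubalgebra) : H →L[ℂ] H) ξ = 0 := by
    rw [← norm_le_zero_iff]
    exact ge_of_tendsto' tendsto_one_div_add_atTop_nhds_zero_nat hle
  refine sub_eq_zero.1 (hsep _ ?_ hzero)
  rw [sub_mul, mul_assoc, ha.right, cut_p hpp]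

theorem cavg_of {p : M.toStarSubalgebra} {ξ : H} {K : ℝ} (hc : Cor (vinc M) p ξ K)
    (hsep : ∀ x : M.toStarSubalgebra, x * p = x → (x : H →L[ℂ] H) ξ = 0 → x = 0)
    (hmu : ∀ l : ℕ, ∃ e : Fin (2 ^ l) → Fin (2 ^ l) → M.toStarSubalgebra, MU p (2 ^ l) e) :
    ∃ S : En M → Al M → Al M, IsCAvg p S := by
  have hp := hc.star_p
  have hpp := hc.p_p
  obtain ⟨Λ, hΛ, hex⟩ := exists_exact hc hsep hmu
  have hu : ∀ (T : EndA M) (y a : M.toStarSubalgebra), CU p a →
      cut p (Λ T) (y * a) - cut p (Λ T) y * a = 0 := by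
    intro T y a ha
    have h1 := hex T y (star a) (ha.star' hp)
    rw [star_star] at h1
    have h2 : cut p (Λ T) (y * a) * star a * a = cut p (Λ T) y * a := by rw [h1]
    rw [mul_assoc, ha.st_mul, cut_p hpp] at h2
    rw [h2, sub_self]
  have hmod : ∀ (T : EndA M) (y a : M.toStarSubalgebra), p * a = a → a * p = a →
      cut p (Λ T) (y * a) = cut p (Λ T) y * a := by
    intro T y a hl hr
    let f : M.toStarSubalgebra →ₗ[ℂ] M.toStarSubalgebra :=
      { toFun := fun a => cut p (Λ T) (y * a) - cut p (Λ T) y * a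
        map_add' := fun a b => by
          rw [mul_add, map_add, mul_add]; abel
        map_smul' := fun c a => by
          rw [mul_smul_comm, map_smul, mul_smul_comm, RingHom.id_apply, smul_sub] }
    exact sub_eq_zero.1 (corner_span hp hpp f (fun v hv => hu T y v hv) hl hr)
  refine ⟨fun T y => cut p (Λ T) y, ?_, ?_, ?_, ?_, ?_, ?_, ?_, ?_, ?_, ?_⟩
  · intro T T' y _
    rw [map_add, cut_add]; rfl
  · intro c T y _
    rw [map_smul, cut_smul]; rfl
  · intro T y y' _ _
    rw [map_add]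
  · intro T c y _
    rw [map_smul]
  · intro T y _
    exact (cut p (Λ T)).le_of_opNorm_le ((norm_cut_le hp hpp _).trans (hΛ.norm T)) y
  · intro T y _
    exact cut_p hpp _ _
  · intro a T y _
    rw [hΛ.left]
    simp [mul_assoc]
  · intro b T y _
    rw [hΛ.right]
    simp [mul_assoc]
  · intro d y hy
    rw [hΛ.unit, cut_apply, Lm_apply, hy, mul_assoc, hy]
  · intro T y a _ hl hr
    exact hmod T y a hl hr

/-- **the finite corner** -/
theorem rho_fin {f : H →L[ℂ] H} (hfM : f ∈ M) (hf : IsStarProjection f) {ξ : H} {C : ℝ}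
    (htr : CTr M f ξ C)
    (hnab : ∀ e ∈ M, IsStarProjection e → f * e = e →
      (∀ x ∈ M, ∀ y ∈ M, (e * x * e) * (e * y * e) = (e * y * e) * (e * x * e)) → e = 0) :
    ∃ ρ : En M → Al M, IsRho (bdS M) ⟨R124.csupp M f, R124.csupp_mem M f hfM⟩ 1 ρ := by
  obtain ⟨hC, hfξ, htr1, htr2⟩ := htr
  set p : M.toStarSubalgebra := ⟨f, hfM⟩ with hpdef
  have hpP : IsStarProjection p :=
    ⟨Subtype.ext hf.isIdempotentElem, Subtype.ext hf.isSelfAdjoint⟩
  have hc : Cor (vinc M) p ξ C := by
    refine ⟨hpP.isSelfAdjoint, hpP.isIdempotentElem, hfξ, hC, fun x h1 h2 => ?_⟩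
    have h3 : f * star (x : H →L[ℂ] H) = star (x : H →L[ℂ] H) := by
      have := congrArg (fun z : M.toStarSubalgebra => (star z : H →L[ℂ] H)) h2
      have h4 : star (f : H →L[ℂ] H) = f := hf.isSelfAdjoint
      simpa [star_mul, h4, hpdef] using this
    have h3' : star (x : H →L[ℂ] H) * f = star (x : H →L[ℂ] H) := by
      have := congrArg (fun z : M.toStarSubalgebra => (star z : H →L[ℂ] H)) h1
      have h4 : star (f : H →L[ℂ] H) = f := hf.isSelfAdjoint
      simpa [star_mul, h4, hpdef] using this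
    have h5 := htr1 (star (x : H →L[ℂ] H)) (star_mem x.2) h3 h3'
    rw [star_star] at h5
    exact h5
  have hsep : ∀ x : M.toStarSubalgebra, x * p = x → (x : H →L[ℂ] H) ξ = 0 → x = 0 :=
    fun x h1 h2 => Subtype.ext (htr2 x x.2 (congrArg Subtype.val h1) h2)
  have hmu : ∀ l : ℕ, ∃ e : Fin (2 ^ l) → Fin (2 ^ l) → M.toStarSubalgebra, MU p (2 ^ l) e := by
    intro l
    obtain ⟨E, hEM, _, _, hE1, hE2, hE3⟩ := corner_units M hf hfM hnab l
    refine ⟨fun i j => ⟨E i j, hEM i j⟩, ?_, fun i j => Subtype.ext (hE2 i j), Subtype.ext ?_⟩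
    · intro i j k m
      refine Subtype.ext ?_
      have := hE1 i j k m
      by_cases hjk : j = k
      · rw [if_pos hjk] at this ⊢
        exact this
      · rw [if_neg hjk] at this ⊢
        exact this
    · refine (map_sum (M.toStarSubalgebra.subtype) _ _).trans ?_
      exact hE3
  obtain ⟨S, hS⟩ := cavg_of hc hsep hmu
  exact rho_of_cavg hpP isCS_csuppA hS

end

end Crest.Agent.R121
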