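import Crest.Agent.R121.Sum
import Crest.Agent.R121.Defs

/-!
# Row 121: strong sums of local solutions (interface form)
-/

set_option autoImplicit false

namespace Crest.Agent.R121

open scoped InnerProductSpace

variable {H : Type*} [NormedAddCommGroup H] [InnerProductSpace ℂ H] [CompleteSpace H]
variable {M : VonNeumannAlgebra H}

theorem good_sum {k : ℕ} {C : ℝ} (hC : 0 ≤ C)
    (h : ∀ p : Al M, IsCP M p → p ≠ 0 → ∃ z : Al M, IsCP M z ∧ z ≠ 0 ∧ z * p = z ∧ Good M k C z) :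
    Good M k C 1 := by
  intro f hf
  have hR : 0 ≤ C * ‖f‖ := mul_nonneg hC (norm_nonneg _)
  obtain ⟨g, hg, hg'⟩ := sum_of_local' M k f (C * ‖f‖) (by
    intro z hz0 hzs hzz hzc
    obtain ⟨c, hc, hc0, hcz, hgood⟩ := h z ⟨⟨hzz, hzs⟩, hzc⟩ hz0
    obtain ⟨g, hg, hg'⟩ := hgood f hf
    refine ⟨c, hc0, hc.proj.isSelfAdjoint, hc.proj.isIdempotentElem, hc.comm, ?_, g, hg, ?_⟩
    · rw [hzc, hcz]
    · intro a
      rw [hg', hc.comm])
  rw [max_eq_left hR] at hg
  exact ⟨g, hg, fun a => by rw [hg', mul_one]⟩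

end Crest.Agent.R121
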